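import Vale.Agent.P354I.Defs

/-!
Block C of the conditional track: an approximate solution of the constraint equations whose
defect lives in a cone is corrected to an exact solution, with a tail in the cone.
Definitions and the exact statement CORR.
-/

open scoped ContDiff
open Set

noncomputable section

namespace Vale.Agent.P354XC

open Vale.Agent.P354I (X Dat ee pd)

/-- The cone. -/
def Gam (R : ℝ) : Set X := {x | R ≤ x 0 ∧ |x 1| ≤ x 0 ∧ |x 2| ≤ x 0}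

/-- The vector fields at the scale s: s.1 times the radial field, s.2 times x0 d/dxA. -/
def vf (s : ℝ × ℝ) (i : Fin 3) (x : X) : X := if i = 0 then s.1 • x else (s.2 * x 0) • ee i

def Z (s : ℝ × ℝ) (i : Fin 3) (f : X → ℝ) (x : X) : ℝ := fderiv ℝ f x (vf s i x)

/-- Bounds of order k on the cone with the weight W (x 0) and the constant c. -/
def Bd (R : ℝ) (s : ℝ × ℝ) (W : ℝ → ℝ) : ℕ → (X → ℝ) → ℝ → Prop
  | 0, f, c => 0 ≤ c ∧ ∀ x ∈ Gam R, |f x| ≤ c * W (x 0)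
  | k + 1, f, c => ∃ (c0 : ℝ) (ci : Fin 3 → ℝ), c0 + ∑ i, ci i ≤ c ∧ Bd R s W k f c0 ∧
      ∀ i, Bd R s W k (Z s i f) (ci i)

/-- The two constraints and the defects. -/
def Ham (d : Dat) (y : X) : ℝ := d.scal y + d.trK y ^ 2 - d.sqK y
def Mom (d : Dat) (j : Fin 3) (y : X) : ℝ := d.divK j y - pd j d.trK y
def EH (d : Dat) (y : X) : ℝ := (d.h y).det * Ham d y
def EM (d : Dat) (b : Fin 3) (y : X) : ℝ := ∑ j, (d.h y)⁻¹ b j * Mom d j y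

/-- Smooth symmetric data with invertible h on U. -/
def Reg (U : Set X) (d : Dat) : Prop :=
  (∀ i j, ContDiffOn ℝ ∞ (fun y => d.h y i j) U ∧ ContDiffOn ℝ ∞ (fun y => d.K y i j) U) ∧
    ∀ y ∈ U, (d.h y).IsSymm ∧ (d.K y).IsSymm ∧ (d.h y).det ≠ 0

/-- The hypotheses at the order k and the scale s. -/
def Hyp (N : ℕ) (R : ℝ) (s : ℝ × ℝ) (k : ℕ) (L δ : ℝ) (d : Dat) : Prop :=
  2 ≤ L ∧ δ * Real.exp (L ^ N) ≤ R ∧
    (∀ i j, Bd R s (fun _ => 1) k (fun y => d.h y i j) L ∧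
      (∀ l, Bd R s (fun t => R / t ^ 2) k (pd l fun y => d.h y i j) L) ∧
      Bd R s (fun t => R / t ^ 2) k (fun y => d.K y i j) L) ∧
    Bd R s (fun _ => 1) k (fun y => (d.h y).det⁻¹) L ∧
    Bd R s (fun t => R / t ^ 4) k (EH d) δ ∧ ∀ b, Bd R s (fun t => R / t ^ 4) k (EM d b) δ

/-- Second derivatives of h and first derivatives of K. -/
def Hyp2 (R : ℝ) (s : ℝ × ℝ) (k : ℕ) (L : ℝ) (d : Dat) : Prop :=
  ∀ i j l, (∀ m, Bd R s (fun t => R / t ^ 3) k (pd m (pd l fun y => d.h y i j)) L) ∧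
    Bd R s (fun t => R / t ^ 3) k (pd l fun y => d.K y i j) L

/-- The size of the correction. -/
def Out (R : ℝ) (s : ℝ × ℝ) (k : ℕ) (C : ℝ) (d d' : Dat) : Prop :=
  ∀ i j, Bd R s (fun t => 1 / t) k (fun y => d'.h y i j - d.h y i j) C ∧
    (∀ l, Bd R s (fun t => 1 / t ^ 2) k (pd l fun y => d'.h y i j - d.h y i j) C) ∧
    Bd R s (fun t => 1 / t ^ 2) k (fun y => d'.K y i j - d.K y i j) C

def Out2 (R : ℝ) (s : ℝ × ℝ) (k : ℕ) (C : ℝ) (d d' : Dat) : Prop :=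
  ∀ i j l,
    (∀ m, Bd R s (fun t => 1 / t ^ 3) k (pd m (pd l fun y => d'.h y i j - d.h y i j)) C) ∧
    Bd R s (fun t => 1 / t ^ 3) k (pd l fun y => d'.K y i j - d.K y i j) C

/-- CORR: approximate solutions are corrected to exact solutions; the bounds hold at every small
scale at which the hypotheses hold. -/
def CORR : Prop :=
  ∃ (N : ℕ) (m : ℕ → ℝ), (∀ k, 0 < m k) ∧ ∀ (R : ℝ) (U : Set X) (d : Dat), 0 < R → IsOpen U →
    Gam R ⊆ U → Reg U d → (∀ y ∈ U, y ∉ Gam R → Ham d y = 0 ∧ ∀ j, Mom d j y = 0) →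
    (∀ k, ∃ μ > 0, ∃ L δ, Hyp N R (μ, μ) k L δ d) →
    ∃ d' : Dat, Reg U d' ∧ (∀ y ∉ Gam R, d'.h y = d.h y ∧ d'.K y = d.K y) ∧
      (∀ y ∈ U, Ham d' y = 0 ∧ ∀ j, Mom d' j y = 0) ∧
      ∀ k (s : ℝ × ℝ) L δ, s.1 ∈ Icc 0 (m k) → s.2 ∈ Icc 0 (m k) → Hyp N R s k L δ d →
        Out R s k (δ * Real.exp (L ^ N)) d d' ∧
        ∀ k' L2, k = k' + 1 → 0 < s.2 → Hyp2 R s k' L2 d →
          Out2 R s k' (δ * Real.exp (L ^ N) * (1 + L2) / s.2) d d'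

/-- Closed subsets of the cone which are invariant under the translations by the cone. -/
def Cone (R : ℝ) (S : Set X) : Prop :=
  IsClosed S ∧ S ⊆ Gam R ∧
    ∀ y ∈ S, ∀ s : ℝ, 0 ≤ s → ∀ w : X, w 0 = 1 → |w 1| ≤ 1 → |w 2| ≤ 1 → y + s • w ∈ S

/-- CORR2: the same with the support in an invariant set S. -/
def CORR2 : Prop :=
  ∃ (N : ℕ) (m : ℕ → ℝ), (∀ k, 0 < m k) ∧ ∀ (R : ℝ) (U S : Set X) (d : Dat), 0 < R → IsOpen U →
    Gam R ⊆ U → Cone R S → Reg U d → (∀ y ∈ U, y ∉ S → Ham d y = 0 ∧ ∀ j, Mom d j y = 0) →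
    (∀ k, ∃ μ > 0, ∃ L δ, Hyp N R (μ, μ) k L δ d) →
    ∃ d' : Dat, Reg U d' ∧ (∀ y ∉ S, d'.h y = d.h y ∧ d'.K y = d.K y) ∧
      (∀ y ∈ U, Ham d' y = 0 ∧ ∀ j, Mom d' j y = 0) ∧
      ∀ k (s : ℝ × ℝ) L δ, s.1 ∈ Icc 0 (m k) → s.2 ∈ Icc 0 (m k) → Hyp N R s k L δ d →
        Out R s k (δ * Real.exp (L ^ N)) d d' ∧
        ∀ k' L2, k = k' + 1 → 0 < s.2 → Hyp2 R s k' L2 d →
          Out2 R s k' (δ * Real.exp (L ^ N) * (1 + L2) / s.2) d d'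

end Vale.Agent.P354XC
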