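import Vale.Agent.P354XC.Sum

/-! Block C: the constraint equations in divergence form. -/

open scoped ContDiff
open Set Filter Topology Matrix

noncomputable section

namespace Vale.Agent.P354XC

open Vale.Agent.P354I (X Dat ee pd)

abbrev M3 : Type := Matrix (Fin 3) (Fin 3) ℝ

/-- The polar form of the adjugate. -/
def BB (a v : M3) : M3 := Matrix.of fun i j =>
  a (j + 1) (i + 1) * v (j + 2) (i + 2) + v (j + 1) (i + 1) * a (j + 2) (i + 2) -
    (a (j + 1) (i + 2) * v (j + 2) (i + 1) + v (j + 1) (i + 2) * a (j + 2) (i + 1))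

def cf (a : M3) (i j m n : Fin 3) : ℝ := a.det⁻¹ * (1 / 2 * (a n m * a i j) - a i m * a n j)

/-- The inverse of v ↦ BB a v. -/
def LI (a S : M3) : M3 := Matrix.of fun i j => ∑ m, ∑ n, cf a i j m n * S m n

def Kof (a P : M3) : M3 := Matrix.of fun i j =>
  ∑ m, ∑ n, (a i m * a n j - 1 / 2 * (a n m * a i j)) * P m n

def Pof (a K : M3) : M3 := Matrix.of fun i j =>
  ∑ m, ∑ n, (a⁻¹ i m * a⁻¹ n j - a⁻¹ n m * a⁻¹ i j) * K m n

theorem adj_eq (a : M3) (i j : Fin 3) : a.adjugate i j =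
    a (j + 1) (i + 1) * a (j + 2) (i + 2) - a (j + 1) (i + 2) * a (j + 2) (i + 1) := by
  rw [adjugate_fin_three]
  fin_cases i <;> fin_cases j <;> simp <;> ring

theorem det_eq (a : M3) : a.det = ∑ j, a 0 j * a.adjugate j 0 := by
  have := congrFun (congrFun (mul_adjugate a) 0) 0
  simpa [Matrix.mul_apply] using this.symm

theorem inv_eq (a : M3) (i j : Fin 3) : a⁻¹ i j = a.det⁻¹ * a.adjugate i j := by
  rw [Matrix.inv_def, Ring.inverse_eq_inv']; rfl

theorem adj_add (a v : M3) (i j : Fin 3) :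
    (a + v).adjugate i j = a.adjugate i j + BB a v i j + v.adjugate i j := by
  simp only [adj_eq, BB, Matrix.add_apply, of_apply]; ring

theorem BB_LI {a : M3} (h : a.det ≠ 0) (S : M3) (i j : Fin 3) : BB a (LI a S) i j = S i j := by
  have e : BB a (LI a S) i j = a.det⁻¹ * (a.det * S i j) := by
    generalize hD : a.det⁻¹ = D
    rw [det_fin_three]
    fin_cases i <;> fin_cases j <;> simp [BB, LI, cf, hD, Fin.sum_univ_three] <;> ring
  rw [e]; field_simp

theorem LI_BB {a : M3} (h : a.det ≠ 0) (v : M3) (i j : Fin 3) : LI a (BB a v) i j = v i j := by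
  have e : LI a (BB a v) i j = a.det⁻¹ * (a.det * v i j) := by
    generalize hD : a.det⁻¹ = D
    rw [det_fin_three]
    fin_cases i <;> fin_cases j <;> simp [BB, LI, cf, hD, Fin.sum_univ_three] <;> ring
  rw [e]; field_simp

theorem Kof_eq (a P : M3) : Kof a P = a * P * a - (1 / 2 * trace (a * P)) • a := by
  ext i j
  simp [Kof, Matrix.mul_apply, trace, Fin.sum_univ_three]; ring

theorem Pof_eq (a K : M3) : Pof a K = a⁻¹ * K * a⁻¹ - trace (a⁻¹ * K) • a⁻¹ := by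
  ext i j
  simp [Pof, Matrix.mul_apply, trace, Fin.sum_univ_three]; ring

theorem Kof_Pof {a : M3} (h : a.det ≠ 0) (K : M3) : Kof a (Pof a K) = K := by
  have hu : IsUnit a.det := isUnit_iff_ne_zero.2 h
  have e : a * Pof a K = K * a⁻¹ - trace (a⁻¹ * K) • (1 : M3) := by
    rw [Pof_eq, Matrix.mul_sub, Matrix.mul_smul, mul_nonsing_inv _ hu, ← Matrix.mul_assoc,
      ← Matrix.mul_assoc, mul_nonsing_inv _ hu, Matrix.one_mul]
  rw [Kof_eq, e, Matrix.sub_mul, Matrix.smul_mul, Matrix.one_mul, Matrix.mul_assoc,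
    nonsing_inv_mul _ hu, Matrix.mul_one, trace_sub, trace_smul, trace_mul_comm K, trace_one]
  ext i j
  simp; ring

theorem sy {a : M3} (h : a.IsSymm) (i j : Fin 3) : a j i = a i j := h.apply i j

theorem Kof_symm {a P : M3} (h : a.IsSymm) (hP : P.IsSymm) : (Kof a P).IsSymm := by
  rw [Kof_eq]
  refine IsSymm.sub ?_ (h.smul _)
  rw [IsSymm, transpose_mul, transpose_mul, h.eq, hP.eq, Matrix.mul_assoc]

theorem Pof_symm {a K : M3} (h : a.IsSymm) (hK : K.IsSymm) : (Pof a K).IsSymm := by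
  rw [Pof_eq]
  refine IsSymm.sub ?_ (h.inv.smul _)
  rw [IsSymm, transpose_mul, transpose_mul, h.inv.eq, hK.eq, Matrix.mul_assoc]

theorem LI_symm {a S : M3} (h : a.IsSymm) (hS : S.IsSymm) : (LI a S).IsSymm := by
  refine IsSymm.ext fun i j => ?_
  simp only [LI, cf, of_apply, Fin.sum_univ_three, sy h 0 1, sy h 0 2, sy h 1 2, sy hS 0 1,
    sy hS 0 2, sy hS 1 2, sy h i j, sy h i 0, sy h i 1, sy h i 2, sy h 0 j, sy h 1 j, sy h 2 j]
  ring

theorem mix_eq {a P : M3} (h0 : a.det ≠ 0) (h : a.IsSymm) (hP : P.IsSymm) (i j : Fin 3) :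
    ∑ k, a⁻¹ i k * Kof a P k j - (if i = j then 1 else 0) * ∑ m, ∑ n, a⁻¹ m n * Kof a P m n =
      ∑ l, P i l * a l j := by
  have hu : IsUnit a.det := isUnit_iff_ne_zero.2 h0
  have e : a⁻¹ * Kof a P = P * a - (1 / 2 * trace (a * P)) • (1 : M3) := by
    rw [Kof_eq, Matrix.mul_sub, Matrix.mul_smul, nonsing_inv_mul _ hu, ← Matrix.mul_assoc,
      ← Matrix.mul_assoc, nonsing_inv_mul _ hu, Matrix.one_mul]
  have e2 : ∑ m, ∑ n, a⁻¹ m n * Kof a P m n = trace (a⁻¹ * Kof a P) := by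
    simp only [trace, diag, Matrix.mul_apply, sy (Kof_symm h hP)]
  rw [e2, ← Matrix.mul_apply, ← Matrix.mul_apply, e, trace_sub, trace_smul, trace_mul_comm P,
    trace_one]
  simp [Matrix.one_apply]
  split_ifs <;> ring

theorem div_alg {a : M3} (h0 : a.det ≠ 0) (h : a.IsSymm) {v : Fin 3 → M3} (hv : ∀ l, (v l).IsSymm)
    (k : Fin 3) : ∑ l, BB a (v l) k l = -(a.det *
      (∑ i, ∑ j, a⁻¹ i j * ∑ l, a⁻¹ k l * (v i j l + v j i l - v l i j) / 2 -
        ∑ i, ∑ m, a⁻¹ i k * ∑ l, a⁻¹ m l * (v m i l + v i m l - v l m i) / 2)) := by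
  have e : -(a.det *
      (∑ i, ∑ j, a⁻¹ i j * ∑ l, a⁻¹ k l * (v i j l + v j i l - v l i j) / 2 -
        ∑ i, ∑ m, a⁻¹ i k * ∑ l, a⁻¹ m l * (v m i l + v i m l - v l m i) / 2)) =
      a.det * a.det⁻¹ * a.det⁻¹ * (a.det * ∑ l, BB a (v l) k l) := by
    simp only [inv_eq]
    generalize a.det⁻¹ = D
    nth_rewrite 3 [det_fin_three]
    generalize a.det = E
    rw [adjugate_fin_three]
    fin_cases k <;> simp [BB, Fin.sum_univ_three, sy h 0 1, sy h 0 2, sy h 1 2, sy (hv _) 0 1,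
      sy (hv _) 0 2, sy (hv _) 1 2] <;> ring
  rw [e]; field_simp

/-! ### Fields -/

variable {U : Set X} {d : Dat} {h P : X → M3}

/-- Entries, derivatives of the entries. -/
abbrev en (h : X → M3) (i j : Fin 3) : X → ℝ := fun y => h y i j
def dm (l : Fin 3) (h : X → M3) (y : X) : M3 := Matrix.of fun i j => pd l (en h i j) y

def SmM (U : Set X) (h : X → M3) : Prop := ∀ i j, Sm U (en h i j)

theorem SmM.adj (hh : SmM U h) (i j : Fin 3) : Sm U fun y => (h y).adjugate i j := by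
  simp only [adj_eq]
  exact ((hh _ _).mul (hh _ _)).sub ((hh _ _).mul (hh _ _))

theorem SmM.det (hh : SmM U h) : Sm U fun y => (h y).det := by
  simp only [det_eq]
  exact ContDiffOn.sum fun j _ => (hh _ _).mul (hh.adj _ _)

theorem SmM.inv (hh : SmM U h) (h0 : ∀ y ∈ U, (h y).det ≠ 0) (i j : Fin 3) :
    Sm U fun y => (h y)⁻¹ i j := by
  simp only [inv_eq]
  exact (hh.det.inv h0).mul (hh.adj i j)

theorem SmM.dm (hU : IsOpen U) (hh : SmM U h) (l : Fin 3) : SmM U (dm l h) := fun i j =>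
  (hh i j).pd hU l

theorem SmM.BB (hh : SmM U h) (hP : SmM U P) : SmM U fun y => BB (h y) (P y) := fun _ _ =>
  (((hh _ _).mul (hP _ _)).add ((hP _ _).mul (hh _ _))).sub
    (((hh _ _).mul (hP _ _)).add ((hP _ _).mul (hh _ _)))

theorem pd_adj (hU : IsOpen U) (hh : SmM U h) {y : X} (hy : y ∈ U) (l i j : Fin 3) :
    pd l (fun z => (h z).adjugate i j) y = BB (h y) (dm l h y) i j := by
  simp only [adj_eq, pd]
  rw [fd_sub hU ((hh _ _).mul (hh _ _)) ((hh _ _).mul (hh _ _)) hy, fd_mul hU (hh _ _) (hh _ _) hy,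
    fd_mul hU (hh _ _) (hh _ _) hy]
  simp only [BB, dm, pd, of_apply]; ring

theorem pd_BB (hU : IsOpen U) (hh : SmM U h) (hP : SmM U P) {y : X} (hy : y ∈ U) (l i j : Fin 3) :
    pd l (fun z => BB (h z) (P z) i j) y =
      BB (dm l h y) (P y) i j + BB (h y) (dm l P y) i j := by
  simp only [BB, of_apply, pd]
  rw [fd_sub hU (((hh _ _).mul (hP _ _)).add ((hP _ _).mul (hh _ _)))
      (((hh _ _).mul (hP _ _)).add ((hP _ _).mul (hh _ _))) hy,
    fd_add hU ((hh _ _).mul (hP _ _)) ((hP _ _).mul (hh _ _)) hy,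
    fd_add hU ((hh _ _).mul (hP _ _)) ((hP _ _).mul (hh _ _)) hy,
    fd_mul hU (hh _ _) (hP _ _) hy, fd_mul hU (hP _ _) (hh _ _) hy,
    fd_mul hU (hh _ _) (hP _ _) hy, fd_mul hU (hP _ _) (hh _ _) hy]
  simp only [dm, pd, of_apply]; ring

theorem pd_congr {f g : X → ℝ} (hU : IsOpen U) (e : EqOn f g U) {y : X} (hy : y ∈ U) (l : Fin 3) :
    pd l f y = pd l g y := by simp only [pd, fd_congr hU e hy]

theorem dm_symm (hU : IsOpen U) (hs : ∀ y ∈ U, (h y).IsSymm) {y : X} (hy : y ∈ U) (l : Fin 3) :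
    (dm l h y).IsSymm := IsSymm.ext fun i j => pd_congr hU (fun z hz => sy (hs z hz) i j) hy l

theorem Reg.sh (hd : Reg U d) : SmM U d.h := fun i j => (hd.1 i j).1
theorem Reg.K (hd : Reg U d) : SmM U d.K := fun i j => (hd.1 i j).2
theorem Reg.ne (hd : Reg U d) : ∀ y ∈ U, (d.h y).det ≠ 0 := fun y hy => (hd.2 y hy).2.2
theorem Reg.g (hd : Reg U d) (i j : Fin 3) : Sm U fun y => (d.h y)⁻¹ i j := hd.sh.inv hd.ne i j

theorem Reg.chr (hU : IsOpen U) (hd : Reg U d) (k i j : Fin 3) : Sm U (d.chr k i j) :=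
  ContDiffOn.sum fun _ _ => ((hd.g _ _).mul ((((hd.sh _ _).pd hU _).add ((hd.sh _ _).pd hU _)).sub
    ((hd.sh _ _).pd hU _))).div_const 2

def VV (d : Dat) (k : Fin 3) (y : X) : ℝ :=
  ∑ i, ∑ j, (d.h y)⁻¹ i j * d.chr k i j y - ∑ i, ∑ m, (d.h y)⁻¹ i k * d.chr m m i y

def QQ (d : Dat) (y : X) : ℝ :=
  ∑ k, ∑ i, ∑ j, (pd k (fun z => (d.h z)⁻¹ i k) y * d.chr j j i y -
    pd k (fun z => (d.h z)⁻¹ i j) y * d.chr k i j y +
    (d.h y)⁻¹ i j * ∑ l, (d.chr k k l y * d.chr l i j y - d.chr k j l y * d.chr l k i y))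

def Phi (d : Dat) (y : X) : ℝ :=
  (d.h y).det * (QQ d y + d.trK y * d.trK y - d.sqK y) -
    ∑ k, pd k (fun z => (d.h z).det) y * VV d k y

def Xi (d : Dat) (P : X → M3) (b : Fin 3) (y : X) : ℝ :=
  ∑ j, (d.h y)⁻¹ b j * ∑ i, ∑ k, (P y i k * pd i (fun z => d.h z k j) y -
    pd i (fun z => (d.h z)⁻¹ i k) y * d.K y k j -
    (d.h y)⁻¹ i k * ∑ l, (d.chr l i k y * d.K y l j + d.chr l i j y * d.K y k l))

theorem Reg.VV (hU : IsOpen U) (hd : Reg U d) (k : Fin 3) : Sm U (VV d k) :=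
  (ContDiffOn.sum fun _ _ => ContDiffOn.sum fun _ _ => (hd.g _ _).mul (hd.chr hU _ _ _)).sub
    (ContDiffOn.sum fun _ _ => ContDiffOn.sum fun _ _ => (hd.g _ _).mul (hd.chr hU _ _ _))

theorem pd_sum2 (hU : IsOpen U) {F G : Fin 3 → Fin 3 → X → ℝ} (hF : ∀ i j, Sm U (F i j))
    (hG : ∀ i j, Sm U (G i j)) {y : X} (hy : y ∈ U) (l : Fin 3) :
    pd l (fun z => ∑ i, ∑ j, F i j z * G i j z) y =
      ∑ i, ∑ j, (pd l (F i j) y * G i j y + F i j y * pd l (G i j) y) := by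
  simp only [pd]
  rw [fd_sum _ hU (fun i => ContDiffOn.sum fun j _ => (hF i j).mul (hG i j)) hy]
  refine Finset.sum_congr rfl fun i _ => ?_
  rw [fd_sum _ hU (fun j => (hF i j).mul (hG i j)) hy]
  exact Finset.sum_congr rfl fun j _ => fd_mul hU (hF i j) (hG i j) hy _

theorem scal_eq (hU : IsOpen U) (hd : Reg U d) {y : X} (hy : y ∈ U) :
    d.scal y = ∑ k, pd k (VV d k) y + QQ d y := by
  have e : ∀ k, pd k (VV d k) y =
      ∑ i, ∑ j, (pd k (fun z => (d.h z)⁻¹ i j) y * d.chr k i j y +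
        (d.h y)⁻¹ i j * pd k (d.chr k i j) y) -
      ∑ i, ∑ m, (pd k (fun z => (d.h z)⁻¹ i k) y * d.chr m m i y +
        (d.h y)⁻¹ i k * pd k (d.chr m m i) y) := fun k => by
    rw [← pd_sum2 hU (fun i j => hd.g i j) (fun i j => hd.chr hU k i j) hy,
      ← pd_sum2 hU (fun i _ => hd.g i k) (fun i m => hd.chr hU m m i) hy]
    exact fd_sub hU
      (ContDiffOn.sum fun _ _ => ContDiffOn.sum fun _ _ => (hd.g _ _).mul (hd.chr hU _ _ _))
      (ContDiffOn.sum fun _ _ => ContDiffOn.sum fun _ _ => (hd.g _ _).mul (hd.chr hU _ _ _)) hy _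
  simp only [e, Dat.scal, Dat.ric, QQ]
  generalize (fun k i j => ∑ l, (d.chr k k l y * d.chr l i j y - d.chr k j l y * d.chr l k i y)) = S
  simp only [Fin.sum_univ_three]
  ring

theorem ham_eq (hU : IsOpen U) (hd : Reg U d) {y : X} (hy : y ∈ U) :
    EH d y = Phi d y - ∑ k, pd k (fun z => ∑ l, pd l (fun w => (d.h w).adjugate k l) z) y := by
  have e : ∀ k, pd k (fun z => ∑ l, pd l (fun w => (d.h w).adjugate k l) z) y =
      -(pd k (fun z => (d.h z).det) y * VV d k y + (d.h y).det * pd k (VV d k) y) := fun k => by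
    rw [pd_congr hU (g := fun z => (-1) * ((d.h z).det * VV d k z)) (fun z hz => ?_) hy, pd,
      fd_cmul, fd_mul hU hd.sh.det (hd.VV hU k) hy]
    · simp [pd]
    · simp only [pd_adj hU hd.sh hz]
      rw [div_alg (hd.ne z hz) (hd.2 z hz).1 fun l => dm_symm hU (fun w hw => (hd.2 w hw).1) hz l,
        neg_one_mul]
      rfl
  simp only [e]
  simp only [EH, Ham, scal_eq hU hd hy, Phi, Fin.sum_univ_three]
  ring

theorem mom_eq (hU : IsOpen U) (hd : Reg U d) (hP : SmM U P)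
    (hK : ∀ z ∈ U, (P z).IsSymm ∧ d.K z = Kof (d.h z) (P z)) {y : X} (hy : y ∈ U) (b : Fin 3) :
    EM d b y = ∑ i, pd i (en P i b) y + Xi d P b y := by
  have ht : Sm U d.trK :=
    ContDiffOn.sum fun _ _ => ContDiffOn.sum fun _ _ => (hd.g _ _).mul (hd.K _ _)
  have e : ∀ i j, ∑ k, (pd i (fun z => (d.h z)⁻¹ i k) y * d.K y k j +
      (d.h y)⁻¹ i k * pd i (fun z => d.K z k j) y) - (if i = j then 1 else 0) * pd i d.trK y =
      ∑ l, (pd i (en P i l) y * d.h y l j + P y i l * pd i (fun z => d.h z l j) y) := by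
    intro i j
    have h1 := pd_congr hU (f := fun z => ∑ k, (d.h z)⁻¹ i k * d.K z k j -
        (if i = j then 1 else 0) * d.trK z) (g := fun z => ∑ l, P z i l * d.h z l j)
      (fun z hz => by
        simp only [Dat.trK, (hK z hz).2]
        exact mix_eq (hd.ne z hz) (hd.2 z hz).1 (hK z hz).1 i j) hy i
    simp only [pd] at h1 ⊢
    rw [fd_sub hU (ContDiffOn.sum fun _ _ => (hd.g _ _).mul (hd.K _ _)) (contDiffOn_const.mul ht)
      hy, fd_cmul, fd_sum _ hU (fun _ => (hd.g _ _).mul (hd.K _ _)) hy,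
      fd_sum _ hU (fun _ => (hP _ _).mul (hd.sh _ _)) hy] at h1
    simpa only [fd_mul hU (hd.g _ _) (hd.K _ _) hy, fd_mul hU (hP _ _) (hd.sh _ _) hy] using h1
  have e2 : ∀ j, Mom d j y = ∑ i, ∑ l, pd i (en P i l) y * d.h y l j +
      ∑ i, ∑ k, (P y i k * pd i (fun z => d.h z k j) y -
        pd i (fun z => (d.h z)⁻¹ i k) y * d.K y k j -
        (d.h y)⁻¹ i k * ∑ l, (d.chr l i k y * d.K y l j + d.chr l i j y * d.K y k l)) := by
    intro j
    have h1 : pd j d.trK y = ∑ i, (if i = j then 1 else 0) * pd i d.trK y := by simp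
    have h2 := e 0 j
    have h3 := e 1 j
    have h4 := e 2 j
    simp only [Mom, Dat.divK, h1]
    generalize (fun i k => ∑ l, (d.chr l i k y * d.K y l j + d.chr l i j y * d.K y k l)) = S
    simp only [Fin.sum_univ_three] at h2 h3 h4 ⊢
    linear_combination h2 + h3 + h4
  have e3 : ∀ l, ∑ j, (d.h y)⁻¹ b j * d.h y l j = if b = l then 1 else 0 := fun l => by
    have := congrFun (congrFun (nonsing_inv_mul _ (isUnit_iff_ne_zero.2 (hd.ne y hy))) b) l
    simpa only [Matrix.mul_apply, Matrix.one_apply, sy (hd.2 y hy).1 l] using this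
  have e4 : ∑ j, (d.h y)⁻¹ b j * ∑ i, ∑ l, pd i (en P i l) y * d.h y l j =
      ∑ i, ∑ l, pd i (en P i l) y * ∑ j, (d.h y)⁻¹ b j * d.h y l j := by
    simp only [Fin.sum_univ_three]; ring
  simp only [EM, e2, mul_add, Finset.sum_add_distrib, e4, e3, Xi]
  simp

end Vale.Agent.P354XC
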