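import Vale.Agent.P354XC.Defs

/-! Block C: the calculus of the bounds Bd. -/

open scoped ContDiff
open Set Filter Topology

noncomputable section

namespace Vale.Agent.P354XC

open Vale.Agent.P354I (X Dat ee pd)

/-- The domain. -/
structure Dm (R : ℝ) (U : Set X) : Prop where
  pos : 0 < R
  op : IsOpen U
  sub : Gam R ⊆ U

/-- Smooth functions on U. -/
abbrev Sm (U : Set X) (f : X → ℝ) : Prop := ContDiffOn ℝ ∞ f U

variable {R : ℝ} {U : Set X} {s s' : ℝ × ℝ} {W W' : ℝ → ℝ} {k : ℕ} {f g : X → ℝ} {c c' : ℝ}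

theorem cd_co (i : Fin 3) : ContDiff ℝ ∞ fun x : X => x i := by fun_prop

theorem cd_vf (s : ℝ × ℝ) (i : Fin 3) : ContDiff ℝ ∞ (vf s i) := by
  unfold vf
  by_cases h : i = 0
  · simp only [h, if_true]; fun_prop
  · simp only [h, if_false]
    exact (contDiff_const.mul (cd_co 0)).smul contDiff_const

theorem Sm.da (hU : IsOpen U) (hf : Sm U f) {x : X} (hx : x ∈ U) : DifferentiableAt ℝ f x :=
  (hf.differentiableOn (by simp)).differentiableAt (hU.mem_nhds hx)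

theorem Sm.dv (hU : IsOpen U) (hf : Sm U f) {v : X → X} (hv : ContDiff ℝ ∞ v) :
    Sm U fun x => fderiv ℝ f x (v x) :=
  (hf.fderiv_of_isOpen hU (by simp)).clm_apply hv.contDiffOn

theorem Sm.Z (hU : IsOpen U) (hf : Sm U f) (i : Fin 3) : Sm U (Z s i f) := hf.dv hU (cd_vf s i)

theorem Sm.pd (hU : IsOpen U) (hf : Sm U f) (i : Fin 3) : Sm U (pd i f) :=
  hf.dv hU contDiff_const

theorem fd_congr (hU : IsOpen U) (h : EqOn f g U) {x : X} (hx : x ∈ U) :
    fderiv ℝ f x = fderiv ℝ g x :=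
  Filter.EventuallyEq.fderiv_eq (by filter_upwards [hU.mem_nhds hx] with y hy using h hy)

theorem fd_add (hU : IsOpen U) (hf : Sm U f) (hg : Sm U g) {x : X} (hx : x ∈ U) (v : X) :
    fderiv ℝ (fun y => f y + g y) x v = fderiv ℝ f x v + fderiv ℝ g x v := by
  rw [fderiv_fun_add (hf.da hU hx) (hg.da hU hx)]; rfl

theorem fd_sub (hU : IsOpen U) (hf : Sm U f) (hg : Sm U g) {x : X} (hx : x ∈ U) (v : X) :
    fderiv ℝ (fun y => f y - g y) x v = fderiv ℝ f x v - fderiv ℝ g x v := by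
  rw [fderiv_fun_sub (hf.da hU hx) (hg.da hU hx)]; rfl

theorem fd_mul (hU : IsOpen U) (hf : Sm U f) (hg : Sm U g) {x : X} (hx : x ∈ U) (v : X) :
    fderiv ℝ (fun y => f y * g y) x v = fderiv ℝ f x v * g x + f x * fderiv ℝ g x v := by
  rw [fderiv_fun_mul (hf.da hU hx) (hg.da hU hx)]
  simp only [ContinuousLinearMap.add_apply, ContinuousLinearMap.smul_apply, smul_eq_mul]
  ring

theorem fd_cmul (a : ℝ) (f : X → ℝ) (x v : X) :
    fderiv ℝ (fun y => a * f y) x v = a * fderiv ℝ f x v := by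
  have := fderiv_const_smul_field (𝕜 := ℝ) (f := f) a
  have h2 : (fun y => a * f y) = a • f := rfl
  rw [h2, this]; rfl

theorem fd_inv (hU : IsOpen U) (hf : Sm U f) {x : X} (hx : x ∈ U) (h0 : f x ≠ 0) (v : X) :
    fderiv ℝ (fun y => (f y)⁻¹) x v = -(fderiv ℝ f x v * ((f x)⁻¹ * (f x)⁻¹)) := by
  have h := ((hasDerivAt_inv h0).hasFDerivAt.comp x (hf.da hU hx).hasFDerivAt).fderiv
  have e : (fun y => (f y)⁻¹) = (fun y : ℝ => y⁻¹) ∘ f := rfl
  rw [e, h]
  simp only [ContinuousLinearMap.comp_apply, ContinuousLinearMap.toSpanSingleton_apply,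
    smul_eq_mul]
  field_simp

theorem fd_sum {ι : Type} (t : Finset ι) {F : ι → X → ℝ} (hU : IsOpen U) (hF : ∀ i, Sm U (F i))
    {x : X} (hx : x ∈ U) (v : X) :
    fderiv ℝ (fun y => ∑ i ∈ t, F i y) x v = ∑ i ∈ t, fderiv ℝ (F i) x v := by
  rw [fderiv_fun_sum fun i _ => (hF i).da hU hx]
  simp

theorem fd_co (i : Fin 3) (x v : X) : fderiv ℝ (fun y : X => y i) x v = v i := by
  have : (fun y : X => y i) = (EuclideanSpace.proj i : X →L[ℝ] ℝ) := rfl
  rw [this, ContinuousLinearMap.fderiv]; rfl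

theorem Bd.nonneg : ∀ {k : ℕ} {f : X → ℝ} {c : ℝ}, Bd R s W k f c → 0 ≤ c
  | 0, _, _, h => h.1
  | _ + 1, _, _, ⟨_, _, h, h0, hi⟩ =>
    le_trans (add_nonneg h0.nonneg (Finset.sum_nonneg fun i _ => (hi i).nonneg)) h

/-- Nonnegative weights. -/
def Pw (R : ℝ) (W : ℝ → ℝ) : Prop := ∀ t, R ≤ t → 0 ≤ W t

theorem Bd.le (hW : Pw R W) : ∀ {k : ℕ} {f : X → ℝ} {c c' : ℝ}, Bd R s W k f c → c ≤ c' →
    Bd R s W k f c'
  | 0, _, _, _, h, hc => ⟨h.1.trans hc, fun x hx =>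
      (h.2 x hx).trans (mul_le_mul_of_nonneg_right hc (hW _ hx.1))⟩
  | _ + 1, _, _, _, ⟨c0, ci, h, h0, hi⟩, hc => ⟨c0, ci, h.trans hc, h0, hi⟩

theorem Bd.pred (hW : Pw R W) (h : Bd R s W (k + 1) f c) : Bd R s W k f c := by
  obtain ⟨c0, ci, h, h0, hi⟩ := h
  have := Finset.sum_nonneg fun i (_ : i ∈ Finset.univ) => (hi i).nonneg
  exact h0.le hW (by linarith)

theorem Bd.low (hW : Pw R W) {k k' : ℕ} (hk : k' ≤ k) (h : Bd R s W k f c) : Bd R s W k' f c := by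
  induction hk with
  | refl => exact h
  | step _ ih => exact ih (h.pred hW)

theorem Bd.pt (hW : Pw R W) (h : Bd R s W k f c) {x : X} (hx : x ∈ Gam R) :
    |f x| ≤ c * W (x 0) := (h.low hW (Nat.zero_le _)).2 x hx

theorem Bd.z (hW : Pw R W) (h : Bd R s W (k + 1) f c) (i : Fin 3) : Bd R s W k (Z s i f) c := by
  obtain ⟨c0, ci, h, h0, hi⟩ := h
  have h1 : ci i ≤ ∑ j, ci j :=
    Finset.single_le_sum (fun j _ => (hi j).nonneg) (Finset.mem_univ i)
  exact (hi i).le hW (by linarith [h0.nonneg])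

theorem Bd.wt {a : ℝ} (ha : 0 ≤ a) (hW : ∀ t, R ≤ t → W t ≤ a * W' t) :
    ∀ {k : ℕ} {f : X → ℝ} {c : ℝ}, Bd R s W k f c → Bd R s W' k f (a * c)
  | 0, _, _, h => ⟨mul_nonneg ha h.1, fun x hx => (h.2 x hx).trans (by
      have := mul_le_mul_of_nonneg_left (hW _ hx.1) h.1
      linarith)⟩
  | _ + 1, _, _, ⟨c0, ci, h, h0, hi⟩ => ⟨a * c0, fun i => a * ci i, by
      rw [← Finset.mul_sum, ← mul_add]; exact mul_le_mul_of_nonneg_left h ha,
      h0.wt ha hW, fun i => (hi i).wt ha hW⟩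

theorem Bd.wt1 (hW : ∀ t, R ≤ t → W t ≤ W' t) (h : Bd R s W k f c) : Bd R s W' k f c := by
  simpa using h.wt (a := 1) (W' := W') zero_le_one (by simpa using hW)

theorem Bd.congr (D : Dm R U) : ∀ {k : ℕ} {f g : X → ℝ} {c : ℝ}, Bd R s W k f c → EqOn f g U →
    Bd R s W k g c
  | 0, _, _, _, h, e => ⟨h.1, fun x hx => e (D.sub hx) ▸ h.2 x hx⟩
  | _ + 1, _, _, _, ⟨c0, ci, h, h0, hi⟩, e => ⟨c0, ci, h, h0.congr D e, fun i =>
      (hi i).congr D fun x hx => by simp only [Z, fd_congr D.op e hx]⟩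

theorem Bd.cmul (a : ℝ) : ∀ {k : ℕ} {f : X → ℝ} {c : ℝ}, Bd R s W k f c →
    Bd R s W k (fun x => a * f x) (|a| * c)
  | 0, _, _, h => ⟨mul_nonneg (abs_nonneg a) h.1, fun x hx => by
      rw [abs_mul, mul_assoc]; exact mul_le_mul_of_nonneg_left (h.2 x hx) (abs_nonneg a)⟩
  | _ + 1, f, _, ⟨c0, ci, h, h0, hi⟩ => ⟨|a| * c0, fun i => |a| * ci i, by
      rw [← Finset.mul_sum, ← mul_add]; exact mul_le_mul_of_nonneg_left h (abs_nonneg a),
      h0.cmul a, fun i => by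
        have e : Z s i (fun x => a * f x) = fun x => a * Z s i f x := by
          funext x; exact fd_cmul a f x _
        rw [e]; exact (hi i).cmul a⟩

theorem Bd.neg (h : Bd R s W k f c) : Bd R s W k (fun x => -f x) c := by
  simpa using h.cmul (-1)

theorem Bd.zero : ∀ k : ℕ, Bd R s W k (fun _ => 0) 0
  | 0 => ⟨le_rfl, fun x _ => by simp⟩
  | k + 1 => ⟨0, fun _ => 0, by simp, Bd.zero k, fun i => by
      have e : Z s i (fun _ => (0 : ℝ)) = fun _ => 0 := by funext x; simp [Z]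
      rw [e]; exact Bd.zero k⟩

theorem Bd.const (a : ℝ) : ∀ k : ℕ, Bd R s (fun _ => 1) k (fun _ => a) |a|
  | 0 => ⟨abs_nonneg a, fun x _ => by simp⟩
  | k + 1 => ⟨|a|, fun _ => 0, by simp, Bd.const a k, fun i => by
      have e : Z s i (fun _ => a) = fun _ => 0 := by funext x; simp [Z]
      rw [e]; exact Bd.zero k⟩

theorem Bd.add (D : Dm R U) : ∀ {k : ℕ} {f g : X → ℝ} {c c' : ℝ}, Sm U f → Sm U g →
    Bd R s W k f c → Bd R s W k g c' → Bd R s W k (fun x => f x + g x) (c + c')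
  | 0, _, _, _, _, _, _, h, h' => ⟨add_nonneg h.1 h'.1, fun x hx => by
      have := h.2 x hx; have := h'.2 x hx
      exact (abs_add_le _ _).trans (by linarith)⟩
  | _ + 1, _, _, _, _, hf, hg, ⟨c0, ci, h, h0, hi⟩, ⟨d0, di, h', h0', hi'⟩ =>
    ⟨c0 + d0, fun i => ci i + di i, by rw [Finset.sum_add_distrib]; linarith,
      h0.add D hf hg h0', fun i =>
        ((hi i).add D (hf.Z D.op i) (hg.Z D.op i) (hi' i)).congr D fun x hx =>
          (fd_add D.op hf hg hx _).symm⟩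

theorem Bd.sub (D : Dm R U) (hf : Sm U f) (hg : Sm U g) (h : Bd R s W k f c)
    (h' : Bd R s W k g c') : Bd R s W k (fun x => f x - g x) (c + c') := by
  simpa [sub_eq_add_neg] using h.add D hf hg.neg h'.neg

theorem Bd.sum (D : Dm R U) {ι : Type} (t : Finset ι) {F : ι → X → ℝ} {C : ι → ℝ}
    (hF : ∀ i, Sm U (F i)) (h : ∀ i, Bd R s W k (F i) (C i)) :
    Bd R s W k (fun x => ∑ i ∈ t, F i x) (∑ i ∈ t, C i) := by
  classical
  induction t using Finset.induction_on with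
  | empty => simpa using Bd.zero k
  | insert a t ha ih =>
    simp only [Finset.sum_insert ha]
    exact (h a).add D (hF a) (ContDiffOn.sum fun i _ => hF i) ih

theorem Bd.mul (D : Dm R U) : ∀ {k : ℕ} {f g : X → ℝ} {c c' : ℝ}, Sm U f → Sm U g →
    Bd R s W k f c → Bd R s W' k g c' →
      Bd R s (fun t => W t * W' t) k (fun x => f x * g x) (c * c')
  | 0, _, _, _, _, _, _, h, h' => ⟨mul_nonneg h.1 h'.1, fun x hx => by
      rw [abs_mul]
      refine (mul_le_mul (h.2 x hx) (h'.2 x hx) (abs_nonneg _)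
        ((abs_nonneg _).trans (h.2 x hx))).trans_eq (by ring)⟩
  | _ + 1, _, _, c, c', hf, hg, ⟨c0, ci, h, h0, hi⟩, ⟨d0, di, h', h0', hi'⟩ =>
    ⟨c0 * d0, fun i => ci i * d0 + c0 * di i, by
      rw [Finset.sum_add_distrib, ← Finset.sum_mul, ← Finset.mul_sum]
      have h1 := Finset.sum_nonneg fun i (_ : i ∈ Finset.univ) => (hi i).nonneg
      have h2 := Finset.sum_nonneg fun i (_ : i ∈ Finset.univ) => (hi' i).nonneg
      have h3 := h0.nonneg
      have h4 := h0'.nonneg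
      have h5 := mul_le_mul h h' (by positivity) (by linarith)
      nlinarith [mul_nonneg h1 h2],
      h0.mul D hf hg h0', fun i =>
        (((hi i).mul D (hf.Z D.op i) hg h0').add D ((hf.Z D.op i).mul hg) (hf.mul (hg.Z D.op i))
          (h0.mul D hf (hg.Z D.op i) (hi' i))).congr D fun x hx =>
            (fd_mul D.op hf hg hx _).symm⟩

/-- Product with a function of weight one. -/
theorem Bd.mul1 (D : Dm R U) (hf : Sm U f) (hg : Sm U g) (h : Bd R s (fun _ => 1) k f c)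
    (h' : Bd R s W k g c') : Bd R s W k (fun x => f x * g x) (c * c') := by
  simpa using h.mul D hf hg h'

theorem pw1 : Pw R fun _ => 1 := fun _ _ => zero_le_one

/-- The inverse of a function q which is close to one. -/
theorem Bd.inv (D : Dm R U) {q : X → ℝ} (hq : Sm U q) (h0 : ∀ x ∈ U, q x ≠ 0) :
    ∀ {k : ℕ} {c : ℝ}, c < 1 → Bd R s (fun _ => 1) k (fun x => 1 - q x) c →
      Bd R s (fun _ => 1) k (fun x => (q x)⁻¹) (1 - c)⁻¹
  | 0, c, hc, h => ⟨inv_nonneg.2 (by linarith), fun x hx => by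
      have h1 := h.2 x hx
      rw [mul_one] at h1 ⊢
      have h2 : 1 - c ≤ q x := by linarith [le_abs_self (1 - q x)]
      rw [abs_of_nonneg (inv_nonneg.2 (by linarith))]
      exact inv_anti₀ (by linarith) h2⟩
  | k + 1, c, hc, ⟨c0, ci, h, h1, hi⟩ => by
    have h2 := Finset.sum_nonneg fun i (_ : i ∈ Finset.univ) => (hi i).nonneg
    have h3 := h1.nonneg
    have hi0 : Sm U fun x => (q x)⁻¹ := hq.inv h0
    have hq1 : Sm U fun x => 1 - q x := contDiffOn_const.sub hq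
    have ih := Bd.inv D hq h0 (c := c0) (by linarith) h1
    refine ⟨(1 - c0)⁻¹, fun i => ci i * ((1 - c0)⁻¹ * (1 - c0)⁻¹), ?_, ih, fun i => ?_⟩
    · rw [← Finset.sum_mul]
      set b := ∑ i, ci i
      have h4 : 0 < 1 - c0 - b := by linarith
      have h5 : 0 < 1 - c0 := by linarith
      refine le_trans ?_ (inv_anti₀ (by linarith) (show 1 - c ≤ 1 - c0 - b by linarith))
      rw [← sub_nonneg]
      have : (1 - c0 - b)⁻¹ - ((1 - c0)⁻¹ + b * ((1 - c0)⁻¹ * (1 - c0)⁻¹)) =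
          b ^ 2 / ((1 - c0) ^ 2 * (1 - c0 - b)) := by field_simp; ring
      rw [this]; positivity
    · refine ((hi i).mul1 D (hq1.Z D.op i) (hi0.mul hi0) (ih.mul1 D hi0 hi0 ih)).congr D
        fun x hx => ?_
      simp only [Z]
      rw [fd_inv D.op hq hx (h0 x hx), fd_sub D.op contDiffOn_const hq hx]
      simp

/-! ### Change of the scale -/

theorem Z_ratio (i : Fin 3) {r : ℝ} (h : (i = 0 → s'.1 = r * s.1) ∧ (i ≠ 0 → s'.2 = r * s.2))
    (f : X → ℝ) : Z s' i f = fun x => r * Z s i f x := by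
  funext x
  have : vf s' i x = r • vf s i x := by
    unfold vf
    by_cases hi : i = 0
    · simp only [hi, if_true, h.1 hi, mul_smul]
    · simp only [hi, if_false, h.2 hi, smul_smul, mul_assoc]
  simp only [Z, this, map_smul, smul_eq_mul]

theorem ex_ratio (h1 : s'.1 ∈ Icc 0 s.1) (h2 : s'.2 ∈ Icc 0 s.2) (i : Fin 3) :
    ∃ r : ℝ, |r| ≤ 1 ∧ (i = 0 → s'.1 = r * s.1) ∧ (i ≠ 0 → s'.2 = r * s.2) := by
  have key : ∀ a b : ℝ, a ∈ Icc 0 b → |a / b| ≤ 1 ∧ a = a / b * b := by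
    intro a b h
    rcases eq_or_lt_of_le (h.1.trans h.2) with hb | hb
    · have : a = 0 := le_antisymm (hb ▸ h.2) h.1
      simp [this]
    · exact ⟨by rw [abs_of_nonneg (div_nonneg h.1 hb.le)]; exact (div_le_one hb).2 h.2,
        by field_simp⟩
  by_cases hi : i = 0
  · exact ⟨_, (key _ _ h1).1, fun _ => (key _ _ h1).2, fun h => absurd hi h⟩
  · exact ⟨_, (key _ _ h2).1, fun h => absurd h hi, fun _ => (key _ _ h2).2⟩

theorem Bd.scale (hW : Pw R W) (h1 : s'.1 ∈ Icc 0 s.1) (h2 : s'.2 ∈ Icc 0 s.2) :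
    ∀ {k : ℕ} {f : X → ℝ} {c : ℝ}, Bd R s W k f c → Bd R s' W k f c
  | 0, _, _, h => h
  | _ + 1, f, _, ⟨c0, ci, h, h0, hi⟩ => ⟨c0, ci, h, h0.scale hW h1 h2, fun i => by
      obtain ⟨r, hr, hr'⟩ := ex_ratio h1 h2 i
      rw [Z_ratio i hr']
      exact (((hi i).scale hW h1 h2).cmul r).le hW
        (mul_le_of_le_one_left (hi i).nonneg hr)⟩

/-- The scaling lemma: at small scales the constant is almost the constant of order zero. -/
theorem Bd.small (hW : Pw R W) {μ : ℝ} (hμ : μ ≤ 1) (h1 : s.1 ∈ Icc 0 μ) (h2 : s.2 ∈ Icc 0 μ) :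
    ∀ {k : ℕ} {f : X → ℝ} {c a : ℝ}, Bd R (1, 1) W k f c → Bd R (1, 1) W 0 f a →
      Bd R s W k f (a + μ * c)
  | 0, _, _, _, h, ha => Bd.le hW (k := 0) ha
      (le_add_of_nonneg_right (mul_nonneg (h1.1.trans h1.2) h.1))
  | _ + 1, f, c, a, ⟨c0, ci, h, h0, hi⟩, ha => by
    have hμ0 : 0 ≤ μ := h1.1.trans h1.2
    refine ⟨a + μ * c0, fun i => μ * ci i, ?_, h0.small hW hμ h1 h2 ha, fun i => ?_⟩
    · rw [← Finset.mul_sum]; nlinarith
    · have e : Z s i f = fun x => (if i = 0 then s.1 else s.2) * Z (1, 1) i f x :=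
        Z_ratio i ⟨fun h => by simp [h], fun h => by simp [h]⟩ f
      rw [e]
      refine (((hi i).scale (s := (1, 1)) (s' := s) hW ⟨h1.1, h1.2.trans hμ⟩
        ⟨h2.1, h2.2.trans hμ⟩).cmul _).le hW (mul_le_mul_of_nonneg_right ?_ (hi i).nonneg)
      split_ifs
      · rw [abs_of_nonneg h1.1]; exact h1.2
      · rw [abs_of_nonneg h2.1]; exact h2.2

end Vale.Agent.P354XC
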