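import Vale.Agent.P354XC.Top
import Vale.Agent.P354XP.Props

/-!
The two calculi: the classes Bd at the scale μ and the classes T in a frame with the cost
1 / (μ x0).
-/

open scoped ContDiff
open Set Filter Topology

noncomputable section

namespace Vale.Agent.P354XC

open Vale.Agent.P354I (X Dat ee pd)
open Vale.Agent.P354XP (Fr Fn D cst pr)

variable {P : Type}

theorem dm0 {R : ℝ} (hR : 0 < R) : Dm R {0}ᶜ :=
  ⟨hR, isOpen_compl_singleton, fun x hx e => by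
    have := hx.1
    rw [show x = 0 from e] at this
    simp at this; linarith⟩

/-- All Cartesian derivatives at the scale μ. -/
theorem bd_pd' {R μ : ℝ} {U : Set X} {W : ℝ → ℝ} {f : X → ℝ} {c : ℝ} {k : ℕ} (h1 : 0 < μ)
    (h2 : μ ≤ 1) (D : Dm R U) (hW : Pw R W) (hf : Sm U f) (h : Bd R (μ, μ) W (k + 1) f c)
    (i : Fin 3) : Bd R (μ, μ) (fun t => W t * (μ * t)⁻¹) k (pd i f) (2 ^ k * (3 + 2 * k) * c) := by
  have hc := h.nonneg
  have hA : ∀ A, A ≠ 0 → Bd R (μ, μ) (fun t => 1 / t * W t) k (pd A f) _ := fun A hA =>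
    h.pdA D hW hf h1 hA
  have hp : (1 + μ) ^ k ≤ 2 ^ k := pow_le_pow_left₀ (by linarith) (by linarith) k
  have hk : (k : ℝ) * μ ≤ k := mul_le_of_le_one_right (Nat.cast_nonneg k) h2
  have hk0 : 0 ≤ (k : ℝ) * μ := by positivity
  have key : ∀ {g : X → ℝ} {a : ℝ}, Bd R (μ, μ) (fun t => 1 / t * W t) k g a →
      μ * a ≤ 2 ^ k * (3 + 2 * k) * c →
      Bd R (μ, μ) (fun t => W t * (μ * t)⁻¹) k g (2 ^ k * (3 + 2 * k) * c) := fun hg ha =>
    (hg.wt h1.le fun t ht => le_of_eq (by have := (D.pos.trans_le ht).ne'; field_simp)).le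
      (fun t ht => mul_nonneg (hW t ht) (by have := D.pos.trans_le ht; positivity)) ha
  by_cases hi : i = 0
  · subst hi
    have D' := D.up
    have hr : ∀ A : Fin 3, Sm (Up U) fun x : X => x A * (x 0)⁻¹ := fun A => (sm_co A).mul sm_inv0
    have hd : ∀ A : Fin 3, Sm (Up U) (pd A f) := fun A => hf.up.pd D'.op A
    have e0 := ((bd_inv0 D.pos k).mul D' sm_inv0 (hf.up.Z D'.op 0) (h.z hW 0)).cmul μ⁻¹
    have e1 := (bd_ratio D.pos 1 (by decide) k).mul1 D' (hr 1) (hd 1) (hA 1 (by decide))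
    have e2 := (bd_ratio D.pos 2 (by decide) k).mul1 D' (hr 2) (hd 2) (hA 2 (by decide))
    refine key ((e0.sub D' (contDiffOn_const.mul (sm_inv0.mul (hf.up.Z D'.op 0)))
      (((hr 1).mul (hd 1)).add ((hr 2).mul (hd 2)))
      (e1.add D' ((hr 1).mul (hd 1)) ((hr 2).mul (hd 2)) e2)).congr D' fun x hx => ?_) ?_
    · have h0 : x 0 ≠ 0 := hx.2.ne'
      simp only [Z_rad, Fin.sum_univ_three]; field_simp; ring
    · rw [abs_of_pos (inv_pos.2 h1), abs_of_pos h1]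
      refine le_trans (le_of_eq (b := (1 + μ) ^ k * (3 + 2 * (k * μ)) * c) (by field_simp; ring)) ?_
      gcongr
  · refine key (hA i hi) ?_
    rw [abs_of_pos h1]
    refine le_trans (le_of_eq (b := (1 + μ) ^ k * 1 * c) (by field_simp)) ?_
    gcongr
    linarith [Nat.cast_nonneg (α := ℝ) k]

/-- A frame on the cone with the cost 1 / (μ x0). -/
structure Fq (F : Fr P X) (R μ : P → ℝ) : Prop where
  he : F.e = ee
  hU : F.U = fun _ => {0}ᶜ
  hV : F.V = fun r => Gam (R r)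
  hc : ∀ i, F.c i = fun r x => (μ r * x 0)⁻¹
  ev : ∀ᶠ r in F.l, 1 ≤ R r ∧ 0 < μ r ∧ μ r ≤ 1

/-- A weight as a size. -/
def ww (W : P → ℝ → ℝ) : Fn P X := fun r x => W r (x 0)

variable {F : Fr P X} {R μ : P → ℝ}

theorem Fq.sm (q : Fq F R μ) {f : Fn P X} : F.Sm f ↔ ∀ᶠ r in F.l, Sm {0}ᶜ (f r) := by
  rw [Fr.Sm, q.hU]

theorem Fq.pw {W : P → ℝ → ℝ} (q : Fq F R μ) {f : Fn P X} (h : F.B0 (ww W) f) :
    ∀ᶠ r in F.l, Pw (R r) (W r) := by
  filter_upwards [h.nn, q.ev] with r h o t ht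
  have := h (t • ee 0) (by
    rw [q.hV]
    simp only [Gam, mem_ofPred_eq, PiLp.smul_apply, ee_co, smul_eq_mul]
    simp; exact ⟨ht, by linarith⟩)
  simpa [ww, ee_co] using this

theorem Fq.co (q : Fq F R μ) (k : ℕ) (l : Fin 3) :
    F.T k (fun _ x => x 0) fun _ x => x l := by
  refine Fr.T.pred (Fr.T.succ ⟨q.sm.2 (.of_forall fun _ => (cd_co l).contDiffOn),
    Fr.B0.of_le ?_⟩ fun i => ((Fr.t_cst (ee i l)).mono (Fr.B0.of_le ?_)).cast ?_)
  · filter_upwards [q.ev] with r o x hx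
    rw [q.hV] at hx
    exact gam_co hx (by linarith) l
  · filter_upwards [q.ev] with r o x hx
    rw [q.hV] at hx
    have h0 : 0 < x 0 := by linarith [hx.1]
    simp only [q.hc, Pi.mul_apply, Pi.one_apply, abs_one]
    rw [mul_inv, mul_left_comm, mul_inv_cancel₀ h0.ne', mul_one]
    exact one_le_inv₀ o.2.1 |>.2 o.2.2
  · funext r x
    simp only [D, fd_co, q.he, cst]

theorem Fq.vf (q : Fq F R μ) (k : ℕ) (i l : Fin 3) :
    F.T k (fun r x => μ r * x 0) fun r x => vf (μ r, μ r) i x l := by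
  have hμ : F.T k (pr μ) (pr μ) :=
    Fr.t_par (Fr.B0.refl (q.ev.mono fun _ o _ _ => o.2.1.le)) k
  by_cases hi : i = 0
  · exact (hμ.mul (q.co k l)).cast (by funext r x; simp [P354XC.vf, hi, pr])
  · exact ((hμ.mul (q.co k 0)).mulr (Fr.t_cst (ee i l))).cast (by
      funext r x; simp [P354XC.vf, hi, pr, cst])

theorem pow_up {G : ℝ} (hG : 2 ≤ G) {a b : ℕ} (h : a ≤ b) : G ^ a ≤ G ^ b :=
  pow_le_pow_right₀ (by linarith) h

/-- From T to Bd. -/
theorem Fq.bd (q : Fq F R μ) {W : P → ℝ → ℝ} : ∀ {k : ℕ} {f : Fn P X}, F.T k (ww W) f →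
    ∃ n : ℕ, ∀ᶠ r in F.l, Bd (R r) (μ r, μ r) (W r) k (f r) (F.G r ^ n)
  | 0, f, h => by
    obtain ⟨n, hn⟩ := h.b
    refine ⟨n, ?_⟩
    filter_upwards [hn, F.ok] with r hn o
    rw [q.hV] at hn
    exact ⟨pow_nonneg (by linarith [o.2.2.1]) n, hn⟩
  | k + 1, f, h => by
    have hz : ∀ i, F.T k (ww W) fun r => Z (μ r, μ r) i (f r) := fun i => by
      refine (Fr.T.fsum fun l => ((q.vf k i l).mul (h.d l)).mono (Fr.B0.of_le ?_)).cast ?_
      · filter_upwards [q.ev, h.b0.nn] with r o hn x hx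
        have h0 : 0 < x 0 := by rw [q.hV] at hx; linarith [hx.1]
        have h1 := o.2.1
        simp only [q.hc, Pi.mul_apply]
        rw [mul_left_comm, mul_inv_cancel₀ (by positivity), mul_one, abs_of_nonneg (hn x hx)]
      · funext r x
        simp only [Z, fd_coord (f r) x (P354XC.vf _ i x), Pi.mul_apply, D, q.he, pd]
    obtain ⟨n, hn⟩ := q.bd h.pred
    choose m hm using fun i => q.bd (hz i)
    refine ⟨n + ∑ i, m i + 2, ?_⟩
    filter_upwards [hn, eventually_all.2 hm, F.ok] with r hn hm o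
    refine ⟨_, _, ?_, hn, hm⟩
    have g := o.2.2.1
    have a0 := pow_up g (show n ≤ n + ∑ i, m i by omega)
    have a1 : ∀ i, F.G r ^ m i ≤ F.G r ^ (n + ∑ i, m i) := fun i => pow_up g (by
      have := Finset.single_le_sum (f := m) (fun _ _ => Nat.zero_le _) (Finset.mem_univ i)
      omega)
    have a2 : 0 ≤ F.G r ^ (n + ∑ i, m i) := by positivity
    have a3 : 4 ≤ F.G r ^ 2 := by nlinarith
    rw [Fin.sum_univ_three, pow_add _ _ 2]
    nlinarith [a1 0, a1 1, a1 2]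

/-- From Bd to T. -/
theorem Fq.t (q : Fq F R μ) : ∀ {k : ℕ} {W : P → ℝ → ℝ} {f : Fn P X} {a : P → ℝ} (n : ℕ), F.Sm f →
    (∀ᶠ r in F.l, Pw (R r) (W r) ∧ 0 ≤ a r ∧
      Bd (R r) (μ r, μ r) (W r) k (f r) (F.G r ^ n * a r)) → F.T k (pr a * ww W) f
  | 0, W, f, a, n, hf, h => ⟨hf, n, h.mono fun r h x hx => by
      rw [q.hV] at hx
      exact (h.2.2.2 x hx).trans_eq (mul_assoc _ _ _)⟩
  | k + 1, W, f, a, n, hf, h => by
    refine Fr.T.succ (q.t n hf (h.mono fun r h => ⟨h.1, h.2.1, h.2.2.low h.1 (Nat.zero_le _)⟩))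
      fun i => (q.t (W := fun r t => W r t * (μ r * t)⁻¹) (a := a) (n + (k + (2 + k)))
        (hf.d i) ?_).wt ?_
    · filter_upwards [h, q.ev, q.sm.1 hf, F.ok] with r h o hf o'
      have hW : Pw (R r) fun t => W r t * (μ r * t)⁻¹ := fun t ht =>
        mul_nonneg (h.1 t ht) (by have := o.2.1; have : 0 < t := (by linarith); positivity)
      have e : D F.e i f r = pd i (f r) := by rw [q.he]; rfl
      refine ⟨hW, h.2.1, Bd.le hW
        (e ▸ bd_pd' o.2.1 o.2.2 (dm0 (by linarith [o.1])) h.1 hf h.2.2 i) ?_⟩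
      have g := o'.2.2.1
      have b1 : (2 : ℝ) ^ k ≤ F.G r ^ k := pow_le_pow_left₀ (by norm_num) g k
      have b2 : (3 + 2 * k : ℝ) ≤ F.G r ^ (2 + k) := by
        refine le_trans ?_ (pow_le_pow_left₀ (by norm_num) g _)
        have : (k : ℝ) < 2 ^ k := by exact_mod_cast Nat.lt_two_pow_self
        have : (1 : ℝ) ≤ 2 ^ k := one_le_pow₀ (by norm_num)
        have e : (2 : ℝ) ^ (2 + k) = 4 * 2 ^ k := by ring
        have : (k : ℝ) + 1 ≤ 2 ^ k := by exact_mod_cast Nat.lt_two_pow_self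
        linarith
      have := h.2.1
      rw [← mul_assoc, pow_add, pow_add _ k, mul_comm (F.G r ^ n)]
      gcongr
    · funext r x
      simp only [q.hc, Pi.mul_apply, ww, pr]; ring

end Vale.Agent.P354XC
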