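import Vale.Agent.P354XC.RayE

/-! Block C: the right inverses of the double divergence and of the divergence. -/

open scoped ContDiff
open Set Filter Topology MeasureTheory

noncomputable section

namespace Vale.Agent.P354XC

open Vale.Agent.P354I (X Dat ee pd)

variable {R : ℝ} {ψ φ : Y → ℝ} {f g : X → ℝ} {p : ℕ}

def bump : ContDiffBump (0 : Y) := ⟨1 / 2, 1, by norm_num, by norm_num⟩

def chi : Y → ℝ := bump.normed volume

theorem chi_int : ∫ w, chi w = 1 := bump.integral_normed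

theorem ker_chi : Ker chi := ⟨bump.contDiff_normed, fun w hw => by
  by_contra h
  have h1 : w ∈ Function.support chi := h
  rw [chi, bump.support_normed_eq, mem_ball_zero_iff, Prod.norm_def, max_lt_iff, Real.norm_eq_abs,
    Real.norm_eq_abs, abs_lt, abs_lt] at h1
  exact hw ⟨⟨h1.1.1.le, h1.1.2.le⟩, h1.2.1.le, h1.2.2.le⟩⟩

/-- The kernel of the derivative of T 1. -/
def dk (m : Fin 3) (ψ : Y → ℝ) : Y → ℝ :=
  if m = 0 then fun w => 1 * ψ w + (-1) *
    (1 * dY 1 (fun w => ψ w * xi w 1) w + 1 * dY 2 (fun w => ψ w * xi w 2) w) else dY m ψ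

theorem Ker.dk (h : Ker ψ) (m : Fin 3) : Ker (dk m ψ) := by
  unfold P354XC.dk
  split_ifs
  · exact h.lin (((h.xi 1).d 1).lin ((h.xi 2).d 2) 1 1) 1 (-1)
  · exact h.d m

theorem Vn.pd (hv : Vn R f) (k : Fin 3) : Vn R (pd k f) := hv.fd fun _ => ee k

theorem T1_pd (h : Ker ψ) (hf : ContDiff ℝ ∞ f) (hv : Vn R f) (m : Fin 3) :
    pd m (T 1 ψ f) = T 0 (dk m ψ) f := by
  funext x
  rw [T_pd h hf hv]
  by_cases hm : m = 0
  · subst hm
    have h1 := T_div (p := 1) h hf hv x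
    have h2 := T_ibp (p := 0) (h.xi 1) hf (A := 1) (by decide) x
    have h3 := T_ibp (p := 0) (h.xi 2) hf (A := 2) (by decide) x
    simp only [dk, if_true]
    rw [T_link h (((h.xi 1).d 1).lin ((h.xi 2).d 2) 1 1) hf hv,
      T_link ((h.xi 1).d 1) ((h.xi 2).d 2) hf hv]
    simp only [Fin.sum_univ_three, xi0, mul_one, zero_add] at h1 h2 h3
    simp at h1
    linarith
  · simp only [dk, hm, if_false]
    exact T_ibp (p := 0) h hf hm x

theorem T1_div (h : Ker ψ) (hf : ContDiff ℝ ∞ f) (hv : Vn R f) (x : X) :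
    ∑ k, pd k (T 1 (fun w => ψ w * xi w k) f) x = T 0 ψ f x := by
  simpa [T_pd (h.xi _) hf hv] using T_div (p := 1) h hf hv x

theorem T0_div (h : Ker ψ) (hf : ContDiff ℝ ∞ f) (hv : Vn R f) (x : X) :
    ∑ k, pd k (T 0 (fun w => ψ w * xi w k) f) x = (∫ w, ψ w) * f x := by
  simpa [T_pd (h.xi _) hf hv] using T_div (p := 0) h hf hv x

def kV (k : Fin 3) (w : Y) : ℝ := chi w * xi w k
def kH (k l : Fin 3) (w : Y) : ℝ := kV k w * xi w l
def kP (i j k : Fin 3) (w : Y) : ℝ := 1 * ((if i = k then 1 else 0) * kV j w +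
  (if j = k then 1 else 0) * kV i w) + (-1) * dk k (kH i j) w

theorem ker_kV (k : Fin 3) : Ker (kV k) := ker_chi.xi k
theorem ker_kH (k l : Fin 3) : Ker (kH k l) := (ker_kV k).xi l
theorem ker_kP (i j k : Fin 3) : Ker (kP i j k) :=
  ((ker_kV j).lin (ker_kV i) _ _).lin ((ker_kH i j).dk k) _ _

theorem kH_symm (k l : Fin 3) : kH k l = kH l k := by
  funext w; simp only [kH, kV]; ring

theorem kP_symm (i j k : Fin 3) : kP i j k = kP j i k := by
  funext w; simp only [kP, kH_symm i j]; ring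

theorem ddiv_H (hf : ContDiff ℝ ∞ f) (hv : Vn R f) (x : X) :
    ∑ k, pd k (fun z => ∑ l, pd l (T 1 (kH k l) f) z) x = f x := by
  have e : ∀ k, (fun z => ∑ l, pd l (T 1 (kH k l) f) z) = T 0 (kV k) f := fun k =>
    funext fun z => T1_div (ker_kV k) hf hv z
  simp only [e]
  have := T0_div ker_chi hf hv x
  rwa [chi_int, one_mul] at this

theorem pd_sum3 {F : Fin 3 → X → ℝ} (hF : ∀ k, ContDiff ℝ ∞ (F k)) (l : Fin 3) (x : X) :
    pd l (fun z => ∑ k, F k z) x = ∑ k, pd l (F k) x :=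
  fd_sum _ isOpen_univ (fun k => (hF k).contDiffOn) (mem_univ x) _

theorem div_P {F : Fin 3 → X → ℝ} (hf : ∀ k, ContDiff ℝ ∞ (F k)) (hv : ∀ k, Vn R (F k))
    (j : Fin 3) (x : X) : ∑ i, pd i (fun z => ∑ k, T 0 (kP i j k) (F k) z) x = F j x := by
  have e : ∀ k, ∑ i, pd i (T 0 (kP i j k) (F k)) x = (if j = k then 1 else 0) * F k x := by
    intro k
    have e1 : ∀ i, pd i (T 0 (kP i j k) (F k)) x =
        (if i = k then 1 else 0) * pd i (T 0 (kV j) (F k)) x +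
          (if j = k then 1 else 0) * pd i (T 0 (kV i) (F k)) x -
          pd k (T 1 (kH j i) (pd i (F k))) x := fun i => by
      rw [T1_pd (ker_kH j i) (cd_pd (hf k) i) ((hv k).pd i), T_pd (ker_kP i j k) (hf k) (hv k),
        T_pd (ker_kV j) (hf k) (hv k), T_pd (ker_kV i) (hf k) (hv k), kH_symm j i]
      unfold kP
      rw [T_link ((ker_kV j).lin (ker_kV i) _ _) ((ker_kH i j).dk k) (cd_pd (hf k) i) ((hv k).pd i),
        T_link (ker_kV j) (ker_kV i) (cd_pd (hf k) i) ((hv k).pd i)]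
      ring
    have e2 : ∑ i, pd k (T 1 (kH j i) (pd i (F k))) x = pd k (T 0 (kV j) (F k)) x := by
      rw [← pd_sum3 fun i => T_cd (ker_kH j i) (cd_pd (hf k) i) ((hv k).pd i)]
      congr 1
      funext z
      simp only [← T_pd (ker_kH j _) (hf k) (hv k)]
      exact T1_div (ker_kV j) (hf k) (hv k) z
    have e3 := T0_div ker_chi (hf k) (hv k) x
    rw [chi_int, one_mul] at e3
    simp only [e1, Finset.sum_sub_distrib, Finset.sum_add_distrib, e2, ← Finset.mul_sum]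
    rw [show ∑ i, pd i (T 0 (kV i) (F k)) x = F k x from e3]
    simp
  simp only [pd_sum3 fun k => T_cd (ker_kP _ j k) (hf k) (hv k)]
  rw [Finset.sum_comm]
  simp [e]

/-! ### One more derivative -/

def wU (K R t : ℝ) : ℝ := om K R t * (1 / t ^ 3)

theorem pw_wU {K : ℝ} (hR : 0 < R) : Pw R (wU K R) := fun t ht => by
  have := hR.trans_le ht; have := om_pos K R t; unfold wU; positivity

theorem pow_le_two {a : ℝ} {k : ℕ} (h0 : 0 ≤ a) (h : a ≤ 1 / (2 * (k + 1))) : (1 + |a|) ^ k ≤ 2 := by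
  rw [abs_of_nonneg h0]
  have h1 : (1 + a) ^ k ≤ Real.exp (k * a) := by
    rw [Real.exp_nat_mul]
    exact pow_le_pow_left₀ (by linarith) (by linarith [Real.add_one_le_exp a]) k
  have h2 : k * a ≤ 1 / 2 := by
    rw [le_div_iff₀ (by positivity)] at h
    nlinarith
  have h3 : Real.exp (1 / 2) ≤ 2 := by
    have := Real.add_one_le_exp (-(1 / 2 : ℝ))
    rw [Real.exp_neg, le_inv_comm₀ (by norm_num) (Real.exp_pos _)] at this
    norm_num at this ⊢; exact this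
  exact h1.trans ((Real.exp_le_exp.2 h2).trans h3)

def TB2 (ψ : Y → ℝ) (A : ℝ) (m : ℕ → ℝ) : Prop :=
  ∀ (k : ℕ) (R K c : ℝ) (s : ℝ × ℝ) (f : X → ℝ), s.1 ∈ Icc 0 (m (k + 1)) →
    s.2 ∈ Icc 0 (m (k + 1)) → 0 < s.2 → 0 < R → 1 ≤ K → ContDiff ℝ ∞ f → Vn R f →
    Bd R s (wS K R) (k + 1) f c → ∀ l, Bd R s (wU K R) k (pd l (T 0 ψ f)) (A * c / s.2)

theorem TB2.mono {A A' : ℝ} {m m' : ℕ → ℝ} (h : TB2 ψ A m) (hA : A ≤ A')
    (hm : ∀ k, m' k ≤ m k) : TB2 ψ A' m' := fun _ _ _ _ _ _ h1 h2 h3 hR hK hf hv hb l =>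
  (h _ _ _ _ _ _ ⟨h1.1, h1.2.trans (hm _)⟩ ⟨h2.1, h2.2.trans (hm _)⟩ h3 hR hK hf hv hb l).le
    (pw_wU hR) (by have := hb.nonneg; gcongr)

theorem Ker.tb2 (h : Ker ψ) : ∃ (A : ℝ) (m : ℕ → ℝ), (∀ k, 0 < m k) ∧ TB2 ψ A m := by
  obtain ⟨A, m, hA, hm, H⟩ := tb_fam (q := fun _ => 0) fun i => h.xi i
  refine ⟨|∫ w, ψ w| + 4 * A, fun k => min (m k) (1 / (2 * (k + 1))),
    fun k => lt_min (hm k) (by positivity), ?_⟩
  intro k R K c s f h1 h2 h3 hR hK hf hv hb l
  have hc := hb.nonneg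
  have D := dm_univ hR
  have h4 : ∀ i B, B ≠ 0 → Bd R s (wU K R) k (pd B (T 0 (fun w => ψ w * P354XC.xi w i) f))
      (2 * A * c / s.2) := fun i B hB => by
    have h5 := (H i _ _ _ _ _ _ ⟨h1.1, h1.2.trans (min_le_left _ _)⟩
      ⟨h2.1, h2.2.trans (min_le_left _ _)⟩ hR (by linarith) hf hv hb).pdA D (pw_wT hR)
      (T_cd (h.xi i) hf hv).contDiffOn h3 hB
    refine (h5.wt1 fun t ht => le_of_eq ?_).le (pw_wU hR)
      (div_le_div_of_nonneg_right ?_ h3.le)
    · simp only [wT, wU]; ring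
    · have h6 : (1 + |s.1|) ^ k ≤ 2 := pow_le_two h1.1 ((h1.2.trans (min_le_right _ _)).trans
        (one_div_le_one_div_of_le (by positivity) (by push_cast; linarith)))
      have h7 : A * c / K ≤ A * c := div_le_self (by positivity) hK
      rw [mul_assoc]
      exact mul_le_mul h6 h7 (by positivity) (by norm_num)
  have hs1 : s.2 ≤ 1 := (h2.2.trans (min_le_right _ _)).trans
    ((div_le_one (by positivity)).2 (by push_cast; linarith [k.cast_nonneg (α := ℝ)]))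
  have h8 := mul_nonneg (abs_nonneg (∫ w, ψ w)) hc
  by_cases hl : l = 0
  · subst hl
    have hd := fun i B => (cd_pd (T_cd (p := 0) (h.xi i) hf hv) B).contDiffOn (s := univ)
    have h5 := (((hb.pred (pw_wS hR)).wt1 (W' := wU K R) fun t ht => ?_).cmul (∫ w, ψ w)).sub D
      (contDiff_const.mul hf).contDiffOn ((hd 1 1).add (hd 2 2))
      ((h4 1 1 (by decide)).add D (hd 1 1) (hd 2 2) (h4 2 2 (by decide)))
    · refine (h5.congr D fun x _ => ?_).le (pw_wU hR) ?_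
      · have := T0_div h hf hv x
        simp only [Fin.sum_univ_three, xi0, mul_one] at this
        linarith
      · have := le_div_self h8 h3 hs1
        rw [add_mul, add_div]
        have e : 4 * A * c / s.2 = 2 * A * c / s.2 + 2 * A * c / s.2 := by ring
        linarith
    · have h0 := hR.trans_le ht
      refine mul_le_mul_of_nonneg_left ?_ (om_pos _ _ _).le
      rw [div_le_div_iff₀ (by positivity) (by positivity)]
      nlinarith [mul_le_mul_of_nonneg_right ht (pow_pos h0 3).le]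
  · have h5 := h4 0 l hl
    simp only [xi0, mul_one] at h5
    refine h5.le (pw_wU hR) (div_le_div_of_nonneg_right ?_ h3.le)
    nlinarith [mul_nonneg (zero_le_one.trans hA) hc]

/-- All the bounds for the kernels which are used. -/
structure KB (A : ℝ) (m : ℕ → ℝ) : Prop where
  one : 1 ≤ A
  pos : ∀ k, 0 < m k
  H : ∀ k l, TB 1 (kH k l) A m
  dH : ∀ k l n, TB 0 (dk n (kH k l)) A m
  P : ∀ i j k, TB 0 (kP i j k) A m
  dH2 : ∀ k l n, TB2 (dk n (kH k l)) A m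
  P2 : ∀ i j k, TB2 (kP i j k) A m
  le1 : ∀ k, m k ≤ 1

theorem fam_merge {ι : Type} [Fintype ι] [Nonempty ι] {Q : ι → ℝ → (ℕ → ℝ) → Prop}
    (mono : ∀ i A A' m m', Q i A m → A ≤ A' → (∀ k, m' k ≤ m k) → Q i A' m')
    (h : ∀ i, ∃ (A : ℝ) (m : ℕ → ℝ), (∀ k, 0 < m k) ∧ Q i A m) :
    ∃ (A : ℝ) (m : ℕ → ℝ), 1 ≤ A ∧ (∀ k, 0 < m k) ∧ (∀ k, m k ≤ 1) ∧ ∀ i, Q i A m := by
  choose A m hm H using h
  refine ⟨1 + ∑ i, |A i|, fun k => min 1 (Finset.univ.inf' Finset.univ_nonempty fun i => m i k),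
    le_add_of_nonneg_right (Finset.sum_nonneg fun i _ => abs_nonneg _),
    fun k => lt_min one_pos ((Finset.lt_inf'_iff _).2 fun i _ => hm i k),
    fun k => min_le_left _ _, fun i => mono i _ _ _ _ (H i) ?_ fun k =>
      (min_le_right _ _).trans (Finset.inf'_le _ (Finset.mem_univ i))⟩
  have := Finset.single_le_sum (fun j (_ : j ∈ Finset.univ) => abs_nonneg (A j)) (Finset.mem_univ i)
  linarith [le_abs_self (A i)]

theorem ex_KB : ∃ A m, KB A m := by
  obtain ⟨A, m, h1, h2, h3, H⟩ := fam_merge (ι := Fin 5 × Fin 3 × Fin 3 × Fin 3)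
    (Q := fun i A m => (i.1 = 0 → TB 1 (kH i.2.1 i.2.2.1) A m) ∧
      (i.1 = 1 → TB 0 (dk i.2.2.2 (kH i.2.1 i.2.2.1)) A m) ∧
      (i.1 = 2 → TB 0 (kP i.2.1 i.2.2.1 i.2.2.2) A m) ∧
      (i.1 = 3 → TB2 (dk i.2.2.2 (kH i.2.1 i.2.2.1)) A m) ∧
      (i.1 = 4 → TB2 (kP i.2.1 i.2.2.1 i.2.2.2) A m))
    (fun i A A' m m' h hA hm => ⟨fun e => (h.1 e).mono hA hm, fun e => (h.2.1 e).mono hA hm,
      fun e => (h.2.2.1 e).mono hA hm, fun e => (h.2.2.2.1 e).mono hA hm,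
      fun e => (h.2.2.2.2 e).mono hA hm⟩) (by
      rintro ⟨a, i, j, k⟩
      fin_cases a
      · simpa using (ker_kH i j).tb 1
      · simpa using ((ker_kH i j).dk k).tb 0
      · simpa using (ker_kP i j k).tb 0
      · simpa using ((ker_kH i j).dk k).tb2
      · simpa using (ker_kP i j k).tb2)
  exact ⟨A, m, h1, h2, fun k l => (H (0, k, l, 0)).1 rfl, fun k l n => (H (1, k, l, n)).2.1 rfl,
    fun k l n => (H (2, k, l, n)).2.2.1 rfl, fun k l n => (H (3, k, l, n)).2.2.2.1 rfl,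
    fun k l n => (H (4, k, l, n)).2.2.2.2 rfl, h3⟩

end Vale.Agent.P354XC
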