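import Vale.Agent.P354XC.Est
import Vale.Agent.P354XC.Kern

/-! Block C: the iteration map and the contraction estimate. -/

open scoped ContDiff
open Set Filter Topology Matrix MeasureTheory

noncomputable section

namespace Vale.Agent.P354XC

open Vale.Agent.P354I (X Dat ee pd)

variable {R κ L c c' : ℝ} {U S : Set X} {s : ℝ × ℝ} {k : ℕ} {f g a : X → ℝ} {d d' : Dat} {V W : V2}

def Vs (S : Set X) (f : X → ℝ) : Prop := ∀ y ∉ S, f y = 0

theorem Vs.vn (h : Vs S f) (hS : S ⊆ Gam R) : Vn R f := fun y hy => h y fun h1 => hy (hS h1)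

theorem T_vs {ψ : Y → ℝ} {p : ℕ} (hS : Cone R S) (h : Ker ψ) (hv : Vs S f) : Vs S (T p ψ f) := by
  refine fun x hx => setIntegral_eq_zero_of_forall_eq_zero fun t ht => ?_
  have : J ψ f (x, t) = 0 := by
    refine integral_eq_zero_of_ae (Eventually.of_forall fun w => ?_)
    by_cases hw : w ∈ Qs
    · have : x - t • xi w ∉ S := fun hy => hx (by
        simpa using hS.2.2 _ hy t (le_of_lt ht) (xi w) rfl (abs_le.2 hw.1) (abs_le.2 hw.2))
      simp [hv _ this]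
    · simp [h.sp w hw]
  simp [this]

/-- Admissible sources. -/
structure Src (U S : Set X) (f g : X → ℝ) : Prop where
  cd : ContDiff ℝ ∞ f
  vs : Vs S f
  eq : EqOn f g U

theorem src_cut (D : Dm R U) (hS : S ⊆ Gam R) (hf : Sm U f) (h0 : ∀ y ∈ U, y ∉ S → f y = 0) :
    Src U S (S.indicator f) f := by
  have e : EqOn (S.indicator f) f U := fun y hy => by
    by_cases h : y ∈ S
    · exact indicator_of_mem h f
    · rw [indicator_of_notMem h, h0 y hy h]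
  have v : Vs S (S.indicator f) := fun y hy => indicator_of_notMem hy f
  exact ⟨(v.vn hS).cd D (hf.congr e), v, e⟩

theorem germ_eq {P P' : X → M3} {y : X} (h : ∀ᶠ z in 𝓝 y, d.h z = d'.h z) (hK : d.K y = d'.K y)
    (hP : P y = P' y) : Phi d y = Phi d' y ∧ ∀ b, Xi d P b y = Xi d' P' b y := by
  have e : ∀ (φ : M3 → ℝ) l, pd l (fun z => φ (d.h z)) y = pd l (fun z => φ (d'.h z)) y :=
    fun φ l => by
      have : (fun z => φ (d.h z)) =ᶠ[𝓝 y] fun z => φ (d'.h z) := h.mono fun z hz => by simp [hz]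
      simp only [pd, this.fderiv_eq]
  have e1 : ∀ l i j, pd l (fun z => d.h z i j) y = pd l (fun z => d'.h z i j) y :=
    fun l i j => e (fun a => a i j) l
  have e2 : ∀ l i j, pd l (fun z => (d.h z)⁻¹ i j) y = pd l (fun z => (d'.h z)⁻¹ i j) y :=
    fun l i j => e (fun a => a⁻¹ i j) l
  have e3 : ∀ l, pd l (fun z => (d.h z).det) y = pd l (fun z => (d'.h z).det) y :=
    fun l => e (fun a => a.det) l
  have e4 := h.self_of_nhds
  simp only [Phi, QQ, VV, Xi, Dat.chr, Dat.trK, Dat.sqK, e1, e2, e3, e4, hK, hP, implies_true,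
    and_self]

theorem Reg.phi (hU : IsOpen U) (hd : Reg U d) : Sm U (Phi d) := by
  have g := hd.g
  have c := hd.chr hU
  have q : Sm U (QQ d) := .sum fun k _ => .sum fun i _ => .sum fun j _ =>
    ((((g i k).pd hU k).mul (c j j i)).sub (((g i j).pd hU k).mul (c k i j))).add
      ((g i j).mul (.sum fun l _ => ((c k k l).mul (c l i j)).sub ((c k j l).mul (c l k i))))
  have t : Sm U d.trK := .sum fun i _ => .sum fun j _ => (g i j).mul (hd.K i j)
  have s : Sm U d.sqK := .sum fun i _ => .sum fun j _ => .sum fun k _ =>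
    .sum fun l _ => (((g i k).mul (g j l)).mul (hd.K i j)).mul (hd.K k l)
  exact (hd.sh.det.mul ((q.add (t.mul t)).sub s)).sub
    (.sum fun k _ => (hd.sh.det.pd hU k).mul (hd.VV hU k))

theorem Reg.xi (hU : IsOpen U) (hd : Reg U d) {P : X → M3} (hP : SmM U P) (b : Fin 3) :
    Sm U (Xi d P b) := by
  have g := hd.g
  have c := hd.chr hU
  exact .sum fun j _ => (g b j).mul (.sum fun i _ => .sum fun k _ =>
    (((hP i k).mul ((hd.sh k j).pd hU i)).sub (((g i k).pd hU i).mul (hd.K k j))).sub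
      ((g i k).mul (.sum fun l _ => ((c l i k).mul (hd.K l j)).add ((c l i j).mul (hd.K k l)))))

theorem SmM.kof {h P : X → M3} (hh : SmM U h) (hP : SmM U P) :
    SmM U fun y => Kof (h y) (P y) := fun i j =>
  show Sm U fun y => ∑ m, ∑ n, (h y i m * h y n j - 1 / 2 * (h y n m * h y i j)) * P y m n from
    .sum fun m _ => .sum fun n _ =>
      (((hh i m).mul (hh n j)).sub (contDiffOn_const.mul ((hh n m).mul (hh i j)))).mul (hP m n)

theorem Reg.p0 (hd : Reg U d) : SmM U (P0 d) := fun i j =>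
  show Sm U fun y => ∑ m, ∑ n, ((d.h y)⁻¹ i m * (d.h y)⁻¹ n j - (d.h y)⁻¹ n m * (d.h y)⁻¹ i j) *
    d.K y m n from .sum fun m _ => .sum fun n _ =>
      (((hd.g i m).mul (hd.g n j)).sub ((hd.g n m).mul (hd.g i j))).mul (hd.K m n)

theorem Reg.p0k (hd : Reg U d) : ∀ z ∈ U, (P0 d z).IsSymm ∧ d.K z = Kof (d.h z) (P0 d z) :=
  fun z hz => ⟨Pof_symm (hd.2 z hz).1 (hd.2 z hz).2.1, (Kof_Pof (hd.ne z hz) _).symm⟩

theorem Reg.eh (hU : IsOpen U) (hd : Reg U d) : Sm U (EH d) :=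
  ((hd.phi hU).sub (.sum fun k _ => Sm.pd hU (.sum fun l _ => (hd.sh.adj k l).pd hU l) k)).congr
    fun _ hy => ham_eq hU hd hy

theorem Reg.em (hU : IsOpen U) (hd : Reg U d) (b : Fin 3) : Sm U (EM d b) :=
  ((ContDiffOn.sum fun i _ => (hd.p0 i b).pd hU i).add (hd.xi hU hd.p0 b)).congr
    fun _ hy => mom_eq hU hd hd.p0 hd.p0k hy b

theorem Reg.cf (hd : Reg U d) (i j m n : Fin 3) : Sm U fun y => cf (d.h y) i j m n :=
  (show Sm U fun y => (d.h y).det⁻¹ from hd.sh.det.inv hd.ne).mul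
    ((contDiffOn_const.mul ((hd.sh _ _).mul (hd.sh _ _))).sub ((hd.sh _ _).mul (hd.sh _ _)))

theorem mk_P (hd : Reg U d) (hV : Adm S V) : SmM U (mk d V).2 := fun i j =>
  (hd.p0 i j).add (hV.c2 i j).contDiffOn

theorem mk_pk (hd : Reg U d) (hV : Adm S V) : ∀ z ∈ U, ((mk d V).2 z).IsSymm ∧
    (mk d V).1.K z = Kof ((mk d V).1.h z) ((mk d V).2 z) := fun z hz =>
  ⟨(hd.p0k z hz).1.add (hV.s2 z), mk_K hd V hz⟩

theorem mk_reg (hd : Reg U d) (hV : Adm S V) (h0 : ∀ y ∈ U, (d.h y + V.1 y).det ≠ 0) :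
    Reg U (mk d V).1 := by
  have h1 : SmM U (mk d V).1.h := fun i j => (hd.sh i j).add (hV.c1 i j).contDiffOn
  refine ⟨fun i j => ⟨h1 i j, (h1.kof (mk_P hd hV) i j).congr fun y hy => ?_⟩, fun y hy => ?_⟩
  · exact congrFun (congrFun (mk_K hd V hy) i) j
  · have h2 := (hd.2 y hy).1.add (hV.s1 y)
    exact ⟨h2, mk_K hd V hy ▸ Kof_symm h2 (mk_pk hd hV y hy).1, h0 y hy⟩

theorem mk_off (hV : Adm S V) {y : X} (hy : y ∉ S) :
    (mk d V).1.h y = d.h y ∧ (mk d V).1.K y = d.K y ∧ (mk d V).2 y = P0 d y := by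
  simp [mk, hV.v1 y hy, hV.v2 y hy]

def gH (d : Dat) (V : V2) (y : X) : ℝ := Phi (mk d V).1 y - Phi d y + EH d y
def gM (d : Dat) (V : V2) (b : Fin 3) (y : X) : ℝ :=
  Xi d (P0 d) b y - Xi (mk d V).1 (mk d V).2 b y - EM d b y

def HH (f : X → ℝ) (y : X) : M3 := Matrix.of fun k l => T 1 (kH k l) f y
def PP (g : Fin 3 → X → ℝ) (y : X) : M3 := Matrix.of fun i j => ∑ k, T 0 (kP i j k) (g k) y

/-- The linear solution operator and the iteration map. -/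
def LF (d : Dat) (f : X → ℝ) (g : Fin 3 → X → ℝ) (G : X → M3) : V2 :=
  (fun y => LI (d.h y) (HH f y - G y), PP g)

def FF (S : Set X) (d : Dat) (V : V2) : V2 :=
  LF d (S.indicator (gH d V)) (fun b => S.indicator (gM d V b)) fun y => (V.1 y).adjugate

/-- The qualitative hypotheses. -/
structure Bg (R : ℝ) (U S : Set X) (d : Dat) : Prop where
  D : Dm R U
  cone : Cone R S
  reg : Reg U d
  off : ∀ y ∈ U, y ∉ S → Ham d y = 0 ∧ ∀ j, Mom d j y = 0

theorem Bg.src (B : Bg R U S d) (hV : Adm S V) (h0 : ∀ y ∈ U, (d.h y + V.1 y).det ≠ 0) :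
    Src U S (S.indicator (gH d V)) (gH d V) ∧ ∀ b, Src U S (S.indicator (gM d V b)) (gM d V b) := by
  have hU := B.D.op
  have hr := mk_reg B.reg hV h0
  have e : ∀ y ∉ S, _ := fun y hy => germ_eq (d := (P354XC.mk d V).1) (d' := d)
    (P := (P354XC.mk d V).2)
    (P' := P0 d) (y := y) (by
      filter_upwards [B.cone.1.isOpen_compl.mem_nhds hy] with z hz using (mk_off hV hz).1)
    (mk_off hV hy).2.1 (mk_off hV hy).2.2
  exact ⟨src_cut B.D B.cone.2.1 (((hr.phi hU).sub (B.reg.phi hU)).add (B.reg.eh hU))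
      fun y hy h => by simp [gH, (e y h).1, EH, (B.off y hy h).1],
    fun b => src_cut B.D B.cone.2.1 (((B.reg.xi hU B.reg.p0 b).sub (hr.xi hU (mk_P B.reg hV) b)).sub
      (B.reg.em hU b)) fun y hy h => by simp [gM, (e y h).2, EM, (B.off y hy h).2]⟩

theorem Adm.adj (hV : Adm S V) : SmM U fun y => (V.1 y).adjugate := fun i j =>
  SmM.adj (fun i j => (hV.c1 i j).contDiffOn) i j

theorem Bg.adm (B : Bg R U S d) (hV : Adm S V) (h0 : ∀ y ∈ U, (d.h y + V.1 y).det ≠ 0) :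
    Adm S (FF S d V) := by
  obtain ⟨h1, h2⟩ := B.src hV h0
  have hS := B.cone.2.1
  have v1 : ∀ y ∉ S, (FF S d V).1 y = 0 := fun y hy => by
    ext i j
    simp [FF, LF, LI, HH, hV.v1 y hy, T_vs B.cone (ker_kH _ _) h1.vs y hy]
  refine ⟨fun i j => Vn.cd B.D (fun y hy => ?_) (show Sm U fun y => ∑ m, ∑ n, cf (d.h y) i j m n *
      (T 1 (kH m n) (S.indicator (gH d V)) y - (V.1 y).adjugate m n) from
      .sum fun m _ => .sum fun n _ => (B.reg.cf i j m n).mul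
        ((T_cd (ker_kH m n) h1.cd (h1.vs.vn hS)).contDiffOn.sub (hV.adj m n))),
    fun i j => show ContDiff ℝ ∞ fun y => ∑ k, T 0 (kP i j k) (S.indicator (gM d V k)) y from
      ContDiff.sum fun k _ => T_cd (ker_kP i j k) (h2 k).cd ((h2 k).vs.vn hS), v1,
    fun y hy => ?_, fun y => ?_, fun y => IsSymm.ext fun i j => ?_⟩
  · simp [en, v1 y fun h => hy (hS h)]
  · ext i j
    simp [FF, LF, PP, fun k => T_vs (p := 0) B.cone (ker_kP i j k) (h2 k).vs y hy]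
  · by_cases hy : y ∈ S
    · refine LI_symm (B.reg.2 y (B.D.sub (hS hy))).1 (IsSymm.sub (IsSymm.ext fun i j => ?_) ?_)
      · simp only [HH, of_apply, kH_symm i j]
      · exact (hV.s1 y).adjugate
    · rw [v1 y hy]; exact isSymm_zero
  · simp only [FF, LF, PP, of_apply, kP_symm i j]

/-! ### The classes of the unknown and of the coefficients -/

def QC (R : ℝ) (U : Set X) (s : ℝ × ℝ) (k : ℕ) (κ : ℝ) (f : X → ℝ) (c : ℝ) : Prop :=
  Sm U f ∧ Bd R s (wT 1 κ R) k f c ∧ ∀ l, Bd R s (wT 0 κ R) k (pd l f) c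

def LC (R : ℝ) (U : Set X) (s : ℝ × ℝ) (k : ℕ) (a : X → ℝ) (L : ℝ) : Prop :=
  Sm U a ∧ Bd R s (fun _ => 1) k a L ∧ ∀ l, Bd R s (fun t => 1 / t) k (pd l a) L

theorem QC.add (D : Dm R U) (h : QC R U s k κ f c) (h' : QC R U s k κ g c') :
    QC R U s k κ (fun y => f y + g y) (c + c') :=
  ⟨h.1.add h'.1, h.2.1.add D h.1 h'.1 h'.2.1, fun l => ((h.2.2 l).add D (h.1.pd D.op l)
    (h'.1.pd D.op l) (h'.2.2 l)).congr D fun _ hy => (fd_add D.op h.1 h'.1 hy _).symm⟩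

theorem QC.sub (D : Dm R U) (h : QC R U s k κ f c) (h' : QC R U s k κ g c') :
    QC R U s k κ (fun y => f y - g y) (c + c') :=
  ⟨h.1.sub h'.1, h.2.1.sub D h.1 h'.1 h'.2.1, fun l => ((h.2.2 l).sub D (h.1.pd D.op l)
    (h'.1.pd D.op l) (h'.2.2 l)).congr D fun _ hy => (fd_sub D.op h.1 h'.1 hy _).symm⟩

theorem QC.le (D : Dm R U) (h : QC R U s k κ f c) (hc : c ≤ c') : QC R U s k κ f c' :=
  ⟨h.1, h.2.1.le (pw_wT D.pos) hc, fun l => (h.2.2 l).le (pw_wT D.pos) hc⟩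

theorem QC.congr (D : Dm R U) (h : QC R U s k κ f c) (e : EqOn f g U) : QC R U s k κ g c :=
  ⟨h.1.congr e.symm, h.2.1.congr D e, fun l => (h.2.2 l).congr D fun _ hy => pd_congr D.op e hy l⟩

theorem LC.mul (D : Dm R U) (ha : LC R U s k a L) (h : QC R U s k κ f c) :
    QC R U s k κ (fun y => a y * f y) (2 * (L * c)) := by
  have h0 := mul_nonneg ha.2.1.nonneg h.2.1.nonneg
  refine ⟨ha.1.mul h.1, (ha.2.1.mul1 D ha.1 h.1 h.2.1).le (pw_wT D.pos) (by linarith), fun l => ?_⟩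
  rw [two_mul]
  refine ((((ha.2.2 l).mul D (ha.1.pd D.op l) h.1 h.2.1).wt1 fun t ht => le_of_eq ?_).add D
    ((ha.1.pd D.op l).mul h.1) (ha.1.mul (h.1.pd D.op l))
    (ha.2.1.mul1 D ha.1 (h.1.pd D.op l) (h.2.2 l))).congr D fun _ hy =>
      (fd_mul D.op ha.1 h.1 hy _).symm
  have := (D.pos.trans_le ht).ne'
  simp only [wT]; field_simp

theorem QC.lc (D : Dm R U) (hκ : 0 ≤ κ) (h : QC R U s k κ f c) :
    LC R U s k f (Real.exp κ / R * c) := by
  refine ⟨h.1, wl00 ▸ (h.2.1.t1d D.pos).dl D.pos hκ, fun l =>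
    (Bd.dl D.pos hκ (wd10 D.pos ▸ h.2.2 l)).wt1 fun t ht => ?_⟩
  simpa [wl] using wl_weak (n := 0) (e := 0) D.pos ht

theorem QC.sum2 (D : Dm R U) {F : Fin 3 → Fin 3 → X → ℝ} (h : ∀ m n, QC R U s k κ (F m n) c) :
    QC R U s k κ (fun y => ∑ m, ∑ n, F m n y) (9 * c) := by
  have h1 : ∀ m, QC R U s k κ (fun y => ∑ n, F m n y) (c + c + c) := fun m => by
    simpa only [Fin.sum_univ_three] using ((h m 0).add D (h m 1)).add D (h m 2)
  have h2 := ((h1 0).add D (h1 1)).add D (h1 2)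
  simp only [Fin.sum_univ_three (f := fun m => ∑ n, F m n _)]
  exact h2.le D (le_of_eq (by ring))

theorem Nm.qc (h : Nm R s k κ V c) (hV : ∀ i j, ContDiff ℝ ∞ (en V.1 i j)) (i j : Fin 3) :
    QC R U s k κ (en V.1 i j) c := ⟨(hV i j).contDiffOn, (h i j).1, (h i j).2.1⟩

theorem lin_est {A : ℝ} {m : ℕ → ℝ} (K : KB A m) (D : Dm R U) (h1 : s.1 ∈ Icc 0 (m k))
    (h2 : s.2 ∈ Icc 0 (m k)) (hκ : 0 < κ) (hL : 1 ≤ L)
    (hc : ∀ i j m n, LC R U s k (fun y => cf (d.h y) i j m n) L) {g : Fin 3 → X → ℝ} {G : X → M3}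
    (hf : ContDiff ℝ ∞ f) (vf : Vn R f) (hg : ∀ b, ContDiff ℝ ∞ (g b)) (vg : ∀ b, Vn R (g b))
    (bf : Bd R s (wS κ R) k f c) (bg : ∀ b, Bd R s (wS κ R) k (g b) c)
    (bG : ∀ i j, QC R U s k κ (en G i j) c') :
    Nm R s k κ (LF d f g G) (18 * L * (A * c / κ + c')) := by
  intro i j
  have hR := D.pos
  have hH : ∀ a b, QC R U s k κ (T 1 (kH a b) f) (A * c / κ) := fun a b =>
    ⟨(T_cd (ker_kH a b) hf vf).contDiffOn, K.H a b _ _ _ _ _ _ h1 h2 hR hκ hf vf bf, fun l => by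
      rw [T1_pd (ker_kH a b) hf vf]; exact K.dH a b l _ _ _ _ _ _ h1 h2 hR hκ hf vf bf⟩
  have h3 := (QC.sum2 D fun a b => (hc i j a b).mul D ((hH a b).sub D (bG a b))).le D
    (c' := 18 * L * (A * c / κ + c')) (le_of_eq (by ring))
  refine ⟨h3.2.1, h3.2.2, (Bd.sum D Finset.univ
    (fun b => (T_cd (ker_kP i j b) (hg b) (vg b)).contDiffOn) fun b =>
      K.P i j b _ _ _ _ _ _ h1 h2 hR hκ (hg b) (vg b) (bg b)).le (pw_wT hR) ?_⟩
  have h4 := (hH 0 0).2.1.nonneg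
  have h5 := (bG 0 0).2.1.nonneg
  simp only [Fin.sum_univ_three]
  nlinarith [mul_nonneg (sub_nonneg.2 hL) (add_nonneg h4 h5)]

theorem LF_sub {f' : X → ℝ} {g g' : Fin 3 → X → ℝ} {G G' : X → M3} (hf : ContDiff ℝ ∞ f)
    (vf : Vn R f) (hg : ∀ b, ContDiff ℝ ∞ (g b)) (vg : ∀ b, Vn R (g b)) (hf' : ContDiff ℝ ∞ f')
    (vf' : Vn R f') (hg' : ∀ b, ContDiff ℝ ∞ (g' b)) (vg' : ∀ b, Vn R (g' b)) :
    LF d f g G - LF d f' g' G' =
      LF d (fun y => f y - f' y) (fun b y => g b y - g' b y) fun y => G y - G' y := by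
  refine Prod.ext (funext fun y => ?_) (funext fun y => ?_) <;> ext i j
  · simp only [LF, LI, HH, Prod.fst_sub, Pi.sub_apply, Matrix.sub_apply, of_apply,
      T_subf (ker_kH _ _) hf hf' vf vf', Fin.sum_univ_three]
    ring
  · simp only [LF, PP, Prod.snd_sub, Pi.sub_apply, Matrix.sub_apply, of_apply,
      T_subf (ker_kP _ _ _) (hg _) (hg' _) (vg _) (vg' _), Finset.sum_sub_distrib]

theorem Es.lc {N : ℕ} {i : Ix} (E : Es N i) (a b m n : Fin 3) :
    LC i.C.R i.C.U i.C.s i.C.k (fun y => cf (i.d.h y) a b m n) (i.C.L ^ N) :=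
  ⟨i.reg.cf a b m n, wl00 ▸ E.cf0 a b m n, fun l => (E.cf1 a b m n l).wt1 fun t ht => by
    simpa [wl] using wl_weak (n := 0) (e := 0) i.C.D.pos ht⟩

theorem contr {A : ℝ} {m : ℕ → ℝ} (K : KB A m) {N : ℕ} {i : Ix} (E : Es N i)
    (B : Bg i.C.R i.C.U i.S i.d) (h1 : i.C.s.1 ∈ Icc 0 (m i.C.k)) (h2 : i.C.s.2 ∈ Icc 0 (m i.C.k))
    (hκ : 72 * A * (i.C.L ^ N * i.C.L ^ N) ≤ i.C.κ)
    (hs : 576 * i.C.L ^ N * (i.c0 * Real.exp i.C.κ) ≤ i.C.R) :
    Nm i.C.R i.C.s i.C.k i.C.κ (FF i.S i.d i.V - FF i.S i.d i.W) (i.C.c / 2) := by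
  have D := i.C.D
  have hR := D.pos
  have hL : 1 ≤ i.C.L ^ N := one_le_pow₀ (by linarith [i.C.hL])
  have hA := K.one
  have hκ0 : 0 < i.C.κ := lt_of_lt_of_le (by positivity) hκ
  obtain ⟨a1, a2⟩ := B.src i.aV E.n1
  obtain ⟨b1, b2⟩ := B.src i.aW E.n2
  have hS := i.sub
  unfold FF
  rw [LF_sub a1.cd (a1.vs.vn hS) (fun b => (a2 b).cd) (fun b => (a2 b).vs.vn hS) b1.cd
    (b1.vs.vn hS) (fun b => (b2 b).cd) fun b => (b2 b).vs.vn hS]
  have lv := fun a b => (i.nV.qc (U := i.C.U) i.aV.c1 a b).lc D i.hκ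
  have lw := fun a b => (i.nW.qc (U := i.C.U) i.aW.c1 a b).lc D i.hκ
  have qd := i.nD.qc (U := i.C.U) fun a b => (i.aV.c1 a b).sub (i.aW.c1 a b)
  have h3 := lin_est K D h1 h2 hκ0 hL E.lc (a1.cd.sub b1.cd)
    (fun y hy => by rw [a1.vs.vn hS y hy, b1.vs.vn hS y hy, sub_zero])
    (fun b => (a2 b).cd.sub (b2 b).cd)
    (fun b y hy => by rw [(a2 b).vs.vn hS y hy, (b2 b).vs.vn hS y hy, sub_zero])
    ((wd20 hR ▸ E.phi.d0).congr D fun y hy => by simp only [a1.eq hy, b1.eq hy, gH]; ring)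
    (fun b => (wd20 hR ▸ (E.xi b).d0).neg.congr D fun y hy => by
      simp only [(a2 b).eq hy, (b2 b).eq hy, gM]; ring)
    (G := fun y => (i.V.1 y).adjugate - (i.W.1 y).adjugate) fun a b =>
      ((((lv (b + 2) (a + 2)).mul D (qd (b + 1) (a + 1))).add D
        ((lw (b + 1) (a + 1)).mul D (qd (b + 2) (a + 2)))).sub D
        (((lv (b + 2) (a + 1)).mul D (qd (b + 1) (a + 2))).add D
        ((lw (b + 1) (a + 2)).mul D (qd (b + 2) (a + 1))))).congr D fun y _ => by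
          simp only [en, Matrix.sub_apply, adj_eq, Prod.fst_sub, Pi.sub_apply]; ring
  have h4 : 18 * i.C.L ^ N * (A * (i.C.c * i.C.L ^ N) / i.C.κ +
      (2 * (Real.exp i.C.κ / i.C.R * i.c0 * i.C.c) + 2 * (Real.exp i.C.κ / i.C.R * i.c0 * i.C.c) +
      (2 * (Real.exp i.C.κ / i.C.R * i.c0 * i.C.c) +
        2 * (Real.exp i.C.κ / i.C.R * i.c0 * i.C.c)))) ≤ i.C.c / 2 := by
    have h5 := (div_le_one hκ0).2 hκ
    have h6 := (div_le_one hR).2 hs
    have h7 := mul_le_mul_of_nonneg_left (add_le_add h5 h6) i.C.hc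
    refine le_trans (le_of_eq ?_) (show i.C.c * (72 * A * (i.C.L ^ N * i.C.L ^ N) / i.C.κ +
      576 * i.C.L ^ N * (i.c0 * Real.exp i.C.κ) / i.C.R) / 4 ≤ _ by linarith)
    ring
  exact fun a b => ⟨(h3 a b).1.le (pw_wT hR) h4, fun l => ((h3 a b).2.1 l).le (pw_wT hR) h4,
    (h3 a b).2.2.le (pw_wT hR) h4⟩

end Vale.Agent.P354XC
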