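import Vale.Agent.P354XC.Pair

/-! Block C: the nonlinear estimates for two states near the background. -/

open scoped ContDiff
open Set Filter Topology Matrix

noncomputable section

namespace Vale.Agent.P354XC

open Vale.Agent.P354I (X Dat ee pd)

abbrev V2 : Type := (X → M3) × (X → M3)

def P0 (d : Dat) (y : X) : M3 := Pof (d.h y) (d.K y)

/-- The corrected data and the corrected momentum. -/
def mk (d : Dat) (V : V2) : St :=
  (⟨fun y => d.h y + V.1 y,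
    fun y => d.K y + (Kof (d.h y + V.1 y) (P0 d y + V.2 y) - Kof (d.h y) (P0 d y))⟩,
    fun y => P0 d y + V.2 y)

theorem mk_zero (d : Dat) : mk d 0 = (d, P0 d) := by simp [mk]

structure Adm (S : Set X) (V : V2) : Prop where
  c1 : ∀ i j, ContDiff ℝ ∞ (en V.1 i j)
  c2 : ∀ i j, ContDiff ℝ ∞ (en V.2 i j)
  v1 : ∀ y ∉ S, V.1 y = 0
  v2 : ∀ y ∉ S, V.2 y = 0
  s1 : ∀ y, (V.1 y).IsSymm
  s2 : ∀ y, (V.2 y).IsSymm

theorem adm_zero (S : Set X) : Adm S 0 :=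
  ⟨fun _ _ => contDiff_const, fun _ _ => contDiff_const, fun _ _ => rfl, fun _ _ => rfl,
    fun _ => isSymm_zero, fun _ => isSymm_zero⟩

def Nm (R : ℝ) (s : ℝ × ℝ) (k : ℕ) (κ : ℝ) (V : V2) (c : ℝ) : Prop :=
  ∀ i j, Bd R s (wT 1 κ R) k (en V.1 i j) c ∧ (∀ l, Bd R s (wT 0 κ R) k (pd l (en V.1 i j)) c) ∧
    Bd R s (wT 0 κ R) k (en V.2 i j) c

theorem nm_zero {R κ c : ℝ} {s : ℝ × ℝ} {k : ℕ} (hR : 0 < R) (hc : 0 ≤ c) : Nm R s k κ 0 c :=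
  fun i j => ⟨(Bd.zero k).le (pw_wT hR) hc, fun l => by
    have : pd l (en (0 : V2).1 i j) = fun _ => 0 := by
      funext x; exact (show pd l (fun _ => (0 : ℝ)) x = 0 by simp [pd])
    rw [this]; exact (Bd.zero k).le (pw_wT hR) hc, (Bd.zero k).le (pw_wT hR) hc⟩

def HB (R : ℝ) (s : ℝ × ℝ) (k : ℕ) (L : ℝ) (d : Dat) : Prop :=
  (∀ i j, Bd R s (fun _ => 1) k (fun y => d.h y i j) L ∧
    (∀ l, Bd R s (fun t => R / t ^ 2) k (pd l fun y => d.h y i j) L) ∧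
    Bd R s (fun t => R / t ^ 2) k (fun y => d.K y i j) L) ∧
  Bd R s (fun _ => 1) k (fun y => (d.h y).det⁻¹) L

theorem Pr.base {C : Cx} {N n e : ℕ} {a v v' : X → ℝ} (ha : Sm C.U a) (hv : Sm C.U v)
    (hv' : Sm C.U v') (b : Bd C.R C.s (wl C.R n e) C.k a (C.L ^ N * C.M ^ e))
    (b1 : Bd C.R C.s (wl C.R n e) C.k v (C.M ^ e)) (b2 : Bd C.R C.s (wl C.R n e) C.k v' (C.M ^ e))
    (b3 : Bd C.R C.s (wd C.κ C.R n e) C.k (fun y => v y - v' y) (C.c * C.M ^ e)) :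
    Pr C (N + 1) n e (fun y => a y + v y) (fun y => a y + v' y) := by
  have h1 : ∀ N, C.M ^ e ≤ C.L ^ N * C.M ^ e := fun N =>
    le_mul_of_one_le_left (by have := C.hM; positivity) (one_le_pow₀ (by linarith [C.hL]))
  have h2 := C.two N e
  exact ⟨ha.add hv, ha.add hv', (b.add C.D ha hv b1).le (pw_wl C.D.pos _ _) (by linarith [h1 N]),
    (b.add C.D ha hv' b2).le (pw_wl C.D.pos _ _) (by linarith [h1 N]),
    (b3.congr C.D fun y _ => by ring).le (pw_wd C.D.pos _ _)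
      (mul_le_mul_of_nonneg_left (h1 _) C.hc)⟩

theorem Pr.b0 {C : Cx} {N n : ℕ} {a b : X → ℝ} (h : Pr C N n 0 a b) :
    Bd C.R C.s (wl C.R n 0) C.k a (C.L ^ N) := by simpa using h.b1

theorem Pr.d0 {C : Cx} {N n : ℕ} {a b : X → ℝ} (h : Pr C N n 0 a b) :
    Bd C.R C.s (wd C.κ C.R n 0) C.k (fun y => a y - b y) (C.c * C.L ^ N) := by simpa using h.df

section weights

variable {R κ c : ℝ} {s : ℝ × ℝ} {k : ℕ} {f : X → ℝ}

theorem wl00 : wl R 0 0 = fun _ => 1 := by funext t; simp [wl]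
theorem wl10 : wl R 1 0 = fun t => R / t ^ 2 := by funext t; simp [wl]
theorem wl11 : wl R 1 1 = fun t => R / t ^ 3 := by funext t; simp only [wl]; ring
theorem wd10 (hR : 0 < R) : wd κ R 1 0 = wT 0 κ R := by
  funext t; simp only [wd, wl, wT]; field_simp
theorem wd20 (hR : 0 < R) : wd κ R 2 0 = wS κ R := by
  funext t; simp only [wd, wl, wS]; field_simp
theorem wd11 (hR : 0 < R) : wd κ R 1 1 = fun t => om κ R t * (1 / t ^ 3) := by
  funext t; simp only [wd, wl]; field_simp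

theorem Bd.t1d (hR : 0 < R) (h : Bd R s (wT 1 κ R) k f c) : Bd R s (wd κ R 0 0) k f c :=
  h.wt1 fun t ht => by
    have h0 := hR.trans_le ht
    have : t ^ 1 / t ^ 2 ≤ 1 / R := by
      rw [div_le_div_iff₀ (by positivity) hR]; nlinarith
    have := mul_le_mul_of_nonneg_left this (om_pos κ R t).le
    simp only [wd, wl, wT, pow_zero, mul_one]
    exact this.trans_eq (by ring)

theorem Bd.dl {n e : ℕ} (hR : 0 < R) (hκ : 0 ≤ κ) (h : Bd R s (wd κ R n e) k f c) :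
    Bd R s (wl R n e) k f (Real.exp κ / R * c) :=
  h.wt (by positivity) fun t ht => mul_le_mul_of_nonneg_right
    (div_le_div_of_nonneg_right (om_le hκ hR ht) hR.le) (pw_wl hR n e t ht)

end weights

/-- Two states near the background. -/
structure Ix where
  C : Cx
  S : Set X
  d : Dat
  V : V2
  W : V2
  c0 : ℝ
  sub : S ⊆ Gam C.R
  reg : Reg C.U d
  hκ : 0 ≤ C.κ
  hb : HB C.R C.s C.k C.L d
  aV : Adm S V
  aW : Adm S W
  nV : Nm C.R C.s C.k C.κ V c0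
  nW : Nm C.R C.s C.k C.κ W c0
  nD : Nm C.R C.s C.k C.κ (V - W) C.c
  sm : c0 * Real.exp C.κ ≤ C.R

def F1 : Fm Ix := ⟨fun i => i.C, fun i => mk i.d i.V, fun i => mk i.d i.W⟩
def F0 : Fm Ix := ⟨fun i => i.C, fun i => (i.d, 0), fun i => (i.d, 0)⟩

theorem Ix.c0n (i : Ix) : 0 ≤ i.c0 := (i.nV 0 0).1.nonneg

theorem Ix.eps (i : Ix) : Real.exp i.C.κ / i.C.R * i.c0 ≤ i.C.M ^ 0 := by
  rw [pow_zero, div_mul_eq_mul_div, div_le_one i.C.D.pos, mul_comm]; exact i.sm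

theorem pr_same {C : Cx} {N n e : ℕ} {a : X → ℝ} (ha : Sm C.U a)
    (b : Bd C.R C.s (wl C.R n e) C.k a (C.L ^ N * C.M ^ e)) : Pr C N n e a a :=
  ⟨ha, ha, b, b, by simpa using (Pr.zero (C := C) (N := N) (n := n) (e := e)).df⟩

theorem bh0 : BH F0 := fun a b =>
  ⟨⟨1, fun i => pr_same (i.reg.sh a b) (by simpa [wl00, F0] using (i.hb.1 a b).1)⟩, fun l =>
    ⟨1, fun i => pr_same ((i.reg.sh a b).pd i.C.D.op l)
      (by simpa [wl10, F0] using (i.hb.1 a b).2.1 l)⟩⟩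

theorem bi0 : BI F0 :=
  ⟨⟨1, fun i => pr_same (i.reg.sh.det.inv i.reg.ne) (by simpa [wl00, F0] using i.hb.2)⟩,
    fun i a ha => by rcases ha with rfl | rfl <;> exact i.reg.ne⟩

theorem bk0 : BK F0 := fun a b =>
  ⟨1, fun i => pr_same (i.reg.K a b) (by simpa [wl10, F0] using (i.hb.1 a b).2.2)⟩

theorem bh1 : BH F1 := fun a b => by
  refine ⟨⟨2, fun i => ?_⟩, fun l => ⟨2, fun i => ?_⟩⟩
  · have hR := i.C.D.pos
    exact Pr.base (C := i.C) (N := 1) (i.reg.sh a b) (i.aV.c1 a b).contDiffOn (i.aW.c1 a b).contDiffOn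
      (by simpa [wl00] using (i.hb.1 a b).1)
      ((((i.nV a b).1.t1d hR).dl hR i.hκ).le (pw_wl hR _ _) i.eps)
      ((((i.nW a b).1.t1d hR).dl hR i.hκ).le (pw_wl hR _ _) i.eps)
      (by rw [pow_zero, mul_one]; exact (i.nD a b).1.t1d hR)
  · have hR := i.C.D.pos
    have hU := i.C.D.op
    have h1 : Sm i.C.U _ := (i.aV.c1 a b).contDiffOn
    have h2 : Sm i.C.U _ := (i.aW.c1 a b).contDiffOn
    refine (Pr.base (C := i.C) (N := 1) (n := 1) (e := 0) ((i.reg.sh a b).pd hU l) (h1.pd hU l) (h2.pd hU l)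
      (by simpa [wl10] using (i.hb.1 a b).2.1 l)
      ((Bd.dl hR i.hκ (wd10 hR ▸ (i.nV a b).2.1 l)).le (pw_wl hR _ _) i.eps)
      ((Bd.dl hR i.hκ (wd10 hR ▸ (i.nW a b).2.1 l)).le (pw_wl hR _ _) i.eps) ?_).congr
      (fun y hy => (fd_add hU (i.reg.sh a b) h1 hy _).symm)
      (fun y hy => (fd_add hU (i.reg.sh a b) h2 hy _).symm)
    rw [pow_zero, mul_one, wd10 hR]
    exact ((i.nD a b).2.1 l).congr i.C.D fun y hy => fd_sub hU h1 h2 hy _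

theorem bp1 : BP F1 := fun a b => by
  obtain ⟨N, H⟩ := bh0.pof bi0 bk0 a b
  refine ⟨N + 1, fun i => ?_⟩
  have hR := i.C.D.pos
  exact Pr.base (C := i.C) (H i).s1 (i.aV.c2 a b).contDiffOn (i.aW.c2 a b).contDiffOn (H i).b1
    ((Bd.dl hR i.hκ (wd10 hR ▸ (i.nV a b).2.2)).le (pw_wl hR _ _) i.eps)
    ((Bd.dl hR i.hκ (wd10 hR ▸ (i.nW a b).2.2)).le (pw_wl hR _ _) i.eps)
    (by rw [pow_zero, mul_one, wd10 hR]; exact (i.nD a b).2.2)

theorem mk_K {U : Set X} {d : Dat} (hd : Reg U d) (V : V2) {y : X} (hy : y ∈ U) :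
    (mk d V).1.K y = Kof ((mk d V).1.h y) ((mk d V).2 y) := by
  simp [mk, P0, Kof_Pof (hd.ne y hy)]

theorem bk1 : BK F1 := fun a b => (bh1.kof bp1 a b).congr fun i x hx y hy => by
  rcases hx with rfl | rfl <;> exact (congrFun (congrFun (mk_K i.reg _ hy) a) b).symm

/-- The pair of a state and the background. -/
def Ix.base (i : Ix) (V : V2) (aV : Adm i.S V) (nV : Nm i.C.R i.C.s i.C.k i.C.κ V i.c0) : Ix :=
  { i with
    C := { i.C with c := i.c0, hc := i.c0n }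
    V := V, W := 0, aV := aV, aW := adm_zero _, nV := nV, nW := nm_zero i.C.D.pos i.c0n
    nD := by simpa using nV }

def Ix.Small (i : Ix) (N : ℕ) : Prop := i.c0 * Real.exp i.C.κ * i.C.L ^ N ≤ i.C.R

theorem Ix.Small.mono {i : Ix} {N N' : ℕ} (h : i.Small N) (hN : N' ≤ N) : i.Small N' :=
  le_trans (mul_le_mul_of_nonneg_left (pow_le_pow_right₀ (by linarith [i.C.hL]) hN)
    (mul_nonneg i.c0n (Real.exp_pos _).le)) h

theorem det_inv : ∃ N, ∀ (i : Ix) (V : V2), Adm i.S V → Nm i.C.R i.C.s i.C.k i.C.κ V i.c0 →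
    i.Small N → (∀ y ∈ i.C.U, (i.d.h y + V.1 y).det ≠ 0) ∧
      Bd i.C.R i.C.s (fun _ => 1) i.C.k (fun y => (i.d.h y + V.1 y).det⁻¹) (i.C.L ^ 2) := by
  obtain ⟨N, H⟩ := bh1.det.1
  refine ⟨N + 2, fun i V aV nV hs => ?_⟩
  have D := i.C.D
  have hR := D.pos
  have hL := i.C.hL
  have h1 := H (i.base V aV nV)
  have s1 : Sm i.C.U fun y => (i.d.h y + V.1 y).det := h1.s1
  have s0 := i.reg.sh.det
  have si : Sm i.C.U fun y => (i.d.h y).det⁻¹ := s0.inv i.reg.ne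
  have h2 : Bd i.C.R i.C.s (wd i.C.κ i.C.R 0 0) i.C.k
      (fun y => (i.d.h y + V.1 y).det - (i.d.h y).det) (i.c0 * (i.C.L ^ N * i.C.M ^ 0)) := by
    simpa [F1, Ix.base, mk] using h1.df
  have h3 := ((i.hb.2.mul1 D si (s1.sub s0) (wl00 ▸ h2.dl hR i.hκ)).neg.congr D
    (g := fun y => 1 - (i.d.h y + V.1 y).det * (i.d.h y).det⁻¹) fun y hy => by
      have := i.reg.ne y hy
      beta_reduce
      field_simp; ring).le pw1 (c' := 1 / 2) (by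
      have h4 : i.c0 * Real.exp i.C.κ * i.C.L ^ (N + 2) ≤ i.C.R := hs
      have h5 : 0 ≤ i.c0 * Real.exp i.C.κ * i.C.L ^ (N + 1) := by have := i.c0n; positivity
      have h6 : i.C.L * (Real.exp i.C.κ / i.C.R * (i.c0 * (i.C.L ^ N * i.C.M ^ 0))) =
        i.c0 * Real.exp i.C.κ * i.C.L ^ (N + 1) / i.C.R := by ring
      rw [h6, div_le_iff₀ hR]
      rw [pow_succ _ (N + 1), ← mul_assoc] at h4
      nlinarith)
  have hq : ∀ y ∈ i.C.U, (i.d.h y + V.1 y).det * (i.d.h y).det⁻¹ ≠ 0 := fun y hy h0 => by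
    by_cases hg : y ∈ Gam i.C.R
    · have := h3.pt pw1 hg
      rw [h0] at this; norm_num at this
    · rw [aV.v1 y fun h => hg (i.sub h), add_zero, mul_inv_cancel₀ (i.reg.ne y hy)] at h0
      exact one_ne_zero h0
  have hne : ∀ y ∈ i.C.U, (i.d.h y + V.1 y).det ≠ 0 := fun y hy => left_ne_zero_of_mul (hq y hy)
  have sq : Sm i.C.U fun y => ((i.d.h y + V.1 y).det * (i.d.h y).det⁻¹)⁻¹ := (s1.mul si).inv hq
  refine ⟨hne, (((Bd.inv D (s1.mul si) hq (by norm_num) h3).mul1 D sq si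
    i.hb.2).congr D fun y hy => ?_).le pw1 (by norm_num; nlinarith)⟩
  have := i.reg.ne y hy
  have := hne y hy
  field_simp

def Fm.comap {ι ι' : Type} (F : Fm ι) (g : ι' → ι) : Fm ι' :=
  ⟨fun i => F.C (g i), fun i => F.A (g i), fun i => F.B (g i)⟩

theorem PF.comap {ι ι' : Type} {F : Fm ι} {n e : ℕ} {Φ : St → X → ℝ} (h : PF F n e Φ)
    (g : ι' → ι) : PF (F.comap g) n e Φ := h.imp fun _ h i => h (g i)

theorem PD.comap {ι ι' : Type} {F : Fm ι} {n e : ℕ} {Φ : St → X → ℝ} (h : PD F n e Φ)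
    (g : ι' → ι) : PD (F.comap g) n e Φ := ⟨h.1.comap g, fun l => (h.2 l).comap g⟩

theorem bi1 : ∃ N, ∀ {ι : Type} (g : ι → Ix), (∀ i, (g i).Small N) → BI (F1.comap g) := by
  obtain ⟨N, H⟩ := det_inv
  obtain ⟨N', H'⟩ := bh1.det.1
  refine ⟨N, fun g hg => ⟨⟨N' + 4, fun j => ?_⟩, fun j a ha => ?_⟩⟩
  · set i := g j
    have D := i.C.D
    obtain ⟨a1, a2⟩ := H i i.V i.aV i.nV (hg j)
    obtain ⟨b1, b2⟩ := H i i.W i.aW i.nW (hg j)
    have h1 := H' i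
    have s1 : Sm i.C.U fun y => (i.d.h y + i.V.1 y).det⁻¹ := h1.s1.inv a1
    have s2 : Sm i.C.U fun y => (i.d.h y + i.W.1 y).det⁻¹ := h1.s2.inv b1
    have hp : i.C.L ^ 2 ≤ i.C.L ^ (N' + 4) * i.C.M ^ 0 := by
      rw [pow_zero, mul_one]; exact pow_le_pow_right₀ (by linarith [i.C.hL]) (by omega)
    refine ⟨s1, s2, wl00 ▸ a2.le pw1 hp, wl00 ▸ b2.le pw1 hp, ?_⟩
    refine (((a2.mul1 D s1 s2 b2).mul1 D (s1.mul s2) (h1.s1.sub h1.s2) h1.df).neg.congr D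
      fun y hy => ?_).le (pw_wd D.pos _ _) (le_of_eq (by
        change i.C.L ^ 2 * i.C.L ^ 2 * (i.C.c * (i.C.L ^ N' * i.C.M ^ 0)) =
          i.C.c * (i.C.L ^ (N' + 4) * i.C.M ^ 0)
        ring))
    have := a1 y hy
    have := b1 y hy
    change -((i.d.h y + i.V.1 y).det⁻¹ * (i.d.h y + i.W.1 y).det⁻¹ *
      ((i.d.h y + i.V.1 y).det - (i.d.h y + i.W.1 y).det)) =
        (i.d.h y + i.V.1 y).det⁻¹ - (i.d.h y + i.W.1 y).det⁻¹
    field_simp; ring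
  · rcases ha with rfl | rfl
    exacts [(H _ _ (g j).aV (g j).nV (hg j)).1, (H _ _ (g j).aW (g j).nW (hg j)).1]

theorem PF.fin {ι J : Type} [Fintype J] {F : Fm ι} {n e : ℕ} {Θ : J → St → X → ℝ}
    (h : ∀ j, PF F n e (Θ j)) : ∃ N, ∀ i j, Pr (F.C i) N n e (Θ j (F.A i)) (Θ j (F.B i)) := by
  choose N H using h
  exact ⟨∑ j, N j, fun i j => (H j i).mono
    (Finset.single_le_sum (fun _ _ => Nat.zero_le _) (Finset.mem_univ j))⟩

/-- The output of the nonlinear estimates. -/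
structure Es (N : ℕ) (i : Ix) : Prop where
  n1 : ∀ y ∈ i.C.U, (i.d.h y + i.V.1 y).det ≠ 0
  n2 : ∀ y ∈ i.C.U, (i.d.h y + i.W.1 y).det ≠ 0
  phi : Pr i.C N 2 0 (Phi (mk i.d i.V).1) (Phi (mk i.d i.W).1)
  xi : ∀ b, Pr i.C N 2 0 (Xi (mk i.d i.V).1 (mk i.d i.V).2 b) (Xi (mk i.d i.W).1 (mk i.d i.W).2 b)
  kk : ∀ a b, Pr i.C N 1 0 (en (mk i.d i.V).1.K a b) (en (mk i.d i.W).1.K a b)
  cf0 : ∀ a b m n, Bd i.C.R i.C.s (wl i.C.R 0 0) i.C.k (fun y => cf (i.d.h y) a b m n) (i.C.L ^ N)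
  cf1 : ∀ a b m n l, Bd i.C.R i.C.s (wl i.C.R 1 0) i.C.k (pd l fun y => cf (i.d.h y) a b m n)
    (i.C.L ^ N)
  cf2 : ∀ a b m n, Bd i.C.R i.C.s (wl i.C.R 0 0) i.C.k
    (fun y => cf (i.d.h y + i.V.1 y) a b m n) (i.C.L ^ N)
  bb : ∀ m l a b, Pr i.C N 2 0 (fun y => BB (dm m (mk i.d i.V).1.h y) (dm l (mk i.d i.V).1.h y) a b)
    (fun y => BB (dm m (mk i.d i.W).1.h y) (dm l (mk i.d i.W).1.h y) a b)

theorem est : ∃ N, ∀ i : Ix, i.Small N → Es N i := by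
  obtain ⟨N0, H0⟩ := bi1
  have hi := H0 (Subtype.val : {i : Ix // i.Small N0} → Ix) fun i => i.2
  have hh : BH (F1.comap (Subtype.val : {i : Ix // i.Small N0} → Ix)) := fun a b =>
    (bh1 a b).comap _
  have hk : BK (F1.comap (Subtype.val : {i : Ix // i.Small N0} → Ix)) := fun a b =>
    (bk1 a b).comap _
  have hp : BP (F1.comap (Subtype.val : {i : Ix // i.Small N0} → Ix)) := fun a b =>
    (bp1 a b).comap _
  obtain ⟨N1, H1⟩ := hh.phi hi hk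
  obtain ⟨N2, H2⟩ := PF.fin (hh.xi hi hk hp)
  obtain ⟨N3, H3⟩ := PF.fin fun j : Fin 3 × Fin 3 => hk j.1 j.2
  obtain ⟨N4, H4⟩ := PF.fin fun j : Fin 3 × Fin 3 × Fin 3 × Fin 3 =>
    (bh0.cf bi0 j.1 j.2.1 j.2.2.1 j.2.2.2).1
  obtain ⟨N5, H5⟩ := PF.fin fun j : (Fin 3 × Fin 3 × Fin 3 × Fin 3) × Fin 3 =>
    (bh0.cf bi0 j.1.1 j.1.2.1 j.1.2.2.1 j.1.2.2.2).2 j.2
  obtain ⟨N6, H6⟩ := PF.fin fun j : Fin 3 × Fin 3 × Fin 3 × Fin 3 =>
    (hh.cf hi j.1 j.2.1 j.2.2.1 j.2.2.2).1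
  obtain ⟨N7, H7⟩ := PF.fin fun j : Fin 3 × Fin 3 × Fin 3 × Fin 3 =>
    hh.bb j.1 j.2.1 j.2.2.1 j.2.2.2
  refine ⟨N0 + N1 + N2 + N3 + N4 + N5 + N6 + N7, fun i hs => ?_⟩
  have h0 : i.Small N0 := hs.mono (by omega)
  exact ⟨hi.2 ⟨i, h0⟩ _ (Or.inl rfl), hi.2 ⟨i, h0⟩ _ (Or.inr rfl), (H1 ⟨i, h0⟩).mono (by omega),
    fun b => (H2 ⟨i, h0⟩ b).mono (by omega), fun a b => (H3 ⟨i, h0⟩ (a, b)).mono (by omega),
    fun a b m n => ((H4 i (a, b, m, n)).mono (by omega)).b0,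
    fun a b m n l => ((H5 i ((a, b, m, n), l)).mono (by omega)).b0,
    fun a b m n => ((H6 ⟨i, h0⟩ (a, b, m, n)).mono (by omega)).b0,
    fun m l a b => (H7 ⟨i, h0⟩ (m, l, a, b)).mono (by omega)⟩

end Vale.Agent.P354XC
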