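import Vale.Agent.P354XC.RayE
import Vale.Agent.P354XC.Alg

/-! Block C: bounds for polynomial expressions at two states and for their differences. -/

open scoped ContDiff
open Set Filter Topology Matrix

noncomputable section

namespace Vale.Agent.P354XC

open Vale.Agent.P354I (X Dat ee pd)

/-- The numerical context. -/
structure Cx where
  R : ℝ
  U : Set X
  s : ℝ × ℝ
  k : ℕ
  κ : ℝ
  c : ℝ
  L : ℝ
  M : ℝ
  D : Dm R U
  hc : 0 ≤ c
  hL : 2 ≤ L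
  hM : 1 ≤ M

def wl (R : ℝ) (n e : ℕ) (t : ℝ) : ℝ := (R / t ^ 2) ^ n * (1 / t) ^ e
def wd (κ R : ℝ) (n e : ℕ) (t : ℝ) : ℝ := om κ R t / R * wl R n e t

theorem pw_wl {R : ℝ} (hR : 0 < R) (n e : ℕ) : Pw R (wl R n e) := fun t ht => by
  have := hR.trans_le ht; unfold wl; positivity

theorem pw_wd {κ R : ℝ} (hR : 0 < R) (n e : ℕ) : Pw R (wd κ R n e) := fun t ht => by
  have := pw_wl hR n e t ht; have := om_pos κ R t; unfold wd; positivity

structure Pr (C : Cx) (N n e : ℕ) (f f' : X → ℝ) : Prop where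
  s1 : Sm C.U f
  s2 : Sm C.U f'
  b1 : Bd C.R C.s (wl C.R n e) C.k f (C.L ^ N * C.M ^ e)
  b2 : Bd C.R C.s (wl C.R n e) C.k f' (C.L ^ N * C.M ^ e)
  df : Bd C.R C.s (wd C.κ C.R n e) C.k (fun y => f y - f' y) (C.c * (C.L ^ N * C.M ^ e))

variable {C : Cx} {N N' n n' e e' : ℕ} {f f' g g' : X → ℝ}

theorem Cx.pw (C : Cx) (N e : ℕ) : 0 ≤ C.L ^ N * C.M ^ e := by
  have := C.hL; have := C.hM; positivity

theorem Cx.two (C : Cx) (N e : ℕ) : C.L ^ N * C.M ^ e + C.L ^ N * C.M ^ e ≤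
    C.L ^ (N + 1) * C.M ^ e := by
  have := mul_le_mul_of_nonneg_right C.hL (C.pw N e)
  rw [pow_succ]; linarith

theorem Pr.mono (h : Pr C N n e f f') (hN : N ≤ N') : Pr C N' n e f f' := by
  have h1 : C.L ^ N * C.M ^ e ≤ C.L ^ N' * C.M ^ e := by
    have := C.hM
    exact mul_le_mul_of_nonneg_right (pow_le_pow_right₀ (by linarith [C.hL]) hN) (by positivity)
  exact ⟨h.s1, h.s2, h.b1.le (pw_wl C.D.pos _ _) h1, h.b2.le (pw_wl C.D.pos _ _) h1,
    h.df.le (pw_wd C.D.pos _ _) (mul_le_mul_of_nonneg_left h1 C.hc)⟩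

theorem Pr.congr (h : Pr C N n e f f') (e1 : EqOn f g C.U) (e2 : EqOn f' g' C.U) :
    Pr C N n e g g' :=
  ⟨h.s1.congr e1.symm, h.s2.congr e2.symm, h.b1.congr C.D e1, h.b2.congr C.D e2,
    h.df.congr C.D fun y hy => by simp only [e1 hy, e2 hy]⟩

theorem Pr.add (h : Pr C N n e f f') (h' : Pr C N n e g g') :
    Pr C (N + 1) n e (fun y => f y + g y) (fun y => f' y + g' y) :=
  ⟨h.s1.add h'.s1, h.s2.add h'.s2,
    (h.b1.add C.D h.s1 h'.s1 h'.b1).le (pw_wl C.D.pos _ _) (C.two N e),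
    (h.b2.add C.D h.s2 h'.s2 h'.b2).le (pw_wl C.D.pos _ _) (C.two N e),
    ((h.df.add C.D (h.s1.sub h.s2) (h'.s1.sub h'.s2) h'.df).congr C.D fun y _ => by ring).le
      (pw_wd C.D.pos _ _) (by
        rw [← mul_add]; exact mul_le_mul_of_nonneg_left (C.two N e) C.hc)⟩

theorem Pr.cmul {a : ℝ} (ha : |a| ≤ 1) (h : Pr C N n e f f') :
    Pr C N n e (fun y => a * f y) (fun y => a * f' y) :=
  ⟨contDiffOn_const.mul h.s1, contDiffOn_const.mul h.s2,
    (h.b1.cmul a).le (pw_wl C.D.pos _ _) (mul_le_of_le_one_left (C.pw N e) ha),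
    (h.b2.cmul a).le (pw_wl C.D.pos _ _) (mul_le_of_le_one_left (C.pw N e) ha),
    ((h.df.cmul a).congr C.D fun y _ => by ring).le (pw_wd C.D.pos _ _)
      (mul_le_of_le_one_left (mul_nonneg C.hc (C.pw N e)) ha)⟩

theorem Pr.zero : Pr C N n e (fun _ => 0) (fun _ => 0) :=
  ⟨contDiffOn_const, contDiffOn_const, (Bd.zero _).le (pw_wl C.D.pos _ _) (C.pw N e),
    (Bd.zero _).le (pw_wl C.D.pos _ _) (C.pw N e), by
      simpa using (Bd.zero _).le (pw_wd C.D.pos _ _) (mul_nonneg C.hc (C.pw N e))⟩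

theorem wl_mul (R t : ℝ) : wl R n e t * wl R n' e' t = wl R (n + n') (e + e') t := by
  unfold wl; ring

theorem Pr.mul (h : Pr C N n e f f') (h' : Pr C N' n' e' g g') :
    Pr C (N + N' + 1) (n + n') (e + e') (fun y => f y * g y) (fun y => f' y * g' y) := by
  have h1 : C.L ^ N * C.M ^ e * (C.L ^ N' * C.M ^ e') = C.L ^ (N + N') * C.M ^ (e + e') := by ring
  have h2 := C.two (N + N') (e + e')
  have h3 := C.pw (N + N') (e + e')
  refine ⟨h.s1.mul h'.s1, h.s2.mul h'.s2,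
    ((h.b1.mul C.D h.s1 h'.s1 h'.b1).wt1 fun t _ => (wl_mul _ t).le).le (pw_wl C.D.pos _ _)
      (by linarith),
    ((h.b2.mul C.D h.s2 h'.s2 h'.b2).wt1 fun t _ => (wl_mul _ t).le).le (pw_wl C.D.pos _ _)
      (by linarith), ?_⟩
  have h4 := (h.df.mul C.D (h.s1.sub h.s2) h'.s1 h'.b1).wt1 (W' := wd C.κ C.R (n + n') (e + e'))
    fun t _ => le_of_eq (by simp only [wd, ← wl_mul]; ring)
  have h5 := (h.b2.mul C.D h.s2 (h'.s1.sub h'.s2) h'.df).wt1 (W' := wd C.κ C.R (n + n') (e + e'))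
    fun t _ => le_of_eq (by simp only [wd, ← wl_mul]; ring)
  refine ((h4.add C.D ((h.s1.sub h.s2).mul h'.s1) (h.s2.mul (h'.s1.sub h'.s2)) h5).congr C.D
    fun y _ => by ring).le (pw_wd C.D.pos _ _) ?_
  have := mul_le_mul_of_nonneg_left h2 C.hc
  rw [← h1] at this
  linarith

theorem wl_weak {R t : ℝ} (hR : 0 < R) (ht : R ≤ t) : wl R (n + 1) e t ≤ wl R n (e + 1) t := by
  have h0 := hR.trans_le ht
  have : R / t ^ 2 ≤ 1 / t := by
    rw [div_le_div_iff₀ (by positivity) h0]; nlinarith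
  have h2 := mul_le_mul_of_nonneg_left this (pw_wl hR n e t ht)
  unfold wl at *
  rw [pow_succ, pow_succ (1 / t)]; linarith

theorem Pr.weak (h : Pr C N (n + 1) e f f') : Pr C N n (e + 1) f f' := by
  have h1 : C.L ^ N * C.M ^ e ≤ C.L ^ N * C.M ^ (e + 1) := by
    have := C.hL
    exact mul_le_mul_of_nonneg_left (pow_le_pow_right₀ C.hM (Nat.le_succ e)) (by positivity)
  exact ⟨h.s1, h.s2, (h.b1.wt1 fun t ht => wl_weak C.D.pos ht).le (pw_wl C.D.pos _ _) h1,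
    (h.b2.wt1 fun t ht => wl_weak C.D.pos ht).le (pw_wl C.D.pos _ _) h1,
    (h.df.wt1 fun t ht => mul_le_mul_of_nonneg_left (wl_weak C.D.pos ht)
      (div_nonneg (om_pos _ _ _).le C.D.pos.le)).le (pw_wd C.D.pos _ _)
      (mul_le_mul_of_nonneg_left h1 C.hc)⟩

/-! ### Families -/

abbrev St : Type := Dat × (X → M3)

structure Fm (ι : Type) where
  C : ι → Cx
  A : ι → St
  B : ι → St

def PF {ι : Type} (F : Fm ι) (n e : ℕ) (Φ : St → X → ℝ) : Prop :=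
  ∃ N, ∀ i, Pr (F.C i) N n e (Φ (F.A i)) (Φ (F.B i))

variable {ι : Type} {F : Fm ι} {Φ Ψ : St → X → ℝ}

theorem PF.add (h : PF F n e Φ) (h' : PF F n e Ψ) : PF F n e fun a y => Φ a y + Ψ a y := by
  obtain ⟨N, h⟩ := h
  obtain ⟨N', h'⟩ := h'
  exact ⟨max N N' + 1, fun i => ((h i).mono (le_max_left _ _)).add ((h' i).mono (le_max_right _ _))⟩

theorem PF.cmul {b : ℝ} (hb : |b| ≤ 1) (h : PF F n e Φ) : PF F n e fun a y => b * Φ a y :=
  h.imp fun _ h i => (h i).cmul hb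

theorem PF.neg (h : PF F n e Φ) : PF F n e fun a y => -Φ a y := by
  simpa using h.cmul (b := -1) (by simp)

theorem PF.sub (h : PF F n e Φ) (h' : PF F n e Ψ) : PF F n e fun a y => Φ a y - Ψ a y := by
  simpa [sub_eq_add_neg] using h.add h'.neg

theorem PF.half (h : PF F n e Φ) : PF F n e fun a y => Φ a y / 2 := by
  simpa [div_eq_inv_mul] using h.cmul (b := 2⁻¹) (by rw [abs_of_pos] <;> norm_num)

theorem PF.mul (h : PF F n e Φ) (h' : PF F n' e' Ψ) :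
    PF F (n + n') (e + e') fun a y => Φ a y * Ψ a y := by
  obtain ⟨N, h⟩ := h
  obtain ⟨N', h'⟩ := h'
  exact ⟨_, fun i => (h i).mul (h' i)⟩

theorem PF.sum {Θ : Fin 3 → St → X → ℝ} (h : ∀ j, PF F n e (Θ j)) :
    PF F n e fun a y => ∑ j, Θ j a y := by
  simpa only [Fin.sum_univ_three] using ((h 0).add (h 1)).add (h 2)

theorem PF.weak (h : PF F (n + 1) e Φ) : PF F n (e + 1) Φ := h.imp fun _ h i => (h i).weak

theorem PF.congr (h : PF F n e Φ) (e1 : ∀ i, ∀ a, a = F.A i ∨ a = F.B i →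
    EqOn (Φ a) (Ψ a) (F.C i).U) : PF F n e Ψ :=
  h.imp fun _ h i => (h i).congr (e1 i _ (Or.inl rfl)) (e1 i _ (Or.inr rfl))

theorem PF.sm (h : PF F n e Φ) (i : ι) (a : St) (ha : a = F.A i ∨ a = F.B i) :
    Sm (F.C i).U (Φ a) := by
  obtain ⟨N, h⟩ := h
  rcases ha with rfl | rfl
  exacts [(h i).s1, (h i).s2]

/-- Bounds for an expression and for its first derivatives. -/
def PD (F : Fm ι) (n e : ℕ) (Φ : St → X → ℝ) : Prop :=
  PF F n 0 Φ ∧ ∀ l, PF F 1 e fun a => pd l (Φ a)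

theorem PD.add (h : PD F n e Φ) (h' : PD F n e Ψ) : PD F n e fun a y => Φ a y + Ψ a y :=
  ⟨h.1.add h'.1, fun l => ((h.2 l).add (h'.2 l)).congr fun i a ha _ hy =>
    (fd_add (F.C i).D.op (h.1.sm i a ha) (h'.1.sm i a ha) hy _).symm⟩

theorem PD.sub (h : PD F n e Φ) (h' : PD F n e Ψ) : PD F n e fun a y => Φ a y - Ψ a y :=
  ⟨h.1.sub h'.1, fun l => ((h.2 l).sub (h'.2 l)).congr fun i a ha _ hy =>
    (fd_sub (F.C i).D.op (h.1.sm i a ha) (h'.1.sm i a ha) hy _).symm⟩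

theorem PD.cmul {b : ℝ} (hb : |b| ≤ 1) (h : PD F n e Φ) : PD F n e fun a y => b * Φ a y :=
  ⟨h.1.cmul hb, fun l => ((h.2 l).cmul hb).congr fun _ _ _ _ _ => (fd_cmul _ _ _ _).symm⟩

theorem PD.sum {Θ : Fin 3 → St → X → ℝ} (h : ∀ j, PD F n e (Θ j)) :
    PD F n e fun a y => ∑ j, Θ j a y := by
  simpa only [Fin.sum_univ_three] using ((h 0).add (h 1)).add (h 2)

theorem PD.mul (h : PD F 0 0 Φ) (h' : PD F 0 0 Ψ) : PD F 0 0 fun a y => Φ a y * Ψ a y :=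
  ⟨h.1.mul h'.1, fun l => (((h.2 l).mul h'.1).add (h.1.mul (h'.2 l))).congr fun i a ha _ hy =>
    (fd_mul (F.C i).D.op (h.1.sm i a ha) (h'.1.sm i a ha) hy _).symm⟩

theorem PD.mul1 (h : PD F 0 0 Φ) (h' : PD F 1 1 Ψ) : PD F 1 1 fun a y => Φ a y * Ψ a y :=
  ⟨h.1.mul h'.1, fun l => ((PF.weak (n := 1) ((h.2 l).mul h'.1)).add (h.1.mul (h'.2 l))).congr
    fun i a ha _ hy => (fd_mul (F.C i).D.op (h.1.sm i a ha) (h'.1.sm i a ha) hy _).symm⟩

theorem ab2 : |(1 / 2 : ℝ)| ≤ 1 := by rw [abs_of_pos] <;> norm_num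

/-- The base hypotheses. -/
def BH (F : Fm ι) : Prop := ∀ i j, PD F 0 0 fun a y => a.1.h y i j
def BI (F : Fm ι) : Prop := PF F 0 0 (fun a y => (a.1.h y).det⁻¹) ∧
  ∀ i a, a = F.A i ∨ a = F.B i → ∀ y ∈ (F.C i).U, (a.1.h y).det ≠ 0
def BK (F : Fm ι) : Prop := ∀ i j, PF F 1 0 fun a y => a.1.K y i j
def BP (F : Fm ι) : Prop := ∀ i j, PF F 1 0 fun a y => a.2 y i j

theorem BH.adj (h : BH F) (i j : Fin 3) : PD F 0 0 fun a y => (a.1.h y).adjugate i j := by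
  simp only [adj_eq]
  exact ((h _ _).mul (h _ _)).sub ((h _ _).mul (h _ _))

theorem BH.det (h : BH F) : PD F 0 0 fun a y => (a.1.h y).det := by
  simp only [det_eq]
  exact PD.sum fun j => (h _ _).mul (h.adj _ _)

theorem BH.di (h : BH F) (hi : BI F) : PD F 0 0 fun a y => (a.1.h y).det⁻¹ :=
  ⟨hi.1, fun l => ((h.det.2 l).mul (hi.1.mul hi.1)).neg.congr fun i a ha y hy =>
    (fd_inv (F.C i).D.op (h.det.1.sm i a ha) hy (hi.2 i a ha y hy) _).symm⟩

theorem BH.gi (h : BH F) (hi : BI F) (i j : Fin 3) : PD F 0 0 fun a y => (a.1.h y)⁻¹ i j := by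
  simp only [inv_eq]
  exact (h.di hi).mul (h.adj i j)

theorem BH.cf (h : BH F) (hi : BI F) (i j m n : Fin 3) :
    PD F 0 0 fun a y => cf (a.1.h y) i j m n :=
  (h.di hi).mul ((((h _ _).mul (h _ _)).cmul ab2).sub ((h _ _).mul (h _ _)))

theorem BH.kc (h : BH F) (i j m n : Fin 3) : PD F 0 0 fun a y =>
    a.1.h y i m * a.1.h y n j - 1 / 2 * (a.1.h y n m * a.1.h y i j) :=
  ((h _ _).mul (h _ _)).sub (((h _ _).mul (h _ _)).cmul ab2)

theorem BH.pc (h : BH F) (hi : BI F) (i j m n : Fin 3) : PD F 0 0 fun a y =>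
    (a.1.h y)⁻¹ i m * (a.1.h y)⁻¹ n j - (a.1.h y)⁻¹ n m * (a.1.h y)⁻¹ i j :=
  ((h.gi hi _ _).mul (h.gi hi _ _)).sub ((h.gi hi _ _).mul (h.gi hi _ _))

theorem BH.kof (h : BH F) (hp : BP F) (i j : Fin 3) :
    PF F 1 0 fun a y => Kof (a.1.h y) (a.2 y) i j :=
  PF.sum fun m => PF.sum fun n => (h.kc i j m n).1.mul (hp m n)

theorem BH.pof (h : BH F) (hi : BI F) (hk : BK F) (i j : Fin 3) :
    PF F 1 0 fun a y => Pof (a.1.h y) (a.1.K y) i j :=
  PF.sum fun m => PF.sum fun n => (h.pc hi i j m n).1.mul (hk m n)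

theorem BH.kof1 (h : BH F) (hp : ∀ i j, PD F 1 1 fun a y => a.2 y i j) (i j : Fin 3) :
    PD F 1 1 fun a y => Kof (a.1.h y) (a.2 y) i j :=
  PD.sum fun m => PD.sum fun n => (h.kc i j m n).mul1 (hp m n)

theorem BH.pof1 (h : BH F) (hi : BI F) (hk : ∀ i j, PD F 1 1 fun a y => a.1.K y i j)
    (i j : Fin 3) : PD F 1 1 fun a y => Pof (a.1.h y) (a.1.K y) i j :=
  PD.sum fun m => PD.sum fun n => (h.pc hi i j m n).mul1 (hk m n)

theorem BH.chr (h : BH F) (hi : BI F) (k i j : Fin 3) : PF F 1 0 fun a => a.1.chr k i j :=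
  PF.sum fun l => ((h.gi hi k l).1.mul ((((h j l).2 i).add ((h i l).2 j)).sub ((h i j).2 l))).half

theorem BH.bb (h : BH F) (m l i j : Fin 3) :
    PF F 2 0 fun a y => BB (dm m a.1.h y) (dm l a.1.h y) i j :=
  ((((h _ _).2 m).mul ((h _ _).2 l)).add (((h _ _).2 l).mul ((h _ _).2 m))).sub
    ((((h _ _).2 m).mul ((h _ _).2 l)).add (((h _ _).2 l).mul ((h _ _).2 m)))

theorem BH.phi (h : BH F) (hi : BI F) (hk : BK F) : PF F 2 0 fun a => Phi a.1 := by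
  have g := h.gi hi
  have c := h.chr hi
  have v : ∀ k, PF F 1 0 fun a => VV a.1 k := fun k =>
    (PF.sum fun i => PF.sum fun j => (g i j).1.mul (c k i j)).sub
      (PF.sum fun i => PF.sum fun m => (g i k).1.mul (c m m i))
  have q : PF F 2 0 fun a => QQ a.1 := PF.sum fun k => PF.sum fun i => PF.sum fun j =>
    ((((g i k).2 k).mul (c j j i)).sub (((g i j).2 k).mul (c k i j))).add
      ((g i j).1.mul (PF.sum fun l => ((c k k l).mul (c l i j)).sub ((c k j l).mul (c l k i))))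
  have t : PF F 1 0 fun a => a.1.trK := PF.sum fun i => PF.sum fun j => (g i j).1.mul (hk i j)
  have s : PF F 2 0 fun a => a.1.sqK := PF.sum fun i => PF.sum fun j => PF.sum fun k =>
    PF.sum fun l => (((g i k).1.mul (g j l).1).mul (hk i j)).mul (hk k l)
  exact (h.det.1.mul ((q.add (t.mul t)).sub s)).sub (PF.sum fun k => (h.det.2 k).mul (v k))

theorem BH.xi (h : BH F) (hi : BI F) (hk : BK F) (hp : BP F) (b : Fin 3) :
    PF F 2 0 fun a => Xi a.1 a.2 b := by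
  have g := h.gi hi
  have c := h.chr hi
  exact PF.sum fun j => (g b j).1.mul (PF.sum fun i => PF.sum fun k =>
    (((hp i k).mul ((h k j).2 i)).sub (((g i k).2 i).mul (hk k j))).sub
      ((g i k).1.mul (PF.sum fun l => ((c l i k).mul (hk l j)).add ((c l i j).mul (hk k l)))))

end Vale.Agent.P354XC
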