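import Vale.Agent.P354XC.Ctr

/-! Block C: the iteration and its limit. -/

open scoped ContDiff
open Set Filter Topology Matrix

noncomputable section

namespace Vale.Agent.P354XC

open Vale.Agent.P354I (X Dat ee pd)

variable {R κ L c c' δ A : ℝ} {U S : Set X} {s : ℝ × ℝ} {k N N0 : ℕ} {d : Dat} {V W : V2}
  {m : ℕ → ℝ}

theorem Adm.sub (hV : Adm S V) (hW : Adm S W) : Adm S (V - W) :=
  ⟨fun i j => (hV.c1 i j).sub (hW.c1 i j), fun i j => (hV.c2 i j).sub (hW.c2 i j),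
    fun y hy => by simp [hV.v1 y hy, hW.v1 y hy], fun y hy => by simp [hV.v2 y hy, hW.v2 y hy],
    fun y => (hV.s1 y).sub (hW.s1 y), fun y => (hV.s2 y).sub (hW.s2 y)⟩

theorem Nm.add (hR : 0 < R) (hV : Adm S V) (hW : Adm S W) (h : Nm R s k κ V c)
    (h' : Nm R s k κ W c') : Nm R s k κ (V + W) (c + c') := fun i j => by
  have h1 := (h.qc (U := univ) hV.c1 i j).add (dm_univ hR) (h'.qc hW.c1 i j)
  exact ⟨h1.2.1, h1.2.2, (h i j).2.2.add (dm_univ hR) (hV.c2 i j).contDiffOn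
    (hW.c2 i j).contDiffOn (h' i j).2.2⟩

theorem Nm.le (hR : 0 < R) (h : Nm R s k κ V c) (hc : c ≤ c') : Nm R s k κ V c' := fun i j =>
  ⟨(h i j).1.le (pw_wT hR) hc, fun l => ((h i j).2.1 l).le (pw_wT hR) hc,
    (h i j).2.2.le (pw_wT hR) hc⟩

/-! ### Series of states -/

def TS (D : ℕ → V2) : V2 :=
  (fun y => Matrix.of fun i j => ∑' n, (D n).1 y i j,
    fun y => Matrix.of fun i j => ∑' n, (D n).2 y i j)

def SV (R : ℝ) (S : Set X) (D : ℕ → V2) : Prop :=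
  (∀ n, Adm S (D n)) ∧ ∀ k, ∃ μ > 0, ∃ κ, 0 ≤ κ ∧ ∃ c : ℕ → ℝ, Summable c ∧
    ∀ n, Nm R (μ, μ) k κ (D n) (c n)

variable {D : ℕ → V2}

theorem SV.ss1 (hR : 0 < R) (hS : S ⊆ Gam R) (h : SV R S D) (i j : Fin 3) :
    SS R fun n => en (D n).1 i j := by
  refine ⟨fun n => ⟨(h.1 n).c1 i j, fun y hy => by
    simp [en, (h.1 n).v1 y fun h1 => hy (hS h1)]⟩, fun k => ?_⟩
  obtain ⟨μ, hμ, κ, hκ, c, hc, H⟩ := h.2 k
  exact ⟨μ, hμ, _, hc.mul_left _, fun n => wl00 ▸ ((H n i j).1.t1d hR).dl hR hκ⟩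

theorem SV.ss2 (hR : 0 < R) (hS : S ⊆ Gam R) (h : SV R S D) (i j : Fin 3) :
    SS R fun n => en (D n).2 i j := by
  refine ⟨fun n => ⟨(h.1 n).c2 i j, fun y hy => by
    simp [en, (h.1 n).v2 y fun h1 => hy (hS h1)]⟩, fun k => ?_⟩
  obtain ⟨μ, hμ, κ, hκ, c, hc, H⟩ := h.2 k
  refine ⟨μ, hμ, _, (hc.mul_left (Real.exp κ / R)).mul_left (1 / R), fun n =>
    (Bd.dl hR hκ (wd10 hR ▸ (H n i j).2.2)).wt (by positivity) fun t ht => ?_⟩
  have h0 := hR.trans_le ht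
  simp only [wl10, mul_one]
  rw [div_le_div_iff₀ (by positivity) hR]; nlinarith

theorem SV.adm (hR : 0 < R) (hS : S ⊆ Gam R) (h : SV R S D) : Adm S (TS D) :=
  ⟨fun i j => (h.ss1 hR hS i j).cd hR, fun i j => (h.ss2 hR hS i j).cd hR,
    fun y hy => by ext i j; simp [TS, fun n => (h.1 n).v1 y hy],
    fun y hy => by ext i j; simp [TS, fun n => (h.1 n).v2 y hy],
    fun y => IsSymm.ext fun i j => by simp only [TS, of_apply, fun n => sy ((h.1 n).s1 y) i j],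
    fun y => IsSymm.ext fun i j => by simp only [TS, of_apply, fun n => sy ((h.1 n).s2 y) i j]⟩

theorem SV.nm (hR : 0 < R) (hS : S ⊆ Gam R) (h : SV R S D) {c : ℕ → ℝ} (hc : Summable c)
    (H : ∀ n, Nm R s k κ (D n) (c n)) : Nm R s k κ (TS D) (∑' n, c n) := fun i j =>
  ⟨(h.ss1 hR hS i j).bd hR hc fun n => (H n i j).1, fun l => by
    rw [show pd l (en (TS D).1 i j) = _ from (h.ss1 hR hS i j).pd_tsum hR l]
    exact ((h.ss1 hR hS i j).pd hR l).bd hR hc fun n => (H n i j).2.1 l,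
    (h.ss2 hR hS i j).bd hR hc fun n => (H n i j).2.2⟩

theorem SV.shift (h : SV R S D) (n : ℕ) : SV R S fun j => D (j + n) :=
  ⟨fun _ => h.1 _, fun k => by
    obtain ⟨μ, hμ, κ, hκ, c, hc, H⟩ := h.2 k
    exact ⟨μ, hμ, κ, hκ, fun j => c (j + n), (summable_nat_add_iff n).2 hc, fun j => H _⟩⟩

theorem SV.tail (hR : 0 < R) (hS : S ⊆ Gam R) {P : ℕ → V2} (h0 : P 0 = 0)
    (h : SV R S fun n => P (n + 1) - P n) (n : ℕ) :
    TS (fun n => P (n + 1) - P n) - P n = TS fun j => P (j + n + 1) - P (j + n) := by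
  refine Prod.ext (funext fun y => ?_) (funext fun y => ?_) <;> ext i j
  · have h1 := ((h.ss1 hR hS i j).summable y).sum_add_tsum_nat_add n
    have h2 := Finset.sum_range_sub (fun n => (P n).1 y i j) n
    simp only [TS, en, Prod.fst_sub, Pi.sub_apply, Matrix.sub_apply, of_apply, h0, Prod.fst_zero,
      Pi.zero_apply, Matrix.zero_apply] at h1 h2 ⊢
    linarith
  · have h1 := ((h.ss2 hR hS i j).summable y).sum_add_tsum_nat_add n
    have h2 := Finset.sum_range_sub (fun n => (P n).2 y i j) n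
    simp only [TS, en, Prod.snd_sub, Pi.sub_apply, Matrix.sub_apply, of_apply, h0, Prod.snd_zero,
      Pi.zero_apply, Matrix.zero_apply] at h1 h2 ⊢
    linarith

/-! ### The iteration -/

/-- The universal constants. -/
structure Uc (A : ℝ) (m : ℕ → ℝ) (N N0 : ℕ) : Prop where
  K : KB A m
  E : ∀ i : Ix, i.Small N → Es N i
  big : ∀ L : ℝ, 2 ≤ L → 576 * A * (L ^ N * L ^ N) ≤ L ^ N0

theorem ex_Uc : ∃ A m N N0, Uc A m N N0 := by
  obtain ⟨A, m, K⟩ := ex_KB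
  obtain ⟨N, E⟩ := est
  obtain ⟨n, hn⟩ := pow_unbounded_of_one_lt (576 * A) (one_lt_two (α := ℝ))
  refine ⟨A, m, N, n + (N + N), K, E, fun L hL => ?_⟩
  rw [pow_add, pow_add]
  exact mul_le_mul_of_nonneg_right (hn.le.trans (pow_le_pow_left₀ zero_le_two hL n))
    (by positivity)

/-- The quantitative hypotheses at a scale. -/
structure Sc (m : ℕ → ℝ) (N0 : ℕ) (R : ℝ) (s : ℝ × ℝ) (k : ℕ) (L δ : ℝ) (d : Dat) : Prop where
  hL : 2 ≤ L
  h1 : s.1 ∈ Icc 0 (m k)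
  h2 : s.2 ∈ Icc 0 (m k)
  hb : HB R s k L d
  eh : Bd R s (fun t => R / t ^ 4) k (EH d) δ
  em : ∀ b, Bd R s (fun t => R / t ^ 4) k (EM d b) δ
  sm : L ^ N0 * (2 * δ * Real.exp (L ^ N0)) ≤ R

theorem Sc.one (H : Sc m N0 R s k L δ d) (n : ℕ) : 1 ≤ L ^ n := one_le_pow₀ (by linarith [H.hL])

/-- The index of a pair of states. -/
def ix (B : Bg R U S d) (H : Sc m N0 R s k L δ d) {M : ℝ} (hM : 1 ≤ M) (aV : Adm S V)
    (aW : Adm S W) (nV : Nm R s k (L ^ N0) V (2 * δ)) (nW : Nm R s k (L ^ N0) W (2 * δ))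
    (nD : Nm R s k (L ^ N0) (V - W) c) : Ix where
  C := ⟨R, U, s, k, L ^ N0, c, L, M, B.D, (nD 0 0).1.nonneg, H.hL, hM⟩
  S := S
  d := d
  V := V
  W := W
  c0 := 2 * δ
  sub := B.cone.2.1
  reg := B.reg
  hκ := zero_le_one.trans (H.one N0)
  hb := H.hb
  aV := aV
  aW := aW
  nV := nV
  nW := nW
  nD := nD
  sm := le_trans (le_mul_of_one_le_left (by have := H.eh.nonneg; positivity) (H.one N0)) H.sm

theorem Uc.le (u : Uc A m N N0) (H : Sc m N0 R s k L δ d) : 576 * L ^ N ≤ L ^ N0 ∧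
    72 * A * (L ^ N * L ^ N) ≤ L ^ N0 := by
  have h1 := u.big L H.hL
  have h2 := H.one N
  have h3 := u.K.one
  have h4 : L ^ N ≤ L ^ N * L ^ N := le_mul_of_one_le_left (by linarith) h2
  constructor <;> nlinarith [mul_le_mul_of_nonneg_right h3 (show 0 ≤ L ^ N * L ^ N by linarith)]

theorem Uc.es (u : Uc A m N N0) (B : Bg R U S d) (H : Sc m N0 R s k L δ d) {M : ℝ} (hM : 1 ≤ M)
    (aV : Adm S V) (aW : Adm S W) (nV : Nm R s k (L ^ N0) V (2 * δ))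
    (nW : Nm R s k (L ^ N0) W (2 * δ)) (nD : Nm R s k (L ^ N0) (V - W) c) :
    Es N (ix B H hM aV aW nV nW nD) := u.E _ (by
  have h1 := (u.le H).1
  have h2 := H.one N
  have h3 : 0 ≤ 2 * δ * Real.exp (L ^ N0) := by have := H.eh.nonneg; positivity
  have h4 := mul_le_mul_of_nonneg_right (show L ^ N ≤ L ^ N0 by linarith) h3
  exact le_trans (by simpa only [ix, mul_comm] using h4) H.sm)

theorem Uc.ne (u : Uc A m N N0) (B : Bg R U S d) (H : Sc m N0 R s k L δ d) (aV : Adm S V)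
    (nV : Nm R s k (L ^ N0) V (2 * δ)) : ∀ y ∈ U, (d.h y + V.1 y).det ≠ 0 :=
  (u.es B H le_rfl aV aV nV nV (c := 0) (by rw [sub_self]; exact nm_zero B.D.pos le_rfl)).n1

theorem Uc.ctr (u : Uc A m N N0) (B : Bg R U S d) (H : Sc m N0 R s k L δ d) (aV : Adm S V)
    (aW : Adm S W) (nV : Nm R s k (L ^ N0) V (2 * δ)) (nW : Nm R s k (L ^ N0) W (2 * δ))
    (nD : Nm R s k (L ^ N0) (V - W) c) : Nm R s k (L ^ N0) (FF S d V - FF S d W) (c / 2) :=
  contr u.K (u.es B H le_rfl aV aW nV nW nD) B H.h1 H.h2 (u.le H).2 (le_trans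
    (mul_le_mul_of_nonneg_right (u.le H).1 (by
      have := H.eh.nonneg
      change 0 ≤ 2 * δ * Real.exp (L ^ N0)
      positivity)) H.sm)

theorem Bd.toS (hR : 0 < R) (hκ : 0 ≤ κ) {f : X → ℝ} (h : Bd R s (fun t => R / t ^ 4) k f c) :
    Bd R s (wS κ R) k f c := h.wt1 fun t ht =>
  le_mul_of_one_le_left (by have := hR.trans_le ht; positivity) (one_le_om hκ hR ht)

theorem Uc.first (u : Uc A m N N0) (B : Bg R U S d) (H : Sc m N0 R s k L δ d) :
    Nm R s k (L ^ N0) (FF S d 0) δ := by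
  have hR := B.D.pos
  have hδ := H.eh.nonneg
  have z := nm_zero (κ := L ^ N0) (s := s) (k := k) hR (show 0 ≤ 2 * δ by positivity)
  have E := u.es B H le_rfl (adm_zero S) (adm_zero S) z z (c := 0)
    (by rw [sub_self]; exact nm_zero B.D.pos le_rfl)
  obtain ⟨a1, a2⟩ := B.src (adm_zero S) E.n1
  have hS := B.cone.2.1
  have hκ : 0 < L ^ N0 := zero_lt_one.trans_le (H.one N0)
  have h3 := lin_est u.K B.D H.h1 H.h2 hκ (H.one N) E.lc a1.cd (a1.vs.vn hS) (fun b => (a2 b).cd)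
    (fun b => (a2 b).vs.vn hS)
    ((H.eh.toS hR hκ.le).congr B.D fun y hy => by simp [a1.eq hy, gH, mk_zero])
    (fun b => ((H.em b).toS hR hκ.le).neg.congr B.D fun y hy => by
      simp [(a2 b).eq hy, gM, mk_zero])
    (G := fun y => ((0 : V2).1 y).adjugate) (c' := 0) fun a b =>
      ((nm_zero hR le_rfl).qc (adm_zero S).c1 a b).congr B.D fun y _ => by simp [en]
  refine Nm.le hR h3 ?_
  have h4 := (div_le_one hκ).2 (u.le H).2
  have h5 := H.one N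
  have h6 : 0 ≤ 18 * L ^ N * (A * δ / L ^ N0) := by have := u.K.one; positivity
  have h7 : 18 * L ^ N * (A * δ / L ^ N0) * (4 * L ^ N) =
    δ * (72 * A * (L ^ N * L ^ N) / L ^ N0) := by ring
  nlinarith [mul_le_mul_of_nonneg_left h4 hδ]

def Pic (S : Set X) (d : Dat) (n : ℕ) : V2 := (FF S d)^[n] 0

theorem pic_succ (n : ℕ) : Pic S d (n + 1) = FF S d (Pic S d n) :=
  Function.iterate_succ_apply' _ _ _

theorem Uc.pic (u : Uc A m N N0) (B : Bg R U S d) (H : Sc m N0 R s k L δ d) : ∀ n : ℕ,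
    Adm S (Pic S d n) ∧ Nm R s k (L ^ N0) (Pic S d n) (2 * δ - 2 * (δ / 2 ^ n)) ∧
      Nm R s k (L ^ N0) (Pic S d (n + 1) - Pic S d n) (δ / 2 ^ n)
  | 0 => ⟨adm_zero S, nm_zero B.D.pos (by simp), by simpa [Pic] using u.first B H⟩
  | n + 1 => by
    obtain ⟨h1, h2, h3⟩ := u.pic B H n
    have hR := B.D.pos
    have hp : ∀ n : ℕ, 0 ≤ δ / 2 ^ n := fun n => by have := H.eh.nonneg; positivity
    have h4 := h2.le hR (show _ ≤ 2 * δ by linarith [hp n])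
    have h5 : Adm S (Pic S d (n + 1)) := pic_succ n ▸ B.adm h1 (u.ne B H h1 h4)
    have h6 := h2.add hR h1 (h5.sub h1) h3
    rw [add_sub_cancel] at h6
    have e : δ / 2 ^ (n + 1) = δ / 2 ^ n / 2 := by rw [pow_succ, div_div]
    refine ⟨h5, h6.le hR (by rw [e]; linarith), ?_⟩
    have h7 := u.ctr B H h5 h1 (h6.le hR (by linarith [hp n])) h4 h3
    rwa [← pic_succ, ← pic_succ, ← e] at h7

def Lim (S : Set X) (d : Dat) : V2 := TS fun n => Pic S d (n + 1) - Pic S d n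

theorem geo (δ : ℝ) (n : ℕ) : HasSum (fun j : ℕ => δ / 2 ^ (j + n)) (2 * (δ / 2 ^ n)) := by
  have := hasSum_geometric_two' (2 * (δ / 2 ^ n))
  have e : (fun j : ℕ => δ / 2 ^ (j + n)) = fun j : ℕ => 2 * (δ / 2 ^ n) / 2 / 2 ^ j :=
    funext fun j => by rw [pow_add]; field_simp
  rwa [e]

/-- At every order there is a positive scale. -/
def Ex (m : ℕ → ℝ) (N0 : ℕ) (R : ℝ) (d : Dat) : Prop := ∀ k, ∃ μ > 0, ∃ L δ, Sc m N0 R (μ, μ) k L δ d

theorem Uc.sv (u : Uc A m N N0) (B : Bg R U S d) (e : Ex m N0 R d) :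
    SV R S fun n => Pic S d (n + 1) - Pic S d n := by
  obtain ⟨μ, -, L, δ, H⟩ := e 0
  refine ⟨fun n => (u.pic B H _).1.sub (u.pic B H _).1, fun k => ?_⟩
  obtain ⟨μ, hμ, L, δ, H⟩ := e k
  exact ⟨μ, hμ, _, zero_le_one.trans (H.one N0), _, (geo δ 0).summable, fun n => (u.pic B H n).2.2⟩

theorem Uc.tail (u : Uc A m N N0) (B : Bg R U S d) (e : Ex m N0 R d) (H : Sc m N0 R s k L δ d)
    (n : ℕ) : Nm R s k (L ^ N0) (Lim S d - Pic S d n) (2 * (δ / 2 ^ n)) := by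
  rw [Lim, (u.sv B e).tail B.D.pos B.cone.2.1 rfl n, ← (geo δ n).tsum_eq]
  exact ((u.sv B e).shift n).nm B.D.pos B.cone.2.1 (geo δ n).summable fun j => (u.pic B H _).2.2

theorem Uc.lim (u : Uc A m N N0) (B : Bg R U S d) (e : Ex m N0 R d) (H : Sc m N0 R s k L δ d) :
    Adm S (Lim S d) ∧ Nm R s k (L ^ N0) (Lim S d) (2 * δ) :=
  ⟨(u.sv B e).adm B.D.pos B.cone.2.1, by simpa [Pic] using u.tail B e H 0⟩

theorem eq_of_geo {a b w : ℝ} {p : ℕ → ℝ} (h1 : ∀ n, |a - p n| ≤ 2 * (δ / 2 ^ n) / 2 * w)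
    (h2 : ∀ n, |b - p n| ≤ 2 * (δ / 2 ^ (n + 1)) * w) : a = b := by
  have h3 : Tendsto (fun n : ℕ => δ / 2 ^ (n + 0) * (2 * w)) atTop (𝓝 0) := by
    simpa using (geo δ 0).summable.tendsto_atTop_zero.mul_const (2 * w)
  refine sub_eq_zero.1 (abs_nonpos_iff.1 (ge_of_tendsto' h3 fun n => ?_))
  have h4 := abs_sub_le a (p n) b
  have h5 := h2 n
  rw [abs_sub_comm, pow_succ, ← div_div] at h5
  have h6 := h1 n
  rw [add_zero]
  linarith

theorem Uc.fix (u : Uc A m N N0) (B : Bg R U S d) (e : Ex m N0 R d) :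
    FF S d (Lim S d) = Lim S d := by
  obtain ⟨μ, -, L, δ, H⟩ := e 0
  have hR := B.D.pos
  obtain ⟨a, b⟩ := u.lim B e H
  have a' := B.adm a (u.ne B H a b)
  have h1 := fun n => u.ctr B H a (u.pic B H n).1 b ((u.pic B H n).2.1.le hR
    (by have := H.eh.nonneg; have : 0 ≤ δ / 2 ^ n := by positivity
        linarith)) (u.tail B e H n)
  have h2 := fun n => u.tail B e H (n + 1)
  simp only [pic_succ] at h2
  refine Prod.ext (funext fun y => ?_) (funext fun y => ?_)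
  · by_cases hy : y ∈ S
    · ext i j
      exact eq_of_geo (fun n => (h1 n i j).1.2 y (B.cone.2.1 hy))
        fun n => (h2 n i j).1.2 y (B.cone.2.1 hy)
    · rw [a.v1 y hy, a'.v1 y hy]
  · by_cases hy : y ∈ S
    · ext i j
      exact eq_of_geo (fun n => (h1 n i j).2.2.2 y (B.cone.2.1 hy))
        fun n => (h2 n i j).2.2.2 y (B.cone.2.1 hy)
    · rw [a.v2 y hy, a'.v2 y hy]

end Vale.Agent.P354XC
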