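import Vale.Agent.P354XC.Sum
import Vale.Agent.P231.Fm.Param

/-! Block C: the ray operators. -/

open scoped ContDiff
open Set Filter Topology MeasureTheory

noncomputable section

namespace Vale.Agent.P354XC

open Vale.Agent.P354I (X Dat ee pd)
open Vale.Agent.P231.Fm

theorem fderiv_param {P F : Type} [NormedAddCommGroup P] [NormedSpace ℝ P] [FiniteDimensional ℝ P]
    [NormedAddCommGroup F] [NormedSpace ℝ F] [FiniteDimensional ℝ F] [MeasurableSpace F]
    [BorelSpace F] (μ : Measure F) [μ.IsAddHaarMeasure] {U : Set P} (hU : IsOpen U) {K : Set F}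
    (hK : IsCompact K) {f : F → ℝ} (hf : LocallyIntegrable f μ) {g : P × F → ℝ}
    (hg : ContDiff ℝ ∞ g) (h0 : ∀ x ∈ U, ∀ y ∉ K, g (x, y) = 0) {x : P} (hx : x ∈ U) (v : P) :
    fderiv ℝ (fun x => ∫ y, f y • g (x, y) ∂μ) x v = ∫ y, f y • fderiv ℝ g (x, y) (v, 0) ∂μ := by
  rw [(hasFDerivAt_param μ hU hK hf (hg.of_le (by simp)).contDiffOn h0 hx).fderiv,
    ContinuousLinearMap.integral_apply]
  · simp
  refine hf.integrable_smul_right_of_hasCompactSupport
    (((hg.continuous_fderiv (by simp)).comp (Continuous.prodMk_right x)).clm_comp continuous_const)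
    (HasCompactSupport.intro hK fun y hy => ?_)
  have h1 : (fun z => g (z, y)) =ᶠ[𝓝 x] fun _ => (0 : ℝ) := by
    filter_upwards [hU.mem_nhds hx] with w hw using h0 w hw y hy
  have h2 := ((hg.differentiable (by simp) (x, y)).hasFDerivAt.comp x
    (hasFDerivAt_prodMk_left x y)).congr_of_eventuallyEq h1.symm
  exact h2.unique (hasFDerivAt_const 0 x)

abbrev Y : Type := ℝ × ℝ

def xi (w : Y) : X := !₂[1, w.1, w.2]

def Qs : Set Y := Icc (-1) 1 ×ˢ Icc (-1) 1

/-- Kernels. -/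
structure Ker (ψ : Y → ℝ) : Prop where
  cd : ContDiff ℝ ∞ ψ
  sp : ∀ w ∉ Qs, ψ w = 0

def J (ψ : Y → ℝ) (f : X → ℝ) (q : X × ℝ) : ℝ := ∫ w, ψ w * f (q.1 - q.2 • xi w)

def T (p : ℕ) (ψ : Y → ℝ) (f : X → ℝ) (x : X) : ℝ := ∫ s in Ioi (0 : ℝ), s ^ p * J ψ f (x, s)

/-- The direction in the plane and the derivative of a kernel. -/
def eY (A : Fin 3) : Y := (ee A 1, ee A 2)
def dY (A : Fin 3) (ψ : Y → ℝ) (w : Y) : ℝ := fderiv ℝ ψ w (eY A)

variable {R : ℝ} {ψ φ : Y → ℝ} {f g : X → ℝ} {p : ℕ}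

theorem qs_cpt : IsCompact Qs := isCompact_Icc.prod isCompact_Icc

def xiL : Y →L[ℝ] X := (ContinuousLinearMap.fst ℝ ℝ ℝ).smulRight (ee 1) +
  (ContinuousLinearMap.snd ℝ ℝ ℝ).smulRight (ee 2)

theorem xi_eq (w : Y) : xi w = ee 0 + xiL w := by
  ext j; fin_cases j <;> simp [xi, xiL, ee]

theorem cd_xi : ContDiff ℝ ∞ xi := by
  rw [show xi = fun w => ee 0 + xiL w from funext xi_eq]
  exact contDiff_const.add xiL.contDiff

theorem xiL_e {A : Fin 3} (hA : A ≠ 0) : xiL (eY A) = ee A := by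
  ext j; fin_cases A
  · exact absurd rfl hA
  all_goals fin_cases j <;> simp [xiL, eY, ee]

theorem Ker.xi (h : Ker ψ) (k : Fin 3) : Ker fun w => ψ w * xi w k :=
  ⟨h.cd.mul ((cd_co k).comp cd_xi), fun w hw => by simp [h.sp w hw]⟩

theorem Ker.d (h : Ker ψ) (A : Fin 3) : Ker (dY A ψ) :=
  ⟨(h.cd.fderiv_right (m := ∞) (by simp)).clm_apply contDiff_const, fun w hw => by
    have : ψ =ᶠ[𝓝 w] fun _ => 0 := by
      filter_upwards [qs_cpt.isClosed.isOpen_compl.mem_nhds hw] with y hy using h.sp y hy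
    simp [dY, this.fderiv_eq]⟩

theorem Ker.lin (h : Ker ψ) (h' : Ker φ) (a b : ℝ) : Ker fun w => a * ψ w + b * φ w :=
  ⟨(contDiff_const.mul h.cd).add (contDiff_const.mul h'.cd), fun w hw => by
    simp [h.sp w hw, h'.sp w hw]⟩

theorem Ker.cmul (h : Ker ψ) (a : ℝ) : Ker fun w => a * ψ w :=
  ⟨contDiff_const.mul h.cd, fun w hw => by simp [h.sp w hw]⟩

theorem cd_arg : ContDiff ℝ ∞ fun z : (X × ℝ) × Y => z.1.1 - z.1.2 • xi z.2 :=
  contDiff_fst.fst.sub (contDiff_fst.snd.smul (cd_xi.comp contDiff_snd))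

theorem cd_Jg (h : Ker ψ) (hf : ContDiff ℝ ∞ f) :
    ContDiff ℝ ∞ fun z : (X × ℝ) × Y => ψ z.2 * f (z.1.1 - z.1.2 • xi z.2) :=
  (h.cd.comp contDiff_snd).mul (hf.comp cd_arg)

theorem J_int (h : Ker ψ) (hf : ContDiff ℝ ∞ f) (q : X × ℝ) :
    Integrable fun w => ψ w * f (q.1 - q.2 • xi w) :=
  ((cd_Jg h hf).continuous.comp (Continuous.prodMk_right q)).integrable_of_hasCompactSupport
    (HasCompactSupport.intro qs_cpt fun w hw => by simp [h.sp w hw])

theorem J_eq (ψ : Y → ℝ) (f : X → ℝ) : J ψ f = fun q => ∫ w, (fun _ => (1 : ℝ)) w •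
    (fun z : (X × ℝ) × Y => ψ z.2 * f (z.1.1 - z.1.2 • xi z.2)) (q, w) := by
  funext q; simp [J]

theorem J_cd (h : Ker ψ) (hf : ContDiff ℝ ∞ f) : ContDiff ℝ ∞ (J ψ f) := by
  rw [J_eq, ← contDiffOn_univ]
  exact contDiffOn_param volume (n := ⊤) isOpen_univ qs_cpt (locallyIntegrable_const 1)
    (cd_Jg h hf).contDiffOn fun x _ y hy => by simp [h.sp y hy]

theorem J_fd (h : Ker ψ) (hf : ContDiff ℝ ∞ f) (q v : X × ℝ) :
    fderiv ℝ (J ψ f) q v = ∫ w, ψ w * fderiv ℝ f (q.1 - q.2 • xi w) (v.1 - v.2 • xi w) := by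
  rw [J_eq, fderiv_param volume isOpen_univ qs_cpt (locallyIntegrable_const 1) (cd_Jg h hf)
    (fun x _ y hy => by simp [h.sp y hy]) (mem_univ q)]
  refine integral_congr_ae (Eventually.of_forall fun w => ?_)
  have h1 := HasFDerivAt.comp (f := fun e : X × ℝ => (e, w)) q
    ((cd_Jg h hf).differentiable (by simp) (q, w)).hasFDerivAt (hasFDerivAt_prodMk_left q w)
  have h2 : HasFDerivAt (fun q : X × ℝ => ψ w * f (q.1 - q.2 • xi w)) _ q :=
    ((hf.differentiable (by simp) _).hasFDerivAt.comp q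
      (hasFDerivAt_fst.sub (hasFDerivAt_snd.smul_const (xi w)))).const_mul (ψ w)
  have h3 := DFunLike.congr_fun (h1.unique h2) v
  simpa using h3

theorem J_lin (h : Ker ψ) (h' : Ker φ) (hf : ContDiff ℝ ∞ f) (hg : ContDiff ℝ ∞ g) (a b : ℝ)
    (q : X × ℝ) : a * J ψ f q + b * J φ g q =
      ∫ w, (a * (ψ w * f (q.1 - q.2 • xi w)) + b * (φ w * g (q.1 - q.2 • xi w))) := by
  rw [integral_add ((J_int h hf q).const_mul a) ((J_int h' hg q).const_mul b),
    integral_const_mul, integral_const_mul]; rfl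

theorem cd_pd (hf : ContDiff ℝ ∞ f) (k : Fin 3) : ContDiff ℝ ∞ (pd k f) :=
  contDiffOn_univ.1 (Sm.pd isOpen_univ hf.contDiffOn k)

theorem J_ds (h : Ker ψ) (hf : ContDiff ℝ ∞ f) (x : X) (s : ℝ) :
    HasDerivAt (fun s => J ψ f (x, s))
      (-∑ k, J (fun w => ψ w * xi w k) (pd k f) (x, s)) s := by
  have h1 := ((J_cd h hf).differentiable (by simp) (x, s)).hasFDerivAt.comp_hasDerivAt s
    ((hasDerivAt_const s x).prodMk (hasDerivAt_id s))
  refine h1.congr_deriv (Eq.symm ?_)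
  rw [J_fd h hf]
  simp only [J]
  rw [← integral_finsetSum _ fun k _ => J_int (h.xi k) (cd_pd hf k) (x, s), ← integral_neg]
  refine integral_congr_ae (Eventually.of_forall fun w => ?_)
  simp only [one_smul, zero_sub, map_neg, fd_coord f _ (xi w), Finset.mul_sum, mul_neg, mul_assoc]

theorem J_ibp (h : Ker ψ) (hf : ContDiff ℝ ∞ f) {A : Fin 3} (hA : A ≠ 0) (x : X) (s : ℝ) :
    s * J ψ (pd A f) (x, s) = J (dY A ψ) f (x, s) := by
  have h1 := integral_fderiv_fibre (volume : Measure Y)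
    (h := fun w => ψ w * f (x - s • xi w))
    (((cd_Jg h hf).comp (contDiff_const.prodMk contDiff_id : ContDiff ℝ ∞ fun w : Y =>
      ((x, s), w))).of_le (by simp))
    (HasCompactSupport.intro qs_cpt fun w hw => by simp [h.sp w hw]) (eY A)
  have h2 := J_lin (h.d A) h hf (cd_pd hf A) 1 (-s) (x, s)
  have h3 : ∀ w, fderiv ℝ (fun w => ψ w * f (x - s • xi w)) w (eY A) =
      1 * (dY A ψ w * f (x - s • xi w)) + -s * (ψ w * pd A f (x - s • xi w)) := by
    intro w
    have h4 : HasFDerivAt xi xiL w := by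
      rw [show xi = fun w => ee 0 + xiL w from funext xi_eq]
      exact xiL.hasFDerivAt.const_add _
    have h5 := (h.cd.differentiable (by simp) w).hasFDerivAt.mul
      ((hf.differentiable (by simp) _).hasFDerivAt.comp w ((h4.const_smul s).const_sub x))
    have h6 := DFunLike.congr_fun h5.fderiv (eY A)
    refine Eq.trans h6 ?_
    simp [xiL_e hA, dY, pd]
    ring
  simp only [h3] at h1
  rw [h1] at h2
  linarith

theorem J_co (h : Ker ψ) (hf : ContDiff ℝ ∞ f) (k : Fin 3) (x : X) (s : ℝ) :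
    x k * J ψ f (x, s) = s * J (fun w => ψ w * xi w k) f (x, s) +
      1 * J ψ (fun y => y k * f y) (x, s) := by
  rw [J_lin (h.xi k) h hf ((cd_co k).mul hf), J, ← integral_const_mul]
  refine integral_congr_ae (Eventually.of_forall fun w => ?_)
  simp only [PiLp.sub_apply, PiLp.smul_apply, smul_eq_mul]; ring

theorem xi0 (w : Y) : xi w 0 = 1 := rfl
theorem xi1 (w : Y) : xi w 1 = w.1 := rfl
theorem xi2 (w : Y) : xi w 2 = w.2 := rfl

theorem J_far (hv : Vn R f) {x : X} {s : ℝ} (hs : x 0 - R < s) : J ψ f (x, s) = 0 := by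
  refine integral_eq_zero_of_ae (Eventually.of_forall fun w => ?_)
  have : x - s • xi w ∉ Gam R := fun hx => by
    have := hx.1
    simp only [PiLp.sub_apply, PiLp.smul_apply, smul_eq_mul, xi0] at this
    linarith
  simp [hv _ this]

theorem J_out (h : Ker ψ) (hv : Vn R f) {x : X} (hx : x ∉ Gam R) {s : ℝ} (hs : 0 ≤ s) :
    J ψ f (x, s) = 0 := by
  refine integral_eq_zero_of_ae (Eventually.of_forall fun w => ?_)
  by_cases hw : w ∈ Qs
  · have : x - s • xi w ∉ Gam R := fun hy => hx (by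
      obtain ⟨h0, h1, h2⟩ := hy
      obtain ⟨⟨a1, a2⟩, a3, a4⟩ := hw
      simp only [PiLp.sub_apply, PiLp.smul_apply, smul_eq_mul, xi0, xi1, xi2, abs_le] at h0 h1 h2
      refine ⟨by linarith, abs_le.2 ⟨?_, ?_⟩, abs_le.2 ⟨?_, ?_⟩⟩ <;> nlinarith)
    simp [hv _ this]
  · simp [h.sp w hw]

/-! ### The operators T -/

theorem T_vn (h : Ker ψ) (hv : Vn R f) : Vn R (T p ψ f) := fun x hx =>
  setIntegral_eq_zero_of_forall_eq_zero fun s hs => by simp [J_out h hv hx (le_of_lt hs)]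

theorem T_int (h : Ker ψ) (hf : ContDiff ℝ ∞ f) (hv : Vn R f) (x : X) (p : ℕ) :
    IntegrableOn (fun s : ℝ => s ^ p * J ψ f (x, s)) (Ioi 0) := by
  have h1 : Continuous fun s : ℝ => s ^ p * J ψ f (x, s) :=
    (continuous_pow p).mul ((J_cd h hf).continuous.comp (Continuous.prodMk_right x))
  refine (h1.integrableOn_Icc (a := 0) (b := x 0 - R)).of_forall_sdiff_eq_zero measurableSet_Ioi
    fun s hs => ?_
  have : x 0 - R < s := lt_of_not_ge fun h2 => hs.2 ⟨le_of_lt hs.1, h2⟩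
  simp [J_far hv this]

def Tg (ψ : Y → ℝ) (f : X → ℝ) (q : X × ℝ) : ℝ := Real.smoothTransition (q.2 + 1) * J ψ f q

theorem T_eq (p : ℕ) (ψ : Y → ℝ) (f : X → ℝ) : T p ψ f = fun x =>
    ∫ s, (Ioi (0 : ℝ)).indicator (fun s => s ^ p) s • Tg ψ f (x, s) := by
  funext x
  rw [T, ← integral_indicator measurableSet_Ioi]
  refine integral_congr_ae (Eventually.of_forall fun s => ?_)
  by_cases hs : s ∈ Ioi (0 : ℝ)
  · have : Real.smoothTransition (s + 1) = 1 :=
      Real.smoothTransition.one_of_one_le (by linarith [mem_Ioi.1 hs])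
    simp [hs, Tg, this]
  · simp [hs]

theorem cd_st : ContDiff ℝ ∞ fun q : X × ℝ => Real.smoothTransition (q.2 + 1) :=
  Real.smoothTransition.contDiff.comp (contDiff_snd.add contDiff_const)

theorem Tg_zero (hv : Vn R f) (S : ℝ) : ∀ x ∈ {x : X | x 0 < S}, ∀ s ∉ Icc (-1) (S - R),
    Tg ψ f (x, s) = 0 := fun x hx s hs => by
  by_cases h1 : -1 ≤ s
  · have h2 : S - R < s := lt_of_not_ge fun h2 => hs ⟨h1, h2⟩
    have h3 : x 0 < S := hx
    simp [Tg, J_far hv (show x 0 - R < s by linarith)]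
  · simp [Tg, Real.smoothTransition.zero_of_nonpos (show s + 1 ≤ 0 by linarith)]

theorem li_pow (p : ℕ) : LocallyIntegrable ((Ioi (0 : ℝ)).indicator fun s => s ^ p) volume :=
  (continuous_pow p).locallyIntegrable.indicator measurableSet_Ioi

theorem op_lt (S : ℝ) : IsOpen {x : X | x 0 < S} :=
  isOpen_lt (cd_co 0).continuous continuous_const

theorem T_cd (h : Ker ψ) (hf : ContDiff ℝ ∞ f) (hv : Vn R f) : ContDiff ℝ ∞ (T p ψ f) := by
  refine contDiff_iff_contDiffAt.2 fun x => ?_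
  rw [T_eq]
  exact (contDiffOn_param volume (n := ⊤) (op_lt (x 0 + 1)) isCompact_Icc (li_pow p)
    (cd_st.mul (J_cd h hf)).contDiffOn (Tg_zero hv _)).contDiffAt
      ((op_lt _).mem_nhds (lt_add_one (x 0)))

theorem T_pd (h : Ker ψ) (hf : ContDiff ℝ ∞ f) (hv : Vn R f) (k : Fin 3) :
    pd k (T p ψ f) = T p ψ (pd k f) := by
  funext x
  rw [pd, T_eq, T_eq, fderiv_param volume (op_lt (x 0 + 1)) isCompact_Icc (li_pow p)
    (g := Tg ψ f) (cd_st.mul (J_cd h hf)) (Tg_zero hv _) (lt_add_one (x 0))]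
  refine integral_congr_ae (Eventually.of_forall fun s => ?_)
  have h2 : fderiv ℝ (fun q : X × ℝ => Real.smoothTransition (q.2 + 1)) (x, s) (ee k, 0) = 0 := by
    have h3 := HasFDerivAt.comp (f := fun q : X × ℝ => q.2 + 1) (x, s)
      ((Real.smoothTransition.contDiff (n := 1)).differentiable (by simp) (s + 1)).hasFDerivAt
      ((hasFDerivAt_snd (𝕜 := ℝ)).add_const 1)
    have h4 := DFunLike.congr_fun h3.fderiv (ee k, 0)
    refine Eq.trans h4 (by simp)
  beta_reduce
  congr 1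
  unfold Tg
  rw [fderiv_fun_mul (cd_st.differentiable (by simp) _) ((J_cd h hf).differentiable (by simp) _)]
  simp only [add_apply, smul_apply, h2, J_fd h hf, smul_eq_mul, mul_zero, add_zero, zero_smul,
    sub_zero]
  rfl

theorem T_lin (h : Ker ψ) (h' : Ker φ) (hf : ContDiff ℝ ∞ f) (hg : ContDiff ℝ ∞ g) (hv : Vn R f)
    (hw : Vn R g) (a b : ℝ) (p q : ℕ) (x : X) : a * T p ψ f x + b * T q φ g x =
      ∫ s in Ioi (0 : ℝ), (a * (s ^ p * J ψ f (x, s)) + b * (s ^ q * J φ g (x, s))) := by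
  rw [integral_add ((T_int h hf hv x p).const_mul a) ((T_int h' hg hw x q).const_mul b),
    integral_const_mul, integral_const_mul]; rfl

theorem T_linf (h : Ker ψ) (hf : ContDiff ℝ ∞ f) (hg : ContDiff ℝ ∞ g) (hv : Vn R f)
    (hw : Vn R g) (a b : ℝ) (x : X) :
    T p ψ (fun y => a * f y + b * g y) x = a * T p ψ f x + b * T p ψ g x := by
  rw [T_lin h h hf hg hv hw, T]
  refine integral_congr_ae (Eventually.of_forall fun s => ?_)
  have : J ψ (fun y => a * f y + b * g y) (x, s) = a * J ψ f (x, s) + b * J ψ g (x, s) := by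
    rw [J_lin h h hf hg, J]
    exact integral_congr_ae (Eventually.of_forall fun w => by ring)
  simp only [this]; ring

theorem T_link (h : Ker ψ) (h' : Ker φ) (hf : ContDiff ℝ ∞ f) (hv : Vn R f) (a b : ℝ) (x : X) :
    T p (fun w => a * ψ w + b * φ w) f x = a * T p ψ f x + b * T p φ f x := by
  rw [T_lin h h' hf hf hv hv, T]
  refine integral_congr_ae (Eventually.of_forall fun s => ?_)
  have : J (fun w => a * ψ w + b * φ w) f (x, s) = a * J ψ f (x, s) + b * J φ f (x, s) := by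
    rw [J_lin h h' hf hf, J]
    exact integral_congr_ae (Eventually.of_forall fun w => by ring)
  simp only [this]; ring

theorem T_ibp (h : Ker ψ) (hf : ContDiff ℝ ∞ f) {A : Fin 3} (hA : A ≠ 0) (x : X) :
    T (p + 1) ψ (pd A f) x = T p (dY A ψ) f x :=
  integral_congr_ae (Eventually.of_forall fun s => by
    simp only [← J_ibp h hf hA]; ring)

theorem Vn.mul (hv : Vn R f) (g : X → ℝ) : Vn R fun y => g y * f y := fun x hx => by
  simp [hv x hx]

theorem T_co (h : Ker ψ) (hf : ContDiff ℝ ∞ f) (hv : Vn R f) (k : Fin 3) (x : X) :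
    x k * T p ψ f x = T (p + 1) (fun w => ψ w * xi w k) f x + T p ψ (fun y => y k * f y) x := by
  have := T_lin (h.xi k) h hf ((cd_co k).mul hf) hv (hv.mul fun y => y k) 1 1 (p + 1) p x
  rw [one_mul, one_mul] at this
  rw [this, T, ← integral_const_mul]
  refine integral_congr_ae (Eventually.of_forall fun s => ?_)
  have := J_co h hf k x s
  linear_combination s ^ p * this

theorem T_div (h : Ker ψ) (hf : ContDiff ℝ ∞ f) (hv : Vn R f) (x : X) :
    ∑ k, T p (fun w => ψ w * xi w k) (pd k f) x =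
      p * T (p - 1) ψ f x + 0 ^ p * ((∫ w, ψ w) * f x) := by
  have hi := fun k => T_int (h.xi k) (cd_pd hf k) (hv.fd fun _ => ee k) x p
  have hi2 := integrable_finsetSum Finset.univ fun k _ => hi k
  have h1 := integral_Ioi_of_hasDerivAt_of_tendsto (a := 0) (m := 0)
    (f := fun s : ℝ => s ^ p * J ψ f (x, s))
    (f' := fun s : ℝ => p * (s ^ (p - 1) * J ψ f (x, s)) -
      ∑ k, s ^ p * J (fun w => ψ w * xi w k) (pd k f) (x, s))
    ((continuous_pow p).mul ((J_cd h hf).continuous.comp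
      (Continuous.prodMk_right x))).continuousWithinAt
    (fun s _ => by
      refine ((hasDerivAt_pow p s).mul (J_ds h hf x s)).congr_deriv ?_
      rw [← Finset.mul_sum]; ring)
    (((T_int h hf hv x (p - 1)).const_mul _).sub hi2)
    (tendsto_const_nhds.congr' (by
      filter_upwards [eventually_gt_atTop (x 0 - R)] with s hs
      simp [J_far hv hs]))
  rw [integral_sub ((T_int h hf hv x (p - 1)).const_mul _) hi2, integral_const_mul,
    integral_finsetSum _ fun k _ => hi k] at h1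
  have h2 : J ψ f (x, 0) = (∫ w, ψ w) * f x := by simp [J, integral_mul_const]
  simp only [h2] at h1
  simp only [T]
  linarith

/-- The kernel which appears in the commutator with Z. -/
def yk (p : ℕ) (i : Fin 3) (ψ : Y → ℝ) : Y → ℝ :=
  if i = 0 then fun w => (p + 1 : ℝ) * ψ w else dY i ψ

theorem Ker.yk (h : Ker ψ) (p : ℕ) (i : Fin 3) : Ker (yk p i ψ) := by
  unfold P354XC.yk
  split_ifs
  · exact h.cmul _
  · exact h.d i

theorem T_cmulf (a : ℝ) (x : X) : T p ψ (fun y => a * f y) x = a * T p ψ f x := by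
  simp only [T, J, ← integral_const_mul]
  refine integral_congr_ae (Eventually.of_forall fun s => ?_)
  exact integral_congr_ae (Eventually.of_forall fun w => by ring)

theorem T_cmulk (a : ℝ) (x : X) : T p (fun w => a * ψ w) f x = a * T p ψ f x := by
  simp only [T, J, ← integral_const_mul]
  refine integral_congr_ae (Eventually.of_forall fun s => ?_)
  exact integral_congr_ae (Eventually.of_forall fun w => by ring)

theorem T_addf (h : Ker ψ) (hf : ContDiff ℝ ∞ f) (hg : ContDiff ℝ ∞ g) (hv : Vn R f)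
    (hw : Vn R g) (x : X) : T p ψ (fun y => f y + g y) x = T p ψ f x + T p ψ g x := by
  simpa using T_linf h hf hg hv hw 1 1 x

theorem T_subf (h : Ker ψ) (hf : ContDiff ℝ ∞ f) (hg : ContDiff ℝ ∞ g) (hv : Vn R f)
    (hw : Vn R g) (x : X) : T p ψ (fun y => f y - g y) x = T p ψ f x - T p ψ g x := by
  simpa [sub_eq_add_neg] using T_linf h hf hg hv hw 1 (-1) x

theorem T_Z (h : Ker ψ) (hf : ContDiff ℝ ∞ f) (hv : Vn R f) (s : ℝ × ℝ) (i : Fin 3) (x : X) :
    Z s i (T p ψ f) x =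
      (if i = 0 then s.1 else s.2) * T p (yk p i ψ) f x + T p ψ (Z s i f) x := by
  have hd := fun k => cd_pd hf k
  have hw : ∀ k, Vn R (pd k f) := fun k => hv.fd fun _ => ee k
  by_cases hi : i = 0
  · subst hi
    have e : Z s 0 f = fun y => s.1 * (y 0 * pd 0 f y + y 1 * pd 1 f y + y 2 * pd 2 f y) :=
      funext fun y => by rw [Z_rad, Fin.sum_univ_three]
    have hm := fun k => (cd_co k).mul (hd k)
    have hn := fun k => (hw k).mul fun y => y k
    have h1 := T_div (p := p + 1) h hf hv x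
    rw [Z_rad, e, T_cmulf, T_addf h ((hm 0).add (hm 1)) (hm 2)
      (fun y hy => by simp [hw 0 y hy, hw 1 y hy]) (hn 2), T_addf h (hm 0) (hm 1) (hn 0) (hn 1)]
    simp only [T_pd h hf hv, T_co h (hd _) (hw _), yk, if_true, T_cmulk, Fin.sum_univ_three,
      Nat.add_sub_cancel, pow_succ, mul_zero, zero_mul, add_zero, Nat.cast_succ] at h1 ⊢
    linear_combination s.1 * h1
  · have e : Z s i f = fun y => s.2 * (y 0 * pd i f y) :=
      funext fun y => by rw [Z_tan hi, mul_assoc]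
    rw [Z_tan hi, e, T_cmulf, T_pd h hf hv, mul_assoc, T_co h (hd i) (hw i)]
    simp only [xi0, mul_one, T_ibp h hf hi, yk, hi, if_false]
    ring

end Vale.Agent.P354XC
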