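import Vale.Agent.P354XC.Ray

/-! Block C: estimates for the ray operators with the Volterra weight. -/

open scoped ContDiff
open Set Filter Topology MeasureTheory

noncomputable section

namespace Vale.Agent.P354XC

open Vale.Agent.P354I (X Dat ee pd)

/-- The Volterra weight. -/
def om (K R t : ℝ) : ℝ := Real.exp (K * (1 - R / t))

variable {R K : ℝ} {ψ φ : Y → ℝ} {f g : X → ℝ} {p : ℕ}

theorem om_pos (K R t : ℝ) : 0 < om K R t := Real.exp_pos _

theorem om_le (hK : 0 ≤ K) (hR : 0 < R) {t : ℝ} (ht : R ≤ t) : om K R t ≤ Real.exp K := by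
  have : 0 ≤ K * (R / t) := mul_nonneg hK (div_nonneg hR.le (hR.le.trans ht))
  exact Real.exp_le_exp.2 (by linarith)

theorem one_le_om (hK : 0 ≤ K) (hR : 0 < R) {t : ℝ} (ht : R ≤ t) : 1 ≤ om K R t :=
  Real.one_le_exp (mul_nonneg hK (sub_nonneg.2 ((div_le_one (hR.trans_le ht)).2 ht)))

theorem rect_est {G : Y → ℝ} {M a1 b1 a2 b2 : ℝ} (h1 : a1 ≤ b1) (h2 : a2 ≤ b2)
    (hM : ∀ w, |G w| ≤ M) (h0 : ∀ w ∉ Icc a1 b1 ×ˢ Icc a2 b2, G w = 0) :
    |∫ w, G w| ≤ M * ((b1 - a1) * (b2 - a2)) := by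
  rw [← setIntegral_eq_integral_of_forall_compl_eq_zero h0]
  have h := norm_setIntegral_le_of_norm_le_const (μ := (volume : Measure Y)) (f := G)
    (isCompact_Icc (a := a1) (b := b1).prod (isCompact_Icc (a := a2) (b := b2))).measure_lt_top
    fun w _ => hM w
  refine h.trans_eq ?_
  rw [Measure.volume_eq_prod, measureReal_prod_prod]
  simp [h1, h2]

theorem J_est (h : Ker ψ) {a : ℝ} (ha : ∀ w, |ψ w| ≤ a) (hR : 0 < R) (hv : Vn R f) {F : ℝ → ℝ}
    (hF : ∀ y ∈ Gam R, |f y| ≤ F (y 0)) {x : X} {s : ℝ} (hs : 0 < s) (hx : R ≤ x 0 - s)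
    (hF0 : 0 ≤ F (x 0 - s)) :
    |J ψ f (x, s)| ≤ a * F (x 0 - s) * (16 * (x 0 - s) ^ 2 / x 0 ^ 2) := by
  have ha0 : 0 ≤ a := (abs_nonneg _).trans (ha 0)
  have hM : ∀ w, |ψ w * f (x - s • xi w)| ≤ a * F (x 0 - s) := fun w => by
    rw [abs_mul]
    refine mul_le_mul (ha w) ?_ (abs_nonneg _) ha0
    by_cases hy : x - s • xi w ∈ Gam R
    · simpa [xi0] using hF _ hy
    · simpa [hv _ hy] using hF0
  have h0 : 0 < x 0 := by linarith
  have hy0 : 0 < x 0 - s := by linarith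
  rcases le_total s (x 0 / 2) with h1 | h1
  · refine (rect_est (a1 := -1) (b1 := 1) (a2 := -1) (b2 := 1) (by norm_num) (by norm_num) hM
      fun w hw => by simp [h.sp w hw]).trans
      (mul_le_mul_of_nonneg_left ?_ (mul_nonneg ha0 hF0))
    rw [le_div_iff₀ (by positivity)]
    nlinarith
  · refine (rect_est (a1 := (x 1 - (x 0 - s)) / s) (b1 := (x 1 + (x 0 - s)) / s)
      (a2 := (x 2 - (x 0 - s)) / s) (b2 := (x 2 + (x 0 - s)) / s)
      (div_le_div_of_nonneg_right (by linarith) hs.le)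
      (div_le_div_of_nonneg_right (by linarith) hs.le) hM fun w hw => ?_).trans
      (mul_le_mul_of_nonneg_left ?_ (mul_nonneg ha0 hF0))
    · have : x - s • xi w ∉ Gam R := fun hy => hw (by
        obtain ⟨-, h1, h2⟩ := hy
        simp only [PiLp.sub_apply, PiLp.smul_apply, smul_eq_mul, xi0, xi1, xi2, abs_le] at h1 h2
        refine ⟨⟨(div_le_iff₀ hs).2 ?_, (le_div_iff₀ hs).2 ?_⟩, (div_le_iff₀ hs).2 ?_,
          (le_div_iff₀ hs).2 ?_⟩ <;> linarith)
      simp [hv _ this]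
    · have e : ∀ z : ℝ, (z + (x 0 - s)) / s - (z - (x 0 - s)) / s = 2 * (x 0 - s) / s :=
        fun z => by ring
      rw [e, e, div_mul_div_comm, div_le_div_iff₀ (by positivity) (by positivity)]
      have : x 0 ^ 2 ≤ 4 * (s * s) := by nlinarith
      nlinarith [mul_le_mul_of_nonneg_left this (sq_nonneg (x 0 - s))]

/-- The weights of the source and of the result. -/
def wS (K R t : ℝ) : ℝ := om K R t * (R / t ^ 4)
def wT (p : ℕ) (K R t : ℝ) : ℝ := om K R t * (t ^ p / t ^ 2)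

theorem pw_wS (hR : 0 < R) : Pw R (wS K R) := fun t ht => by
  have := hR.trans_le ht; have := om_pos K R t; unfold wS; positivity

theorem pw_wT (hR : 0 < R) : Pw R (wT p K R) := fun t ht => by
  have := hR.trans_le ht; have := om_pos K R t; unfold wT; positivity

theorem T_est (h : Ker ψ) {a c : ℝ} (ha : ∀ w, |ψ w| ≤ a) (hR : 0 < R) (hK : 0 < K) (hv : Vn R f)
    (hc : 0 ≤ c) (hF : ∀ y ∈ Gam R, |f y| ≤ c * wS K R (y 0)) {x : X} (hx : x ∈ Gam R) :
    |T p ψ f x| ≤ 16 * a * c / K * wT p K R (x 0) := by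
  have ha0 : 0 ≤ a := (abs_nonneg _).trans (ha 0)
  have h0 : 0 < x 0 := hR.trans_le hx.1
  have h1 : 0 ≤ x 0 - R := sub_nonneg.2 hx.1
  set C := 16 * a * c * (x 0 ^ p / x 0 ^ 2) with hC
  have hC0 : 0 ≤ C := by positivity
  have e1 : T p ψ f x = ∫ s in (0 : ℝ)..(x 0 - R), s ^ p * J ψ f (x, s) := by
    rw [intervalIntegral.integral_of_le h1, T]
    refine setIntegral_eq_of_subset_of_forall_sdiff_eq_zero measurableSet_Ioi Ioc_subset_Ioi_self
      fun s hs => ?_
    have : x 0 - R < s := lt_of_not_ge fun h2 => hs.2 ⟨hs.1, h2⟩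
    simp [J_far hv this]
  have hd : ∀ s ∈ uIcc 0 (x 0 - R), HasDerivAt (fun s => -(C / K) * om K R (x 0 - s))
      (C * (R / (x 0 - s) ^ 2 * om K R (x 0 - s))) s := fun s hs => by
    rw [uIcc_of_le h1] at hs
    have h2 : x 0 - s ≠ 0 := by linarith [hs.2]
    have h3 := (((((hasDerivAt_const s R).div ((hasDerivAt_id s).const_sub (x 0)) h2).const_sub
      1).const_mul K).exp).const_mul (-(C / K))
    refine h3.congr_deriv ?_
    simp only [om, id, Pi.div_apply]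
    field_simp
    ring
  have hi : IntervalIntegrable (fun s => C * (R / (x 0 - s) ^ 2 * om K R (x 0 - s))) volume 0
      (x 0 - R) := by
    refine ContinuousOn.intervalIntegrable ?_
    rw [uIcc_of_le h1]
    have h2 : ∀ s ∈ Icc 0 (x 0 - R), x 0 - s ≠ 0 := fun s hs => by linarith [hs.2]
    unfold om
    refine continuousOn_const.mul ((continuousOn_const.div (by fun_prop)
      fun s hs => pow_ne_zero 2 (h2 s hs)).mul (Real.continuous_exp.comp_continuousOn
        (continuousOn_const.mul (continuousOn_const.sub (continuousOn_const.div (by fun_prop) h2)))))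
  rw [e1]
  refine (intervalIntegral.norm_integral_le_of_norm_le (E := ℝ) h1 (Eventually.of_forall fun s hs => ?_)
    hi).trans ?_
  · have h2 : R ≤ x 0 - s := by linarith [hs.2]
    have h3 : 0 < x 0 - s := hR.trans_le h2
    have h4 := J_est h ha hR hv (F := fun t => c * wS K R t) hF hs.1 h2
      (mul_nonneg hc (pw_wS hR _ h2))
    rw [Real.norm_eq_abs, abs_mul, abs_of_nonneg (pow_nonneg hs.1.le p)]
    refine (mul_le_mul (pow_le_pow_left₀ hs.1.le (show s ≤ x 0 by linarith) p) h4 (abs_nonneg _)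
      (by positivity)).trans_eq ?_
    simp only [hC, wS]; field_simp
  · rw [intervalIntegral.integral_eq_sub_of_hasDerivAt hd hi]
    have h2 := mul_nonneg (div_nonneg hC0 hK.le) (om_pos K R (x 0 - (x 0 - R))).le
    have h3 : 16 * a * c / K * wT p K R (x 0) = C / K * om K R (x 0) := by
      simp only [hC, wT]; ring
    rw [h3, sub_zero]
    linarith

theorem Ker.bdd (h : Ker ψ) : ∃ a, ∀ w, |ψ w| ≤ a :=
  h.cd.continuous.bounded_above_of_compact_support (HasCompactSupport.intro qs_cpt h.sp)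

theorem cd_Z (hf : ContDiff ℝ ∞ f) (s : ℝ × ℝ) (i : Fin 3) : ContDiff ℝ ∞ (Z s i f) :=
  contDiffOn_univ.1 (Sm.Z isOpen_univ hf.contDiffOn i)

theorem T_bd0 (p : ℕ) : ∀ (k : ℕ) {ψ : Y → ℝ} {a : ℝ}, Ker ψ → (∀ w, |ψ w| ≤ a) → ∃ C, 0 ≤ C ∧
    ∀ {m R K c : ℝ} {s : ℝ × ℝ} {f : X → ℝ}, m ≤ 1 → s.1 ∈ Icc 0 m → s.2 ∈ Icc 0 m → 0 < R →
      0 < K → ContDiff ℝ ∞ f → Vn R f → Bd R s (wS K R) k f c →
      Bd R s (wT p K R) k (T p ψ f) (16 * (a + m * C) * c / K)
  | 0, ψ, a, h, ha => ⟨0, le_rfl, fun _ _ _ hR hK _ hv hb => by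
      have ha0 : 0 ≤ a := (abs_nonneg _).trans (ha 0)
      have := hb.1
      rw [mul_zero, add_zero]
      exact ⟨by positivity, fun x hx => T_est h ha hR hK hv hb.1 hb.2 hx⟩⟩
  | k + 1, ψ, a, h, ha => by
    have ha0 : 0 ≤ a := (abs_nonneg _).trans (ha 0)
    obtain ⟨C, hC, H⟩ := T_bd0 p k h ha
    choose b hb using fun i => (h.yk p i).bdd
    have hb0 : ∀ i, 0 ≤ b i := fun i => (abs_nonneg _).trans (hb i 0)
    choose E hE G using fun i => T_bd0 p k (h.yk p i) (hb i)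
    have hs : 0 ≤ ∑ i, (b i + E i) := Finset.sum_nonneg fun i _ => add_nonneg (hb0 i) (hE i)
    refine ⟨C + ∑ i, (b i + E i), add_nonneg hC hs, ?_⟩
    rintro m R K c s f hm h1 h2 hR hK hf hv ⟨c0, ci, hc, h0, hi⟩
    have hm0 : 0 ≤ m := h1.1.trans h1.2
    have hc0 := h0.nonneg
    have hci := Finset.sum_nonneg fun i (_ : i ∈ Finset.univ) => (hi i).nonneg
    refine ⟨_, fun i => m * (16 * (b i + E i) * c0 / K) + 16 * (a + m * C) * ci i / K, ?_,
      H hm h1 h2 hR hK hf hv h0, fun i => ?_⟩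
    · have e : ∑ i, (m * (16 * (b i + E i) * c0 / K) + 16 * (a + m * C) * ci i / K) =
          (16 * (m * ∑ i, (b i + E i)) * c0 + 16 * (a + m * C) * ∑ i, ci i) / K := by
        simp only [Fin.sum_univ_three]; ring
      rw [e, ← add_div]
      refine div_le_div_of_nonneg_right ?_ hK.le
      set S := ∑ i, (b i + E i)
      have h3 : 0 ≤ a + m * C := by positivity
      have h4 : 0 ≤ m * S := by positivity
      nlinarith [mul_le_mul_of_nonneg_left hc h3, mul_le_mul_of_nonneg_left hc h4,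
        mul_nonneg h4 hci]
    · rw [show Z s i (T p ψ f) = _ from funext (T_Z h hf hv s i)]
      have h3 := ((G i hm h1 h2 hR hK hf hv h0).cmul (if i = 0 then s.1 else s.2)).add (dm_univ hR)
        (contDiff_const.mul (T_cd (h.yk p i) hf hv)).contDiffOn
        (T_cd h (cd_Z hf s i) (hv.fd _)).contDiffOn
        (H hm h1 h2 hR hK (cd_Z hf s i) (hv.fd _) (hi i))
      refine h3.le (pw_wT hR) (add_le_add_left (mul_le_mul ?_ ?_ ?_ hm0) _)
      · split_ifs
        · rw [abs_of_nonneg h1.1]; exact h1.2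
        · rw [abs_of_nonneg h2.1]; exact h2.2
      · have := mul_le_of_le_one_left (hE i) hm
        gcongr
      · have := hb0 i; have := hE i; positivity

/-- The bound for the ray operator with a constant which does not depend on the order. -/
def TB (p : ℕ) (ψ : Y → ℝ) (A : ℝ) (m : ℕ → ℝ) : Prop :=
  ∀ (k : ℕ) (R K c : ℝ) (s : ℝ × ℝ) (f : X → ℝ), s.1 ∈ Icc 0 (m k) → s.2 ∈ Icc 0 (m k) → 0 < R →
    0 < K → ContDiff ℝ ∞ f → Vn R f → Bd R s (wS K R) k f c →
    Bd R s (wT p K R) k (T p ψ f) (A * c / K)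

theorem TB.mono {A A' : ℝ} {m m' : ℕ → ℝ} (h : TB p ψ A m) (hA : A ≤ A') (hm : ∀ k, m' k ≤ m k) :
    TB p ψ A' m' := fun _ _ _ _ _ _ h1 h2 hR hK hf hv hb =>
  (h _ _ _ _ _ _ ⟨h1.1, h1.2.trans (hm _)⟩ ⟨h2.1, h2.2.trans (hm _)⟩ hR hK hf hv hb).le (pw_wT hR)
    (by have := hb.nonneg; gcongr)

theorem Ker.tb (h : Ker ψ) (p : ℕ) : ∃ (A : ℝ) (m : ℕ → ℝ), (∀ k, 0 < m k) ∧ TB p ψ A m := by
  obtain ⟨a, ha⟩ := h.bdd
  choose C hC H using fun k => T_bd0 p k h ha
  refine ⟨16 * (a + 1), fun k => 1 / (C k + 1), fun k => by have := hC k; positivity, ?_⟩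
  intro k R K c s f h1 h2 hR hK hf hv hb
  have h3 : 0 < C k + 1 := by linarith [hC k]
  refine (H k ((div_le_one h3).2 (by linarith [hC k])) h1 h2 hR hK hf hv hb).le (pw_wT hR) ?_
  have := hb.nonneg
  have : 1 / (C k + 1) * C k ≤ 1 := by
    rw [div_mul_eq_mul_div, div_le_one h3]; linarith
  gcongr

/-- The same for a finite family of kernels. -/
theorem tb_fam {ι : Type} [Fintype ι] [Nonempty ι] {q : ι → ℕ} {Ψ : ι → Y → ℝ}
    (h : ∀ i, Ker (Ψ i)) : ∃ (A : ℝ) (m : ℕ → ℝ), 1 ≤ A ∧ (∀ k, 0 < m k) ∧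
      ∀ i, TB (q i) (Ψ i) A m := by
  choose A m hm H using fun i => (h i).tb (q i)
  refine ⟨1 + ∑ i, |A i|, fun k => Finset.univ.inf' Finset.univ_nonempty fun i => m i k,
    le_add_of_nonneg_right (Finset.sum_nonneg fun i _ => abs_nonneg _),
    fun k => (Finset.lt_inf'_iff _).2 fun i _ => hm i k, fun i => (H i).mono ?_ fun k =>
      Finset.inf'_le _ (Finset.mem_univ i)⟩
  have := Finset.single_le_sum (fun j (_ : j ∈ Finset.univ) => abs_nonneg (A j)) (Finset.mem_univ i)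
  linarith [le_abs_self (A i)]

end Vale.Agent.P354XC
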