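import Vale.Agent.P354XC.Pic

/-! Block C: the fixed point solves the constraints; second derivatives. -/

open scoped ContDiff
open Set Filter Topology Matrix

noncomputable section

namespace Vale.Agent.P354XC

open Vale.Agent.P354I (X Dat ee pd)

variable {R κ L c c' δ A : ℝ} {U S : Set X} {s : ℝ × ℝ} {k N N0 : ℕ} {d : Dat} {V W : V2}
  {m : ℕ → ℝ}

theorem fix_adj (B : Bg R U S d) (hF : FF S d V = V) {y : X} (hy : y ∈ U) (a b : Fin 3) :
    (d.h y + V.1 y).adjugate a b =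
      (d.h y).adjugate a b + T 1 (kH a b) (S.indicator (gH d V)) y := by
  have e : V.1 y = LI (d.h y) (HH (S.indicator (gH d V)) y - (V.1 y).adjugate) :=
    (congrFun (congrArg Prod.fst hF) y).symm
  have h1 := BB_LI (B.reg.ne y hy) (HH (S.indicator (gH d V)) y - (V.1 y).adjugate) a b
  rw [← e] at h1
  rw [adj_add, h1]
  simp only [HH, Matrix.sub_apply, of_apply]; ring

theorem fix_sol (B : Bg R U S d) (hV : Adm S V) (h0 : ∀ y ∈ U, (d.h y + V.1 y).det ≠ 0)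
    (hF : FF S d V = V) {y : X} (hy : y ∈ U) :
    Ham (mk d V).1 y = 0 ∧ ∀ j, Mom (mk d V).1 j y = 0 := by
  have hU := B.D.op
  have hS := B.cone.2.1
  have hr := mk_reg B.reg hV h0
  obtain ⟨a1, a2⟩ := B.src hV h0
  constructor
  · have hT := fun a b => (T_cd (p := 1) (ker_kH a b) a1.cd (a1.vs.vn hS)).contDiffOn (s := U)
    have e : ∀ a, pd a (fun z => ∑ l, pd l (fun w => ((mk d V).1.h w).adjugate a l) z) y =
        pd a (fun z => ∑ l, pd l (fun w => (d.h w).adjugate a l) z) y +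
          pd a (fun z => ∑ l, pd l (T 1 (kH a l) (S.indicator (gH d V))) z) y := fun a => by
      refine (pd_congr hU (fun z hz => ?_) hy a).trans (fd_add hU
        (.sum fun l _ => (B.reg.sh.adj a l).pd hU l) (.sum fun l _ => Sm.pd hU (hT a l) l) hy _)
      rw [← Finset.sum_add_distrib]
      exact Finset.sum_congr rfl fun l _ => (pd_congr hU (fun w hw => fix_adj B hF hw a l) hz
        l).trans (fd_add hU (B.reg.sh.adj a l) (hT a l) hz _)
    have h1 := ham_eq hU hr hy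
    have h2 := ham_eq hU B.reg hy
    have h3 := ddiv_H a1.cd (a1.vs.vn hS) y
    rw [a1.eq hy, gH] at h3
    simp only [e, Finset.sum_add_distrib] at h1
    exact (mul_eq_zero.1 (show EH (mk d V).1 y = 0 by linarith)).resolve_left (h0 y hy)
  · have h4 : ∀ b, EM (mk d V).1 b y = 0 := fun b => by
      have h1 := mom_eq hU hr (mk_P B.reg hV) (mk_pk B.reg hV) hy b
      have h2 := mom_eq hU B.reg B.reg.p0 B.reg.p0k hy b
      have h3 := div_P (fun b => (a2 b).cd) (fun b => (a2 b).vs.vn hS) b y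
      rw [(a2 b).eq hy, gM] at h3
      have e : ∀ i, pd i (en (mk d V).2 i b) y = pd i (en (P0 d) i b) y + pd i (en V.2 i b) y :=
        fun i => fd_add hU (B.reg.p0 i b) (hV.c2 i b).contDiffOn hy _
      have e2 : V.2 = PP fun b => S.indicator (gM d V b) := (congrArg Prod.snd hF).symm
      have e3 : ∀ i, en V.2 i b = fun z => ∑ k, T 0 (kP i b k) (S.indicator (gM d V k)) z :=
        fun i => by rw [e2]; rfl
      simp only [e, e3, Finset.sum_add_distrib] at h1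
      linarith
    have h5 : ((mk d V).1.h y)⁻¹ *ᵥ (fun j => Mom (mk d V).1 j y) = 0 := funext h4
    have h6 := congrArg (fun v => (mk d V).1.h y *ᵥ v) h5
    simp only [mulVec_mulVec, mul_nonsing_inv _ (isUnit_iff_ne_zero.2 (hr.ne y hy)), one_mulVec,
      mulVec_zero] at h6
    exact congrFun h6

theorem fix_dd (B : Bg R U S d) (hV : Adm S V) (h0 : ∀ y ∈ U, (d.h y + V.1 y).det ≠ 0)
    (hF : FF S d V = V) {y : X} (hy : y ∈ U) (n l i j : Fin 3) :
    pd n (pd l (en V.1 i j)) y = ∑ a, ∑ b, cf (d.h y + V.1 y) i j a b *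
      (pd n (pd l (T 1 (kH a b) (S.indicator (gH d V)))) y - BB (V.1 y) (dm n (dm l d.h) y) a b -
        (BB (dm n (mk d V).1.h y) (dm l (mk d V).1.h y) a b -
          BB (dm n d.h y) (dm l d.h y) a b)) := by
  have hU := B.D.op
  have hS := B.cone.2.1
  have h1 := (mk_reg B.reg hV h0).sh
  have h2 := B.reg.sh
  have hu : SmM U V.1 := fun a b => (hV.c1 a b).contDiffOn
  obtain ⟨a1, -⟩ := B.src hV h0
  have hT := fun a b => (T_cd (p := 1) (ker_kH a b) a1.cd (a1.vs.vn hS)).contDiffOn (s := U)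
  refine (LI_BB (h0 y hy) (dm n (dm l V.1) y) i j).symm.trans ?_
  simp only [LI, of_apply]
  refine Finset.sum_congr rfl fun a _ => Finset.sum_congr rfl fun b _ => congrArg _ ?_
  have e1 : EqOn (fun z => BB ((mk d V).1.h z) (dm l (mk d V).1.h z) a b) (fun z =>
      BB (d.h z) (dm l d.h z) a b + pd l (T 1 (kH a b) (S.indicator (gH d V))) z) U := fun z hz => by
    simp only [← pd_adj hU h1 hz, ← pd_adj hU h2 hz]
    exact (pd_congr hU (fun w hw => fix_adj B hF hw a b) hz l).trans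
      (fd_add hU (h2.adj a b) (hT a b) hz _)
  have e2 := (pd_congr hU e1 hy n).trans
    (fd_add hU (h2.BB (h2.dm hU l) a b) (Sm.pd hU (hT a b) l) hy _)
  have e3 := pd_BB hU h2 (h2.dm hU l) hy n a b
  rw [pd_BB hU h1 (h1.dm hU l) hy] at e2
  have e4 : dm n (dm l (mk d V).1.h) y = dm n (dm l d.h) y + dm n (dm l V.1) y := by
    ext p q
    exact (pd_congr hU (fun z hz => fd_add hU (h2 p q) (hu p q) hz _) hy n).trans
      (fd_add hU ((h2 p q).pd hU l) ((hu p q).pd hU l) hy _)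
  have e5 : BB ((mk d V).1.h y) (dm n (dm l d.h) y + dm n (dm l V.1) y) a b =
      BB (d.h y) (dm n (dm l d.h) y) a b + BB (V.1 y) (dm n (dm l d.h) y) a b +
        BB (d.h y + V.1 y) (dm n (dm l V.1) y) a b := by
    simp only [mk, BB, of_apply, Matrix.add_apply]; ring
  rw [e4, e5] at e2
  change _ = pd n (fun z => BB (d.h z) (dm l d.h z) a b) y +
    pd n (pd l (T 1 (kH a b) (S.indicator (gH d V)))) y at e2
  linarith

/-- The derivative of the correction of K. -/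
theorem est2 : ∃ N, ∀ i : Ix, i.W = 0 → (∀ a b l, Bd i.C.R i.C.s (wl i.C.R 1 1) i.C.k
      (pd l (en i.d.K a b)) (i.C.L ^ 1 * i.C.M ^ 1) ∧
      Bd i.C.R i.C.s (wd i.C.κ i.C.R 1 1) i.C.k (pd l (en i.V.2 a b)) (i.C.c * i.C.M ^ 1)) →
    i.C.c * Real.exp i.C.κ ≤ i.C.R → ∀ a b l, Bd i.C.R i.C.s (wd i.C.κ i.C.R 1 1) i.C.k
      (pd l fun y => (mk i.d i.V).1.K y a b - i.d.K y a b) (i.C.c * (i.C.L ^ N * i.C.M ^ 1)) := by
  let g : {i : Ix // i.W = 0 ∧ (∀ a b l, Bd i.C.R i.C.s (wl i.C.R 1 1) i.C.k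
      (pd l (en i.d.K a b)) (i.C.L ^ 1 * i.C.M ^ 1) ∧
      Bd i.C.R i.C.s (wd i.C.κ i.C.R 1 1) i.C.k (pd l (en i.V.2 a b)) (i.C.c * i.C.M ^ 1)) ∧
      i.C.c * Real.exp i.C.κ ≤ i.C.R} → Ix := Subtype.val
  have h0 : ∀ a b, PD (F0.comap g) 1 1 fun x y => Pof (x.1.h y) (x.1.K y) a b :=
    BH.pof1 (fun a b => (bh0 a b).comap g) ⟨bi0.1.comap g, fun i => bi0.2 (g i)⟩ fun a b =>
      ⟨(bk0 a b).comap g, fun l => ⟨1, fun i =>
        pr_same ((i.1.reg.K a b).pd i.1.C.D.op l) (i.2.2.1 a b l).1⟩⟩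
  have h1 : ∀ a b, PD (F1.comap g) 1 1 fun x y => x.2 y a b := fun a b =>
    ⟨(bp1 a b).comap g, fun l => by
      obtain ⟨N, H⟩ := (h0 a b).2 l
      refine ⟨N + 1, fun ⟨i, hW, hb, hc⟩ => ?_⟩
      have hR := i.C.D.pos
      have hU := i.C.D.op
      have s1 : Sm i.C.U _ := (i.aV.c2 a b).contDiffOn
      have hM : 0 ≤ i.C.M ^ 1 := by have := i.C.hM; positivity
      refine (Pr.base (C := i.C) (v' := fun _ => 0) (H ⟨i, hW, hb, hc⟩).s1 (s1.pd hU l)
        contDiffOn_const (H ⟨i, hW, hb, hc⟩).b1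
        (((hb a b l).2.dl hR i.hκ).le (pw_wl hR _ _) ?_) ((Bd.zero _).le (pw_wl hR _ _) hM)
        (by simpa using (hb a b l).2)).congr
        (fun y hy => (fd_add hU (i.reg.p0 a b) s1 hy _).symm) fun y hy => ?_
      · rw [← mul_assoc]
        refine mul_le_of_le_one_left hM ?_
        rw [div_mul_eq_mul_div, div_le_one hR, mul_comm]; exact hc
      · change pd l (fun y => P0 i.d y a b) y + 0 = pd l (fun y => (mk i.d i.W).2 y a b) y
        rw [hW, mk_zero, add_zero]⟩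
  obtain ⟨N, H⟩ := PF.fin fun j : Fin 3 × Fin 3 × Fin 3 =>
    (BH.kof1 (fun a b => (bh1 a b).comap g) h1 j.1 j.2.1).2 j.2.2
  refine ⟨N, fun i hW hb hc a b l => (H ⟨i, hW, hb, hc⟩ (a, b, l)).df.congr i.C.D fun y hy => ?_⟩
  have hU := i.C.D.op
  have s1 : SmM i.C.U (mk i.d i.V).1.h := fun i' j => (i.reg.sh i' j).add (i.aV.c1 i' j).contDiffOn
  change pd l (fun y => Kof ((mk i.d i.V).1.h y) ((mk i.d i.V).2 y) a b) y -
    pd l (fun y => Kof ((mk i.d i.W).1.h y) ((mk i.d i.W).2 y) a b) y = _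
  rw [hW, mk_zero]
  refine (fd_sub hU (s1.kof (mk_P i.reg i.aV) a b) (i.reg.sh.kof i.reg.p0 a b) hy _).symm.trans
    (pd_congr hU (fun z hz => ?_) hy l)
  simp [mk]

theorem Nm.pred (hR : 0 < R) (h : Nm R s (k + 1) κ V c) : Nm R s k κ V c := fun i j =>
  ⟨(h i j).1.pred (pw_wT hR), fun l => ((h i j).2.1 l).pred (pw_wT hR), (h i j).2.2.pred (pw_wT hR)⟩

theorem pw_R (hR : 0 < R) (n : ℕ) : Pw R fun t => R / t ^ n := fun t ht => by
  have := hR.trans_le ht; positivity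

theorem Sc.pred (hR : 0 < R) (H : Sc m N0 R s (k + 1) L δ d) :
    Sc (fun _ => m (k + 1)) N0 R s k L δ d :=
  ⟨H.hL, H.h1, H.h2, ⟨fun i j => ⟨(H.hb.1 i j).1.pred pw1, fun l =>
    ((H.hb.1 i j).2.1 l).pred (pw_R hR 2), (H.hb.1 i j).2.2.pred (pw_R hR 2)⟩, H.hb.2.pred pw1⟩,
    H.eh.pred (pw_R hR 4), fun b => (H.em b).pred (pw_R hR 4), H.sm⟩

theorem Bd.sU (hR : 0 < R) {f : X → ℝ} (h : Bd R s (wS κ R) k f c) : Bd R s (wU κ R) k f c :=
  h.wt1 fun t ht => by
    have h0 := hR.trans_le ht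
    refine mul_le_mul_of_nonneg_left ?_ (om_pos _ _ _).le
    rw [div_le_div_iff₀ (by positivity) (by positivity)]
    nlinarith [mul_le_mul_of_nonneg_right ht (pow_pos h0 3).le]

/-- The sources at the fixed point. -/
theorem Uc.src (u : Uc A m N N0) (B : Bg R U S d) (H : Sc m N0 R s k L δ d) (hV : Adm S V)
    (nV : Nm R s k (L ^ N0) V (2 * δ)) :
    Bd R s (wS (L ^ N0) R) k (S.indicator (gH d V)) (3 * δ * L ^ N) ∧
      ∀ b, Bd R s (wS (L ^ N0) R) k (S.indicator (gM d V b)) (3 * δ * L ^ N) := by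
  have hR := B.D.pos
  have hU := B.D.op
  have hδ := H.eh.nonneg
  have E := u.es B H le_rfl hV (adm_zero S) nV (nm_zero hR (by positivity)) (c := 2 * δ)
    (by rw [sub_zero]; exact nV)
  obtain ⟨a1, a2⟩ := B.src hV E.n1
  have hκ : 0 ≤ L ^ N0 := zero_le_one.trans (H.one N0)
  have h1 : 2 * δ * L ^ N + δ ≤ 3 * δ * L ^ N := by nlinarith [H.one N]
  refine ⟨(((wd20 hR ▸ E.phi.d0).add B.D (E.phi.s1.sub E.phi.s2) (B.reg.eh hU)
      (H.eh.toS hR hκ)).congr B.D fun y hy => ?_).le (pw_wS hR) h1, fun b =>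
    (((wd20 hR ▸ (E.xi b).d0).neg.sub B.D ((E.xi b).s1.sub (E.xi b).s2).neg (B.reg.em hU b)
      ((H.em b).toS hR hκ)).congr B.D fun y hy => ?_).le (pw_wS hR) h1⟩
  · simp [a1.eq hy, gH, ix, mk_zero]
  · simp [(a2 b).eq hy, gM, ix, mk_zero]

end Vale.Agent.P354XC
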