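import Vale.Agent.P354XC.Bd

/-! Block C: Cartesian derivatives from the fields Z, and series. -/

open scoped ContDiff
open Set Filter Topology

noncomputable section

namespace Vale.Agent.P354XC

open Vale.Agent.P354I (X Dat ee pd)

variable {R : ℝ} {U : Set X} {s s' : ℝ × ℝ} {W W' : ℝ → ℝ} {k : ℕ} {f g : X → ℝ} {c c' : ℝ}

theorem vec_co (v : X) : v = ∑ i, v i • ee i := by
  ext j
  simp [ee, Fin.sum_univ_three]
  fin_cases j <;> simp

theorem fd_coord (f : X → ℝ) (x v : X) : fderiv ℝ f x v = ∑ i, v i * pd i f x := by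
  conv_lhs => rw [vec_co v]
  simp [pd, map_sum]

theorem ee_co (i j : Fin 3) : ee i j = if j = i then 1 else 0 := by
  simp [ee]

/-- The part of U where x0 is positive. -/
def Up (U : Set X) : Set X := U ∩ {x | 0 < x 0}

theorem Dm.up (D : Dm R U) : Dm R (Up U) :=
  ⟨D.pos, D.op.inter (isOpen_lt continuous_const (cd_co 0).continuous),
    fun _ hx => ⟨D.sub hx, D.pos.trans_le hx.1⟩⟩

theorem Sm.up (hf : Sm U f) : Sm (Up U) f := hf.mono inter_subset_left

theorem sm_co (i : Fin 3) : Sm U fun x : X => x i := (cd_co i).contDiffOn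

theorem sm_inv0 : Sm (Up U) fun x : X => (x 0)⁻¹ := (sm_co 0).inv fun _ hx => hx.2.ne'

theorem dm_univ (hR : 0 < R) : Dm R univ := ⟨hR, isOpen_univ, subset_univ _⟩

theorem vf_co0 (i : Fin 3) (x : X) : vf s i x 0 = if i = 0 then s.1 * x 0 else 0 := by
  unfold vf
  by_cases h : i = 0
  · simp [h]
  · simp [h, ee_co, Ne.symm h]

theorem bd_inv0 (hR : 0 < R) : ∀ k : ℕ,
    Bd R s (fun t => 1 / t) k (fun x => (x 0)⁻¹) ((1 + |s.1|) ^ k)
  | 0 => ⟨by simp, fun x hx => by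
      rw [abs_of_pos (inv_pos.2 (hR.trans_le hx.1))]; simp⟩
  | k + 1 => by
    have D := (dm_univ hR).up
    refine ⟨(1 + |s.1|) ^ k, fun i => |if i = 0 then -s.1 else 0| * (1 + |s.1|) ^ k, ?_,
      bd_inv0 hR k, fun i => ((bd_inv0 hR k).cmul _).congr D fun x hx => ?_⟩
    · simp [Fin.sum_univ_three, pow_succ]; ring_nf; rfl
    · have h0 : x 0 ≠ 0 := hx.2.ne'
      simp only [Z]
      rw [fd_inv D.op (sm_co 0) hx h0, fd_co, vf_co0]
      split_ifs
      · field_simp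
      · simp

theorem gam_co {x : X} (hx : x ∈ Gam R) (hR : 0 < R) (A : Fin 3) : |x A| ≤ x 0 := by
  fin_cases A
  · exact (abs_of_pos (hR.trans_le hx.1)).le
  · exact hx.2.1
  · exact hx.2.2

theorem bd_ratio (hR : 0 < R) (A : Fin 3) (hA : A ≠ 0) : ∀ k : ℕ,
    Bd R s (fun _ => 1) k (fun x => x A * (x 0)⁻¹) (1 + k * |s.2|)
  | 0 => ⟨by simp, fun x hx => by
      have h0 := hR.trans_le hx.1
      rw [abs_mul, abs_of_pos (inv_pos.2 h0), ← div_eq_mul_inv, div_le_iff₀ h0]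
      simpa using gam_co hx hR A⟩
  | k + 1 => by
    have D := (dm_univ hR).up
    refine ⟨1 + k * |s.2|, fun i => |if i = A then s.2 else 0|, ?_,
      bd_ratio hR A hA k, fun i => (Bd.const _ k).congr D fun x hx => ?_⟩
    · have : ∑ i : Fin 3, |if i = A then s.2 else 0| = |s.2| := by
        rw [Finset.sum_eq_single A] <;> simp +contextual
      rw [this]; push_cast; linarith
    · have h0 : x 0 ≠ 0 := hx.2.ne'
      simp only [Z]
      rw [fd_mul D.op (sm_co A) sm_inv0 hx, fd_inv D.op (sm_co 0) hx h0, fd_co, fd_co, vf_co0]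
      unfold vf
      by_cases hi : i = 0
      · simp only [hi, if_true, (Ne.symm hA), if_false, PiLp.smul_apply, smul_eq_mul]
        field_simp; ring
      · simp only [hi, if_false, PiLp.smul_apply, smul_eq_mul, ee_co]
        by_cases hj : i = A
        · simp [hj]; field_simp
        · simp [hj, Ne.symm hj]

theorem Z_tan {A : Fin 3} (hA : A ≠ 0) (f : X → ℝ) (x : X) :
    Z s A f x = s.2 * x 0 * pd A f x := by
  simp [Z, vf, hA, pd]

theorem Z_rad (f : X → ℝ) (x : X) : Z s 0 f x = s.1 * ∑ i, x i * pd i f x := by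
  simp only [Z, vf, if_true, map_smul, smul_eq_mul]
  rw [fd_coord]

/-- Tangential derivatives. -/
theorem Bd.pdA (D : Dm R U) (hW : Pw R W) (hf : Sm U f) (h : Bd R s W (k + 1) f c)
    (hs : 0 < s.2) {A : Fin 3} (hA : A ≠ 0) :
    Bd R s (fun t => 1 / t * W t) k (pd A f) ((1 + |s.1|) ^ k * c / s.2) := by
  have h1 := (((bd_inv0 D.pos k).mul D.up sm_inv0 (hf.up.Z D.up.op A) (h.z hW A)).cmul
    s.2⁻¹).congr D.up (g := pd A f) fun x hx => by
      have h0 : x 0 ≠ 0 := hx.2.ne'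
      simp only [Z_tan hA]; field_simp
  rwa [abs_of_pos (inv_pos.2 hs), mul_comm, ← div_eq_mul_inv] at h1

theorem pw_div (hR : 0 < R) (hW : Pw R W) : Pw R fun t => 1 / t * W t := fun t ht =>
  mul_nonneg (by have := hR.trans_le ht; positivity) (hW t ht)

/-- All Cartesian derivatives at a positive scale. -/
theorem bd_pd (k : ℕ) (h1 : 0 < s.1) (h2 : 0 < s.2) : ∃ C : ℝ, 0 ≤ C ∧ ∀ {R : ℝ} {U : Set X}
    {W : ℝ → ℝ} {f : X → ℝ} {c : ℝ}, Dm R U → Pw R W → Sm U f → Bd R s W (k + 1) f c → ∀ i,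
      Bd R s (fun t => 1 / t * W t) k (pd i f) (C * c) := by
  refine ⟨(1 + |s.1|) ^ k * (s.1⁻¹ + 2 * ((1 + k * |s.2|) * s.2⁻¹)), by positivity, ?_⟩
  intro R U W f c D hW hf h i
  have hc := h.nonneg
  have hA : ∀ A, A ≠ 0 → Bd R s (fun t => 1 / t * W t) k (pd A f) _ := fun A hA =>
    h.pdA D hW hf h2 hA
  have hp : 0 ≤ (1 + |s.1|) ^ k * c := by positivity
  by_cases hi : i = 0
  · subst hi
    have D' := D.up
    have hr : ∀ A : Fin 3, Sm (Up U) fun x : X => x A * (x 0)⁻¹ := fun A => (sm_co A).mul sm_inv0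
    have hd : ∀ A : Fin 3, Sm (Up U) (pd A f) := fun A => hf.up.pd D'.op A
    have e0 := ((bd_inv0 D.pos k).mul D' sm_inv0 (hf.up.Z D'.op 0) (h.z hW 0)).cmul s.1⁻¹
    have e1 := (bd_ratio D.pos 1 (by decide) k).mul1 D' (hr 1) (hd 1) (hA 1 (by decide))
    have e2 := (bd_ratio D.pos 2 (by decide) k).mul1 D' (hr 2) (hd 2) (hA 2 (by decide))
    refine ((e0.sub D' (contDiffOn_const.mul (sm_inv0.mul (hf.up.Z D'.op 0)))
      (((hr 1).mul (hd 1)).add ((hr 2).mul (hd 2)))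
      (e1.add D' ((hr 1).mul (hd 1)) ((hr 2).mul (hd 2)) e2)).congr D' fun x hx => ?_).le
        (pw_div D.pos hW) (le_of_eq ?_)
    · have h0 : x 0 ≠ 0 := hx.2.ne'
      simp only [Z_rad, Fin.sum_univ_three]; field_simp; ring
    · rw [abs_of_pos (inv_pos.2 h1)]; ring
  · refine (hA i hi).le (pw_div D.pos hW) ?_
    have : 0 ≤ (k : ℝ) * |s.2| := by positivity
    have h3 : 0 ≤ s.1⁻¹ := by positivity
    have h4 : 0 ≤ s.2⁻¹ := by positivity
    rw [div_eq_mul_inv, mul_right_comm _ _ c]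
    refine mul_le_mul_of_nonneg_left ?_ hp
    nlinarith [mul_nonneg this h4]

/-! ### Functions which vanish outside the cone -/

def Vn (R : ℝ) (f : X → ℝ) : Prop := ∀ x ∉ Gam R, f x = 0

theorem gam_closed (R : ℝ) : IsClosed (Gam R) :=
  (isClosed_le continuous_const (cd_co 0).continuous).inter
    ((isClosed_le (cd_co 1).continuous.abs (cd_co 0).continuous).inter
      (isClosed_le (cd_co 2).continuous.abs (cd_co 0).continuous))

theorem Vn.ev (h : Vn R f) {x : X} (hx : x ∉ Gam R) : f =ᶠ[𝓝 x] fun _ => 0 := by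
  filter_upwards [(gam_closed R).isOpen_compl.mem_nhds hx] with y hy using h y hy

theorem Vn.fd (h : Vn R f) (v : X → X) : Vn R fun x => fderiv ℝ f x (v x) := fun x hx => by
  simp [(h.ev hx).fderiv_eq]

theorem Vn.cd (D : Dm R U) (h : Vn R f) (hf : Sm U f) : ContDiff ℝ ∞ f := by
  refine contDiff_iff_contDiffAt.2 fun x => ?_
  by_cases hx : x ∈ Gam R
  · exact hf.contDiffAt (D.op.mem_nhds (D.sub hx))
  · exact contDiffAt_const.congr_of_eventuallyEq (h.ev hx)

/-- Series which converge with all derivatives. -/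
def SS (R : ℝ) (f : ℕ → X → ℝ) : Prop :=
  (∀ n, ContDiff ℝ ∞ (f n) ∧ Vn R (f n)) ∧ ∀ k, ∃ μ > 0, ∃ c : ℕ → ℝ, Summable c ∧
    ∀ n, Bd R (μ, μ) (fun _ => 1) k (f n) (c n)

variable {F : ℕ → X → ℝ}

theorem SS.pd (hR : 0 < R) (h : SS R F) (i : Fin 3) : SS R fun n => pd i (F n) := by
  refine ⟨fun n => ⟨contDiffOn_univ.1 (Sm.pd isOpen_univ (h.1 n).1.contDiffOn i),
    (h.1 n).2.fd _⟩, fun k => ?_⟩
  obtain ⟨μ, hμ, c, hc, hb⟩ := h.2 (k + 1)
  obtain ⟨C, -, hC⟩ := bd_pd (s := (μ, μ)) k hμ hμ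
  refine ⟨μ, hμ, fun n => 1 / R * (C * c n), (hc.mul_left _).mul_left _, fun n =>
    (hC (dm_univ hR) pw1 (h.1 n).1.contDiffOn (hb n) i).wt (by positivity) fun t ht => ?_⟩
  simpa using inv_anti₀ hR ht

theorem SS.Z (h : SS R F) (s : ℝ × ℝ) (i : Fin 3) : SS R fun n => Z s i (F n) := by
  refine ⟨fun n => ⟨contDiffOn_univ.1 (Sm.Z isOpen_univ (h.1 n).1.contDiffOn i),
    (h.1 n).2.fd _⟩, fun k => ?_⟩
  obtain ⟨μ, hμ, c, hc, hb⟩ := h.2 (k + 1)
  refine ⟨μ, hμ, fun n => |(if i = 0 then s.1 else s.2) / μ| * c n, hc.mul_left _, fun n => ?_⟩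
  beta_reduce
  rw [Z_ratio (s := (μ, μ)) (s' := s) (r := (if i = 0 then s.1 else s.2) / μ) i
    ⟨fun h => by simp [h, hμ.ne'], fun h => by simp [h, hμ.ne']⟩]
  exact ((hb n).z pw1 i).cmul _

theorem SS.bound (h : SS R F) : ∃ c : ℕ → ℝ, Summable c ∧ ∀ n x, |F n x| ≤ c n := by
  obtain ⟨μ, -, c, hc, hb⟩ := h.2 0
  refine ⟨c, hc, fun n x => ?_⟩
  by_cases hx : x ∈ Gam R
  · simpa using (hb n).2 x hx
  · simpa [(h.1 n).2 x hx] using (hb n).1

theorem SS.summable (h : SS R F) (x : X) : Summable fun n => F n x := by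
  obtain ⟨c, hc, hb⟩ := h.bound
  exact Summable.of_norm_bounded hc fun n => hb n x

theorem norm_fd_le (f : X → ℝ) (x : X) : ‖fderiv ℝ f x‖ ≤ ∑ i, |pd i f x| := by
  refine ContinuousLinearMap.opNorm_le_bound _ (by positivity) fun v => ?_
  rw [fd_coord, Finset.sum_mul]
  refine (norm_sum_le _ _).trans (Finset.sum_le_sum fun i _ => ?_)
  rw [norm_mul, mul_comm]
  exact mul_le_mul_of_nonneg_left (PiLp.norm_apply_le v i) (abs_nonneg _)

theorem SS.hasFD (hR : 0 < R) (h : SS R F) (x : X) :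
    DifferentiableAt ℝ (fun y => ∑' n, F n y) x ∧
      ∀ v, fderiv ℝ (fun y => ∑' n, F n y) x v = ∑' n, fderiv ℝ (F n) x v := by
  choose c hc hb using fun i => (h.pd hR i).bound
  have hu : Summable fun n => ∑ i, c i n := summable_sum fun i _ => hc i
  have hb' : ∀ n x, ‖fderiv ℝ (F n) x‖ ≤ ∑ i, c i n := fun n x =>
    (norm_fd_le _ _).trans (Finset.sum_le_sum fun i _ => hb i n x)
  have h1 := hasFDerivAt_tsum hu (fun n x => ((h.1 n).1.differentiable (by simp) x).hasFDerivAt)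
    hb' (h.summable x) x
  refine ⟨h1.differentiableAt, fun v => ?_⟩
  rw [h1.fderiv]
  exact (ContinuousLinearMap.apply ℝ ℝ v).map_tsum (Summable.of_norm_bounded hu fun n => hb' n x)

theorem SS.pd_tsum (hR : 0 < R) (h : SS R F) (i : Fin 3) :
    P354I.pd i (fun y => ∑' n, F n y) = fun x => ∑' n, P354I.pd i (F n) x :=
  funext fun x => (h.hasFD hR x).2 _

theorem SS.cdn (hR : 0 < R) : ∀ (n : ℕ) {F : ℕ → X → ℝ}, SS R F →
    ContDiff ℝ n fun y => ∑' n, F n y
  | 0, _, h => contDiff_zero.2 (continuous_iff_continuousAt.2 fun x =>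
      (h.hasFD hR x).1.continuousAt)
  | n + 1, F, h => by
    rw [Nat.cast_succ, contDiff_succ_iff_fderiv_apply]
    refine ⟨fun x => (h.hasFD hR x).1, by simp, fun v => ?_⟩
    simp only [fd_coord, h.pd_tsum hR]
    exact ContDiff.sum fun i _ => contDiff_const.mul (SS.cdn hR n (h.pd hR i))

theorem SS.cd (hR : 0 < R) (h : SS R F) : ContDiff ℝ ∞ fun y => ∑' n, F n y :=
  contDiff_infty.2 fun n => SS.cdn hR n h

theorem SS.vn (h : SS R F) : Vn R fun y => ∑' n, F n y := fun x hx => by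
  simp [fun n => (h.1 n).2 x hx]

theorem SS.bd (hR : 0 < R) : ∀ {k : ℕ} {F : ℕ → X → ℝ} {c : ℕ → ℝ}, SS R F → Summable c →
    (∀ n, Bd R s W k (F n) (c n)) → Bd R s W k (fun y => ∑' n, F n y) (∑' n, c n)
  | 0, F, c, h, hc, hb => ⟨tsum_nonneg fun n => (hb n).1, fun x hx => by
      rw [← tsum_mul_right]
      exact tsum_of_norm_bounded (f := fun n => F n x) (hc.mul_right (W (x 0))).hasSum
        fun n => (hb n).2 x hx⟩
  | k + 1, F, c, h, hc, hb => by
    choose c0 ci h1 h0 hi using hb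
    have hn : ∀ n, 0 ≤ ∑ i, ci n i := fun n => Finset.sum_nonneg fun i _ => (hi n i).nonneg
    have s0 : Summable c0 := hc.of_nonneg_of_le (fun n => (h0 n).nonneg) fun n => by
      linarith [hn n, h1 n]
    have si : ∀ i, Summable fun n => ci n i := fun i =>
      hc.of_nonneg_of_le (fun n => (hi n i).nonneg) fun n => by
        have : ci n i ≤ ∑ j, ci n j :=
          Finset.single_le_sum (fun j _ => (hi n j).nonneg) (Finset.mem_univ i)
        linarith [(h0 n).nonneg, h1 n]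
    refine ⟨∑' n, c0 n, fun i => ∑' n, ci n i, ?_, SS.bd hR h s0 h0, fun i => ?_⟩
    · rw [← Summable.tsum_finsetSum fun i _ => si i,
        ← s0.tsum_add (summable_sum fun i _ => si i)]
      exact (s0.add (summable_sum fun i _ => si i)).tsum_le_tsum h1 hc
    · have e : P354XC.Z s i (fun y => ∑' n, F n y) = fun x => ∑' n, P354XC.Z s i (F n) x :=
        funext fun x => (h.hasFD hR x).2 _
      rw [e]
      exact SS.bd hR (h.Z s i) (si i) fun n => hi n i

end Vale.Agent.P354XC
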