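import Vale.Agent.P354XP.Defs

/-!
TAIL: a kick which solves the constraints approximately in the cone chart is corrected to an
element of the space of data. Exact statement.
-/

open scoped ContDiff
open Set

noncomputable section

namespace Vale.Agent.P354XC

open Vale.Agent.P354I (X Dat Cyl)
open Vale.Agent.P354J (M3)
open Vale.Agent.P354XS (DA qm)
open Vale.Agent.P354XP (Lam)

/-- The jets of order at most k of f are at most c on V. -/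
def Jb (k : ℕ) (V : Set X) (f : X → ℝ) (c : ℝ) : Prop :=
  ∀ j ≤ k, ∀ x ∈ V, ‖iteratedFDeriv ℝ j f x‖ ≤ c

/-- The data d plus the kick (u, v). -/
def kick (d : Dat) (u v : X → M3) : Dat := ⟨fun x => d.h x + u x, fun x => d.K x + v x⟩

/-- Jets of order k + 1 of u and of order k of v. -/
def Ju (k : ℕ) (V : Set X) (u v : X → M3) (c : ℝ) : Prop :=
  ∀ i j, Jb (k + 1) V (fun x => u x i j) c ∧ Jb k V (fun x => v x i j) c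

/-- Jets of order k of the defects. -/
def Jd (k : ℕ) (V : Set X) (d : Dat) (c : ℝ) : Prop :=
  Jb k V (Ham d) c ∧ ∀ j, Jb k V (Mom d j) c

/-- The chart and the kick. -/
structure Kk (B : ℕ → ℝ) (σ : Bool) (ρ : ℝ) (Ψ Θ : X → X) (S : Set X) (u v : X → M3) : Prop where
  cyl : Cyl B Ψ Θ
  nrm : ∀ x, ‖Ψ x‖ = ‖Lam σ x‖
  far : ∀ x, 10 * ρ ≤ ‖x‖ → Ψ x = Lam σ x
  cone : Cone (ρ / 2) S
  sm : ∀ i j, ContDiffOn ℝ ∞ (fun x => u x i j) {0}ᶜ ∧ ContDiffOn ℝ ∞ (fun x => v x i j) {0}ᶜ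
  sy : ∀ x, (u x).IsSymm ∧ (v x).IsSymm
  z : ∀ x, x ∉ S ∨ 10 * ρ ≤ ‖x‖ → u x = 0 ∧ v x = 0

/-- TAIL. -/
def TAIL : Prop :=
  ∀ (B : ℕ → ℝ) (M a : ℝ), |a| < M → ∀ d : DA M a, ∃ (N : ℕ → ℕ) (ρ0 : ℝ),
    ∀ (σ : Bool) (ρ : ℝ) (Ψ Θ : X → X) (S : Set X) (u v : X → M3), ρ0 ≤ ρ →
      Kk B σ ρ Ψ Θ S u v → Ju 0 S u v (1 / ρ ^ 3) →
      Jd 0 S (kick (d.1.pull Ψ) u v) (1 / ρ ^ 3) →
      ∃ d' : DA M a, (∀ y ≠ 0, Θ y ∉ S → d'.1.h y = d.1.h y ∧ d'.1.K y = d.1.K y) ∧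
        ∀ (k : ℕ) (Λ δ : ℝ), ρ ≤ Λ → 0 < δ → δ ≤ 1 / ρ ^ 3 → Ju k S u v Λ →
          Jd k S (kick (d.1.pull Ψ) u v) δ →
          Ju k {0}ᶜ (fun x => (d'.1.pull Ψ).h x - (kick (d.1.pull Ψ) u v).h x)
            (fun x => (d'.1.pull Ψ).K x - (kick (d.1.pull Ψ) u v).K x) (δ * Λ ^ N k) ∧
          ∀ ε, Ju k S u v ε → qm k d'.1 d.1 ≤ ENNReal.ofReal ((ε + δ) * Λ ^ N k)

end Vale.Agent.P354XC
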