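import Vale.Agent.P354XC.Tail3

/-!
TAIL.
-/

open scoped ContDiff
open Set Filter Topology Matrix

noncomputable section

namespace Vale.Agent.P354XC

open Vale.Agent.P354I (X Dat ee pd Con)
open Vale.Agent.P354J (PDy M3)
open Vale.Agent.P354XP (Fr Fn D cst pr hh kk ad lf Fit App)
open Vale.Agent.P354XS (wq wi qm)

variable {P : Type} {F F' : Fr P X} {ρ lam A s b : P → ℝ} {p d1 : P → Dat} {c : ℝ}
  {C : ℕ → ℝ} {u v : Fin 3 → Fin 3 → Fn P X} {k : ℕ} {l : Filter P} {S : P → Set X}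

/-- The setting. -/
structure Sg (l : Filter P) (ρ : P → ℝ) (p : P → Dat) (c : ℝ) (C : ℕ → ℝ) (S : P → Set X)
    (u v : Fin 3 → Fin 3 → Fn P X) : Prop where
  bk : Bk l ρ p c C
  hρ : Tendsto ρ l atTop
  sy : ∀ i j, u i j = u j i ∧ v i j = v j i
  ev : ∀ᶠ r in l, Cone (ρ r / 2) (S r) ∧
    ∀ i j x, x ∉ S r ∨ 9 * ρ r ≤ ‖x‖ → u i j r x = 0 ∧ v i j r x = 0

theorem fit_nn (f0 : Fit F l ρ lam A s) {f : Fn P X} (h : F.T k (pr b) f) : ∀ᶠ r in l, 0 ≤ b r := by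
  filter_upwards [f0.hl ▸ h.b0.nn] with r h
  refine h (|ρ r / 2| • ee 0) ?_
  rw [f0.hV]
  simp only [Gam, mem_ofPred_eq, PiLp.smul_apply, ee_co, smul_eq_mul]
  simpa using le_abs_self _

theorem sm_pt (f0 : Fit F l ρ lam A s) {f : Fn P X} (h : F.T k (pr b) f)
    (hb : ∀ᶠ r in l, b r ≤ A r * lam r) {ε : ℝ} (hε : 0 < ε) :
    ∀ᶠ r in l, ∀ x ∈ Gam (ρ r / 2), |f r x| ≤ ε := by
  obtain ⟨n, hn⟩ := h.b0
  filter_upwards [f0.hl ▸ hn, Fit.tiny' f0 n hε hb] with r hn h x hx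
  exact (hn x (by rw [f0.hV]; exact hx)).trans h

theorem app_le (f0 : Fit F l ρ lam A s) (ap : App F k A s p u v) :
    (∀ᶠ r in l, A r ≤ A r * lam r) ∧ ∀ᶠ r in l, s r ≤ A r * lam r := by
  have h : ∀ᶠ r in l, A r ≤ A r * lam r := by
    filter_upwards [fit_nn f0 (ap.1 0 0).1, f0.ev] with r h o using le_mul_of_one_le_right h o.2.1
  exact ⟨h, by filter_upwards [h, f0.ev] with r h o using o.2.2.trans h⟩

namespace Sg

variable (st : Sg l ρ p c C S u v) (f0 : Fit F l ρ lam A s)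
include st

theorem r9 : ∀ᶠ r in l, 9 ≤ ρ r := st.hρ.eventually_ge_atTop 9

include f0

theorem gd (ap : App F k A s p u v) : ∀ᶠ r in l, Gd ρ p c C S u v r := by
  have sm : ∀ {f : Fn P X}, F.Sm f → ∀ᶠ r in l, Sm {0}ᶜ (f r) := fun h => by
    rwa [Fr.Sm, f0.hU, f0.hl] at h
  filter_upwards [st.bk.ev, st.r9, st.ev,
    eventually_all.2 fun i => eventually_all.2 fun j => (sm (ap.1 i j).1.sm).and (sm (ap.1 i j).2.sm),
    eventually_all.2 fun i => eventually_all.2 fun j => sm_pt f0 (ap.1 i j).1 (app_le f0 ap).1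
      (show 0 < c / 12 by linarith [st.bk.c0])] with r h1 h2 h3 h4 h5
  exact ⟨⟨st.bk.c0, eventually_pure.2 h1⟩, h2, h3.1, h3.2, h4, fun x hx i j => h5 i j x hx, st.sy⟩

theorem mu_le {ε : ℝ} (hε : 0 < ε) : ∀ᶠ r in l, 0 < mu F lam r ∧ mu F lam r ≤ ε := by
  filter_upwards [st.hρ.eventually_ge_atTop ε⁻¹, st.r9, f0.ev] with r h h9 o
  have h1 : 0 < lam r * F.G r ^ 2 := by
    have : 0 < F.G r := by linarith [o.1]
    have := o.2.1
    positivity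
  refine ⟨inv_pos.2 h1, (inv_le_comm₀ h1 hε).2 ?_⟩
  nlinarith [o.1, o.2.1, sq_nonneg (F.G r)]

theorem fr (G : P → ℝ) (hG : ∀ᶠ r in l, 2 ≤ G r) :
    ∃ F' : Fr P X, Fq F' (hf ρ) (mu F lam) ∧ F'.l = l ∧ F'.G = G :=
  ⟨_, fq_mk (by
    filter_upwards [st.mu_le f0 one_pos, st.r9] with r h h9
    exact ⟨by simp only [hf]; linarith, h⟩) hG, rfl, rfl⟩

theorem lw {n : ℕ} (hn : n ≤ 4) : ∀ᶠ r in l, Lw (ρ r) (F.G r) (wR ρ n r) := by
  filter_upwards [st.r9, f0.ev] with r h o using lw_R h o.1 hn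

theorem cl (ap : App F k A s p u v) (q : Fq F' (hf ρ) (mu F lam)) (hl : F'.l = l) :
    Cl F' ρ k (hh (ad p u v)) (kk (ad p u v)) ∧ Nz F' (ad p u v) := by
  have g := st.gd f0 ap
  have fo := fo_of g
  have le := app_le f0 ap
  refine ⟨((hl ▸ st.bk : Bk F'.l ρ p c C).cl q k).ad q fun i j => ⟨tr_sm f0 q hl st.r9
    (ap.1 i j).1.pred (fo.1 i j).1 le.1 ?_, fun e => tr_sm (b := fun r => A r * lam r) f0 q hl st.r9
    (f0.he ▸ ((ap.1 i j).1.d e).wt (by rw [f0.hc]; rfl)) ((fo.1 i j).1.dd e)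
    (.of_forall fun _ => le_rfl) (st.lw f0 (by omega)), tr_sm f0 q hl st.r9 (ap.1 i j).2
    (fo.1 i j).2 le.1 (st.lw f0 (by omega))⟩, nz_of q (hl ▸ g)⟩
  filter_upwards [st.r9, f0.ev] with r h o using lw_one h o.1

theorem hyp (ap : App F k A s p u v) : ∃ n0 n : ℕ, ∀ᶠ r in l,
    HL (hf ρ r) (mu F lam r, mu F lam r) k (2 ^ (n0 + 1)) (ad p u v r) ∧
      HD (hf ρ r) (mu F lam r, mu F lam r) k (F.G r ^ n * s r) (ad p u v r) := by
  obtain ⟨F2, q2, l2, G2⟩ := st.fr f0 (fun _ => 2) (.of_forall fun _ => le_rfl)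
  obtain ⟨F3, q3, l3, G3⟩ := st.fr f0 F.G (f0.hl ▸ F.ok.mono fun _ o => o.2.2.1)
  have fo := fo_of (st.gd f0 ap)
  have c2 := st.cl f0 ap q2 l2
  have c3 := st.cl f0 ap q3 l3
  obtain ⟨n0, h1⟩ := ((tendsto_add_atTop_nat 1).eventually (c2.1.hl q2 c2.2)).exists
  obtain ⟨n, h2⟩ := (c3.1.hd q3 c3.2 (l3 ▸ fit_nn f0 ap.2.1)
    (tr_eq f0 q3 l3 G3 st.r9 ap.2.1 fo.2.1 (st.lw f0 le_rfl))
    fun e => tr_eq f0 q3 l3 G3 st.r9 (ap.2.2 e) (fo.2.2 e) (st.lw f0 le_rfl)).exists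
  rw [l2, G2] at h1
  rw [l3, G3] at h2
  exact ⟨n0, n, h1.and h2⟩

/-- The bounds for the correction. -/
theorem out (ap : App F k A s p u v) {N : ℕ} {m : ℝ} (hm : 0 < m)
    (h : ∀ᶠ r in l, Reg {0}ᶜ (d1 r) ∧
      (∀ y ∉ S r, (d1 r).h y = (ad p u v r).h y ∧ (d1 r).K y = (ad p u v r).K y) ∧
      ∀ (t : ℝ × ℝ) L δ, t.1 ∈ Icc 0 m → t.2 ∈ Icc 0 m → Hyp N (hf ρ r) t k L δ (ad p u v r) →
        Out (hf ρ r) t k (δ * Real.exp (L ^ N)) (ad p u v r) (d1 r)) :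
    (∀ i j, F.T k (pr s) (hh d1 i j - hh (ad p u v) i j) ∧
      F.T k (pr s) (kk d1 i j - kk (ad p u v) i j)) ∧
    ∃ n : ℕ, ∀ᶠ r in l, qm k (d1 r) (p r) ≤ ENNReal.ofReal ((lam r * F.G r) ^ n * A r) := by
  obtain ⟨n0, n, hy⟩ := st.hyp f0 ap
  obtain ⟨F3, q, l3, G3⟩ := st.fr f0 F.G (f0.hl ▸ F.ok.mono fun _ o => o.2.2.1)
  obtain ⟨e, he⟩ := pow_unbounded_of_one_lt (Real.exp ((2 ^ (n0 + 1)) ^ N)) (one_lt_two (α := ℝ))
  have g := st.gd f0 ap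
  have fo := fo_of g
  have le := app_le f0 ap
  have s0 := fit_nn f0 ap.2.1
  have A0 := fit_nn f0 (ap.1 0 0).1
  have t := out_t (a := s) (d := ad p u v) (d1 := d1) (k := k) q (n + e) (by
    rw [l3, G3]
    filter_upwards [hy, h, g, s0, st.mu_le f0 hm, Fit.tiny' f0 (n + e) one_pos le.2,
      f0.hl ▸ F.ok] with r hy h g s0 hμ h1 o
    have g2 := o.2.2.1
    have R0 : 1 ≤ hf ρ r := by simp only [hf]; linarith [g.r9]
    have h2 : F.G r ^ n * s r * Real.exp ((2 ^ (n0 + 1)) ^ N) ≤ F.G r ^ (n + e) * s r := by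
      rw [pow_add (F.G r), mul_right_comm]
      gcongr
      exact he.le.trans (pow_le_pow_left₀ (by norm_num) g2 e)
    have o := h.2.2 (mu F lam r, mu F lam r) _ _ ⟨hμ.1.le, hμ.2⟩ ⟨hμ.1.le, hμ.2⟩
      ⟨le_self_pow₀ one_le_two (by omega), h2.trans (h1.trans R0), hy.1.1, hy.1.2, hy.2.1, hy.2.2⟩
    have R1 : 0 < hf ρ r := by linarith
    exact ⟨s0, g.reg, h.1, fun i j => ⟨(o i j).1.le (by simpa using pw_one R1 1) h2,
      fun b => ((o i j).2.1 b).le (pw_one R1 2) h2, (o i j).2.2.le (pw_one R1 2) h2⟩⟩)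
  have back : ∀ {W : ℝ → ℝ} {f : Fn P X}, (∀ t, 1 ≤ t → 0 ≤ W t ∧ W t ≤ 1) →
      F3.T k (pr s * ww fun _ => W) f → F.T k (pr s) f := fun hW h => by
    refine (Fr.T.sub_fr (F' := F) (π := id) (by rw [l3, f0.hl]; exact tendsto_id)
      (f0.he.trans q.he.symm) 2 ?_ h).mono (Fr.B0.of_le ?_)
    · rw [f0.hl]
      filter_upwards [st.r9, f0.ev, f0.hl ▸ F.ok] with r h9 o o'
      refine ⟨by rw [f0.hU, q.hU], by rw [f0.hV, q.hV]; exact subset_rfl, ?_, fun i x hx => ?_⟩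
      · rw [G3]; exact le_self_pow₀ (one_le_two.trans o'.2.2.1) two_ne_zero
      · rw [f0.hV] at hx
        have h0 : 1 ≤ x 0 := by linarith [hx.1]
        have := o.2.1
        simp only [q.hc, f0.hc, pr, mu, id, mul_inv, inv_inv]
        rw [mul_comm (F.G r ^ 2)]
        exact mul_le_of_le_one_right (by positivity) (inv_le_one_of_one_le₀ h0)
    · rw [f0.hl]
      filter_upwards [st.r9, s0] with r h9 s0 x hx
      rw [f0.hV] at hx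
      have h0 := hW (x 0) (by linarith [hx.1])
      simp only [Function.comp, id, Pi.mul_apply, pr, ww]
      rw [abs_of_nonneg (mul_nonneg s0 h0.1)]
      exact mul_le_of_le_one_right s0 h0.2
  have up : ∀ {W : ℝ → ℝ} {f : Fn P X}, (∀ t, 1 ≤ t → 0 ≤ W t ∧ W t ≤ 1) →
      F3.T k (pr s * ww fun _ => W) f → F3.T k (pr A * ww fun _ => W) f := fun hW h => by
    refine h.mono (Fr.B0.of_le ?_)
    rw [l3]
    filter_upwards [st.r9, s0, f0.ev] with r h9 s0 o x hx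
    rw [q.hV] at hx
    have h0 := hW (x 0) (by have := hx.1; simp only [hf] at this; linarith)
    simp only [Pi.mul_apply, pr, ww]
    rw [abs_of_nonneg (mul_nonneg s0 h0.1)]
    exact mul_le_mul_of_nonneg_right o.2.2 h0.1
  have w1 : ∀ t : ℝ, 1 ≤ t → 0 ≤ 1 / t ∧ 1 / t ≤ 1 := fun t ht =>
    ⟨by positivity, (div_le_one (by linarith)).2 ht⟩
  have w2 : ∀ t : ℝ, 1 ≤ t → 0 ≤ 1 / t ^ 2 ∧ 1 / t ^ 2 ≤ 1 := fun t ht =>
    ⟨by positivity, (div_le_one (by positivity)).2 (one_le_pow₀ ht)⟩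
  refine ⟨fun i j => ⟨back w1 (t i j).1, back w2 (t i j).2⟩, ?_⟩
  obtain ⟨n1, hn⟩ := qm_of (a := A) (d1 := d1) (p := p) (k := k) q (fun i j =>
    ⟨((up w1 (t i j).1).add (tr_eq f0 q l3 G3 st.r9 ((ap.1 i j).1.pred) (fo.1 i j).1 (by
      filter_upwards [st.r9, f0.ev] with r h o using lw_inv h o.1))).cast (hh_ad i j).1,
    ((up w2 (t i j).2).add (tr_eq f0 q l3 G3 st.r9 (ap.1 i j).2 (fo.1 i j).2 (by
      filter_upwards [st.r9, f0.ev] with r h o using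
        lw_div h o.1 le_rfl (show 2 ≤ 4 by omega)))).cast (hh_ad i j).2⟩) (by
    rw [l3]
    filter_upwards [A0, g, h] with r A0 g h
    exact ⟨A0, fun y hy => g.near h.2.1 fun hs => hy (g.cone.2.1 hs)⟩)
  refine ⟨n1 + 2 * k, ?_⟩
  rw [l3, G3] at hn
  filter_upwards [hn, A0, f0.ev, f0.hl ▸ F.ok] with r hn A0 o o'
  refine hn.trans (ENNReal.ofReal_le_ofReal ?_)
  have g2 := o'.2.2.1
  have h1 := o.2.1
  rw [mu, inv_pow, div_inv_eq_mul, mul_right_comm, pow_add, pow_mul]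
  gcongr
  · exact le_mul_of_one_le_left (by linarith) h1
  · rw [mul_pow]; gcongr; nlinarith

end Sg

/-- **TAIL.** -/
theorem tail (bg : P354XP.BG) : P354XP.TAIL := by
  intro M a ha d B P l σ ρ Ψ Θ S u v hρ sy ev ⟨F0, lam0, A0, s0, f0, ap0⟩
  obtain ⟨ρ0, c, c0, C, hb⟩ := bg M a ha d B
  obtain ⟨N, m, hm, cor⟩ := corr2
  set p : P → Dat := fun r => d.1.pull (Ψ r)
  have st : Sg l ρ p c C S u v := ⟨⟨c0, by
    filter_upwards [ev, hρ.eventually_ge_atTop ρ0] with r e h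
    exact ⟨P354PU.pdy_pull e.1.1 d.2.1, P354PU.con_pull e.1.1 d.2.1 d.2.2.1,
      hb _ _ _ _ h e.1⟩⟩, hρ, sy, ev.mono fun _ e => e.2⟩
  obtain ⟨n0, n, hy⟩ := st.hyp f0 ap0
  have g := st.gd f0 ap0
  have all : ∀ᶠ r in l, ∀ k, ∀ ε > 0, ∃ μ ∈ Ioc 0 (min ε 1),
      Hyp N (hf ρ r) (μ, μ) k (2 ^ (n0 + 1) + 1) 2 (ad p u v r) := by
    filter_upwards [hy, g, Fit.tiny' f0 n one_pos (app_le f0 ap0).2,
      hρ.eventually_ge_atTop (4 * Real.exp ((2 ^ (n0 + 1) + 1) ^ N))] with r hy g h1 h2 k ε hε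
    exact g.hyp hy.1 hy.2 h1 (one_le_pow₀ one_le_two) (by simp only [hf]; linarith) k hε
  have ex : ∀ r, ∃ e : Dat, Gd ρ p c C S u v r → (∀ k, ∃ μ > 0, ∃ L δ,
      Hyp N (hf ρ r) (μ, μ) k L δ (ad p u v r)) → Reg {0}ᶜ e ∧
      (∀ y ∉ S r, e.h y = (ad p u v r).h y ∧ e.K y = (ad p u v r).K y) ∧
      (∀ y ∈ ({0}ᶜ : Set X), Ham e y = 0 ∧ ∀ j, Mom e j y = 0) ∧
      ∀ k (t : ℝ × ℝ) L δ, t.1 ∈ Icc 0 (m k) → t.2 ∈ Icc 0 (m k) →
        Hyp N (hf ρ r) t k L δ (ad p u v r) →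
        Out (hf ρ r) t k (δ * Real.exp (L ^ N)) (ad p u v r) e := fun r => by
    by_cases h : Gd ρ p c C S u v r ∧ ∀ k, ∃ μ > 0, ∃ L δ,
        Hyp N (hf ρ r) (μ, μ) k L δ (ad p u v r)
    · have R0 : 0 < hf ρ r := by simp only [hf]; linarith [h.1.r9]
      obtain ⟨e, h1, h2, h3, h4⟩ := cor _ _ _ _ R0 isOpen_compl_singleton (dm0 R0).sub h.1.cone
        h.1.reg (fun y hy hs => h.1.off0 (Or.inl hs) hy) h.2
      exact ⟨e, fun _ _ => ⟨h1, h2, h3, fun k t L δ a b e => (h4 k t L δ a b e).1⟩⟩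
    · exact ⟨d.1, fun a b => (h ⟨a, b⟩).elim⟩
  choose d1 h1 using ex
  have h2 := (g.and all).mono fun r h => h1 r h.1 fun k =>
    let ⟨μ, a, b⟩ := h.2 k 1 one_pos
    ⟨μ, a.1, _, _, b⟩
  have key : ∀ F lam A s k, Fit F l ρ lam A s → App F k A s p u v → _ := fun F lam A s k f ap =>
    st.out f ap (hm k) (h2.mono fun _ h => ⟨h.1, h.2.1, h.2.2.2 k⟩)
  refine ⟨d1, ?_, key⟩
  filter_upwards [g, all, h2, eventually_all.2 fun i => eventually_all.2 fun j =>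
    sm_pt f0 ((key _ _ _ _ _ f0 ap0).1 i j).1 (app_le f0 ap0).2
      (show 0 < c / 12 by linarith)] with r g all h sm
  refine ⟨⟨h.1.1, fun y hy => ⟨?_, (h.1.2 y hy).2.1⟩⟩, fun y hy => h.2.2.1 y hy, fun x hx =>
    ⟨(g.near h.2.1 hx).1.eq_of_nhds, (g.near h.2.1 hx).2.eq_of_nhds⟩, fun k => ?_⟩
  · by_cases hs : y ∈ S r
    · have hx := g.cone.2.1 hs
      refine (pos_near c0 (g.low hx) (h.1.2 y hy).1 fun i j => ?_).1
      have a1 := abs_le.1 (sm i j y hx)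
      have a2 := abs_le.1 (g.sm y hx i j)
      simp only [Pi.sub_apply, hh, ad, Matrix.add_apply, of_apply] at a1
      exact abs_le.2 ⟨by linarith [a1.1, a2.1], by linarith [a1.2, a2.2]⟩
    · rw [(g.near h.2.1 hs).1.eq_of_nhds]; exact (g.pdy.2 y hy).1
  · obtain ⟨μ, a, b⟩ := all k _ (hm k)
    have a1 : μ ∈ Icc 0 (m k) := ⟨a.1.le, a.2.trans (min_le_left _ _)⟩
    exact g.top a.1 (a.2.trans (min_le_right _ _)) h.1 h.2.1 (h.2.2.2 k (μ, μ) _ _ a1 a1 b)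

end Vale.Agent.P354XC
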