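import Vale.Agent.P354XC.Conv
import Vale.Agent.P354KU.Push
import Vale.Agent.P354XQ.Top
import Vale.Agent.P354T.Baire
import Vale.Agent.P354M2.Hb

/-!
TAIL, part 1: the hypotheses of the correction in a frame on the cone.
-/

open scoped ContDiff
open Set Filter Topology Matrix

noncomputable section

namespace Vale.Agent.P354XC

open Vale.Agent.P354I (X Dat ee pd Con)
open Vale.Agent.P354J (PDy M3)
open Vale.Agent.P354XP (Fr Fn D cst pr hh kk ad lf)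
open Vale.Agent.P354XS (wq wi qm)
open Vale.Agent.P354T (qf)

variable {P : Type}

theorem det_ge {H : M3} (hs : H.PosDef) {c : ℝ} (hc : 0 ≤ c)
    (h : ∀ v, c * ∑ i, v i ^ 2 ≤ qf H v) : c ^ 3 ≤ H.det := by
  have k : ∀ i, c ≤ hs.1.eigenvalues i := fun i => by
    have h1 := h (hs.1.eigenvectorBasis i)
    rw [← EuclideanSpace.real_norm_sq_eq, hs.1.eigenvectorBasis.orthonormal.1 i,
      ← P354T.qf_eq] at h1
    rw [hs.1.eigenvalues_eq]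
    simpa using h1
  rw [hs.1.det_eq_prod_eigenvalues, Fin.prod_univ_three]
  calc c ^ 3 = c * c * c := by ring
    _ ≤ _ := mul_le_mul (mul_le_mul (k 0) (k 1) hc (hc.trans (k 0))) (k 2) hc
        (mul_nonneg (hc.trans (k 0)) (hc.trans (k 1)))

theorem pos_near {H H' : M3} {c : ℝ} (hc : 0 < c) (h : ∀ v, c * (v ⬝ᵥ v) ≤ v ⬝ᵥ H *ᵥ v)
    (hs : H'.IsSymm) (hE : ∀ i j, |H' i j - H i j| ≤ c / 6) :
    H'.PosDef ∧ (c / 2) ^ 3 ≤ H'.det := by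
  have k : ∀ v, c / 2 * ∑ i, v i ^ 2 ≤ qf H' v := fun v => by
    have h1 := P354T.qf_close (t := 1) zero_le_one (by simpa using hE) v
    have h2 := h v
    have h3 : v ⬝ᵥ v = ∑ i, v i ^ 2 := by simp [dotProduct, sq]
    have h4 := P354T.qf_eq H v
    rw [star_trivial] at h4
    rw [h3, h4] at h2
    linarith
  have hp : H'.PosDef := P354T.posDef_of hs fun v hv => lt_of_lt_of_le (mul_pos (by linarith) (by
    obtain ⟨i, hi⟩ := Function.ne_iff.1 hv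
    exact Finset.sum_pos' (fun _ _ => sq_nonneg _) ⟨i, Finset.mem_univ _, pow_pos_of hi⟩)) (k v)
  exact ⟨hp, det_ge hp (by linarith) k⟩
where pow_pos_of {a : ℝ} (h : a ≠ 0) : 0 < a ^ 2 := by positivity

theorem gam_nrm {R : ℝ} {x : X} (hR : 0 < R) (hx : x ∈ Gam R) : x 0 ≤ ‖x‖ ∧ ‖x‖ ≤ 2 * x 0 := by
  have h0 := hR.trans_le hx.1
  have e := EuclideanSpace.real_norm_sq_eq x
  rw [Fin.sum_univ_three] at e
  have h1 := sq_le_sq' (abs_le.1 hx.2.1).1 (abs_le.1 hx.2.1).2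
  have h2 := sq_le_sq' (abs_le.1 hx.2.2).1 (abs_le.1 hx.2.2).2
  exact ⟨abs_le_of_sq_le_sq' (by nlinarith) (norm_nonneg _) |>.2,
    abs_le_of_sq_le_sq' (by nlinarith) (by linarith) |>.2⟩

theorem con_loc {d d' : Dat} {y : X} (h : Con d) (hy : y ≠ 0) (h1 : d'.h =ᶠ[𝓝 y] d.h)
    (h2 : d'.K =ᶠ[𝓝 y] d.K) : Ham d' y = 0 ∧ ∀ j, Mom d' j y = 0 := by
  obtain ⟨a1, a2, a3, a4⟩ := P354KU.loc h1 h2
  rw [Ham, a1, a2.eq_of_nhds, a3]
  exact ⟨(h y hy).1, fun j => by rw [Mom, a4, pd, a2.fderiv_eq]; exact (h y hy).2 j⟩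

theorem nrm_ee (i : Fin 3) : ‖ee i‖ ≤ 1 := by simp [ee]

variable {F : Fr P X} {R μ : P → ℝ}

/-- Bounds from the norms of the iterated derivatives. -/
theorem Fq.of_hb (q : Fq F R μ) {s f : Fn P X} (hf : F.Sm f) (C : ℕ → ℝ)
    (h : ∀ᶠ r in F.l, ∀ x ∈ Gam (R r), 0 ≤ s r x ∧
      ∀ j, x 0 ^ j * ‖iteratedFDeriv ℝ j (f r) x‖ ≤ C j * s r x) (k : ℕ) : F.T k s f := by
  refine Fr.T.of_ifd (fun i => q.he ▸ nrm_ee i) q.hc hf fun j _ => ?_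
  obtain ⟨n, hn⟩ := pow_unbounded_of_one_lt (C j) (one_lt_two (α := ℝ))
  refine ⟨n, ?_⟩
  filter_upwards [h, q.ev, F.ok] with r h o o' x hx
  rw [q.hV] at hx
  have h0 : 0 < x 0 := by linarith [hx.1]
  have h1 := (h x hx).1
  have h2 : C j ≤ F.G r ^ n := hn.le.trans (pow_le_pow_left₀ (by norm_num) o'.2.2.1 n)
  have h3 : (x 0)⁻¹ ≤ (μ r * x 0)⁻¹ :=
    inv_anti₀ (mul_pos o.2.1 h0) (mul_le_of_le_one_left h0.le o.2.2)
  have h4 : 0 ≤ F.G r ^ n := pow_nonneg (by linarith [o'.2.2.1]) n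
  simp only [abs_norm, Pi.mul_apply, Pi.pow_apply]
  calc _ = x 0 ^ j * ‖iteratedFDeriv ℝ j (f r) x‖ * (x 0)⁻¹ ^ j := by
        rw [inv_pow]; field_simp
    _ ≤ F.G r ^ n * s r x * (μ r * x 0)⁻¹ ^ j :=
        mul_le_mul (((h x hx).2 j).trans (mul_le_mul_of_nonneg_right h2 h1))
          (pow_le_pow_left₀ (by positivity) h3 j) (by positivity) (by positivity)
    _ = _ := by ring

/-- The seminorms from the bounds. -/
theorem Fq.wq (q : Fq F R μ) {a : P → ℝ} {f : Fn P X} {w : X → ℝ} {W : ℝ → ℝ} {k : ℕ}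
    (hw : ∀ y : X, y ∈ Gam 1 → 0 ≤ w y ∧ w y * ‖y‖ ^ 2 * W (y 0) ≤ 4)
    (h : F.T k (pr a * ww fun _ => W) f)
    (h0 : ∀ᶠ r in F.l, 0 ≤ a r ∧ ∀ y ∉ Gam (R r), f r =ᶠ[𝓝 y] fun _ => 0) :
    ∃ n : ℕ, ∀ᶠ r in F.l, wq w k (f r) ≤ ENNReal.ofReal (F.G r ^ n * a r / μ r ^ k) := by
  have key : ∀ j : Fin (k + 1), _ := fun j =>
    Fr.T.ifd (p := fun i => (EuclideanSpace.proj i : X →L[ℝ] ℝ))
      (fun v => by rw [q.he]; exact vec_co v)
      (fun i => ContinuousLinearMap.opNorm_le_bound _ zero_le_one fun v => by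
        simpa using PiLp.norm_apply_le v i) q.hc (h.low (Nat.lt_succ_iff.1 j.2))
  choose n hn using key
  refine ⟨k + (∑ j, n j + (2 + k)), ?_⟩
  filter_upwards [eventually_all.2 hn, h0, q.ev, F.ok] with r hn h0 o o'
  have g := o'.2.2.1
  have a0 := h0.1
  have m0 := o.2.1
  refine (P354XQ.wq_le_of (η := F.G r ^ (∑ j, n j + (2 + k)) * a r / μ r ^ k)
    fun j hj y _ => ?_).trans (ENNReal.ofReal_le_ofReal ?_)
  · by_cases hy : y ∈ Gam (R r)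
    · have y1 : y ∈ Gam 1 := ⟨o.1.trans hy.1, hy.2⟩
      have y0 : 0 < y 0 := by linarith [y1.1]
      have h1 := hn ⟨j, by omega⟩ y (by rw [q.hV]; exact hy)
      have h2 := (gam_nrm one_pos y1).2
      have h3 := hw y y1
      have h5 := pow_up g (Finset.single_le_sum (f := n) (fun _ _ => Nat.zero_le _)
        (Finset.mem_univ ⟨j, by omega⟩))
      have h6 : (2 : ℝ) ^ (2 + j) ≤ F.G r ^ (2 + k) :=
        (pow_le_pow_left₀ (by norm_num) g _).trans (pow_up g (by omega))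
      have h7 : μ r ^ k ≤ μ r ^ j := pow_le_pow_of_le_one m0.le o.2.2 hj
      simp only [abs_norm, Pi.mul_apply, Pi.pow_apply, pr, ww] at h1
      have w0 := h3.1
      calc _ ≤ w y * (‖y‖ ^ 2 * (2 * y 0) ^ j) *
            (F.G r ^ n ⟨j, by omega⟩ * (a r * W (y 0) * (μ r * y 0)⁻¹ ^ j)) := by
            rw [pow_add]; gcongr
        _ = w y * ‖y‖ ^ 2 * W (y 0) * (2 ^ j * F.G r ^ n ⟨j, by omega⟩ * a r / μ r ^ j) := by
            rw [inv_pow, mul_pow, mul_pow]; field_simp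
        _ ≤ 4 * (2 ^ j * F.G r ^ n ⟨j, by omega⟩ * a r / μ r ^ j) := by gcongr; exact h3.2
        _ = F.G r ^ n ⟨j, by omega⟩ * 2 ^ (2 + j) * a r / μ r ^ j := by ring
        _ ≤ _ := by rw [pow_add (F.G r)]; gcongr
    · rw [((h0.2 y hy).iteratedFDeriv ℝ j).eq_of_nhds]
      simp only [iteratedFDeriv_fun_zero, Pi.zero_apply, norm_zero, mul_zero]
      positivity
  · have : (k : ℝ) + 1 ≤ F.G r ^ k := le_trans (by exact_mod_cast Nat.lt_two_pow_self)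
      (pow_le_pow_left₀ (by norm_num) g k)
    rw [pow_add (F.G r) k, mul_assoc, mul_div_assoc (F.G r ^ k)]
    gcongr

theorem hw1 (y : X) (hy : y ∈ Gam 1) : 0 ≤ wi y ∧ wi y * ‖y‖ ^ 2 * (1 / y 0) ≤ 4 := by
  have h := gam_nrm one_pos hy
  have y0 : 0 < y 0 := by linarith [hy.1]
  have n0 : 0 < ‖y‖ := by linarith [h.1]
  have h1 : wi y ≤ ‖y‖⁻¹ := inv_anti₀ n0 (le_add_of_nonneg_right (by positivity))
  refine ⟨by unfold wi; positivity, ?_⟩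
  calc _ ≤ ‖y‖⁻¹ * ‖y‖ ^ 2 * (1 / y 0) := by gcongr
    _ = ‖y‖ / y 0 := by field_simp
    _ ≤ 4 := by rw [div_le_iff₀ y0]; linarith [h.2]

theorem hw2 (y : X) (hy : y ∈ Gam 1) :
    0 ≤ (1 : X → ℝ) y ∧ (1 : X → ℝ) y * ‖y‖ ^ 2 * (1 / y 0 ^ 2) ≤ 4 := by
  have h := gam_nrm one_pos hy
  have y0 : 0 < y 0 := by linarith [hy.1]
  refine ⟨zero_le_one, ?_⟩
  rw [Pi.one_apply, one_mul, mul_one_div, div_le_iff₀ (by positivity)]
  nlinarith [h.2, norm_nonneg y]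

/-- The background. -/
structure Bk (l : Filter P) (ρ : P → ℝ) (p : P → Dat) (c : ℝ) (C : ℕ → ℝ) : Prop where
  c0 : 0 < c
  ev : ∀ᶠ r in l, PDy (p r) ∧ Con (p r) ∧ ∀ x : X, ρ r / 4 ≤ ‖x‖ →
      (∀ v : Fin 3 → ℝ, c * (v ⬝ᵥ v) ≤ v ⬝ᵥ (p r).h x *ᵥ v) ∧
      c ≤ ((p r).h x).det ∧ ∀ k i j,
        ‖x‖ ^ k * ‖iteratedFDeriv ℝ k (fun y => (p r).h y i j) x‖ ≤ C k ∧
        ‖x‖ ^ (k + 2) * ‖iteratedFDeriv ℝ (k + 1) (fun y => (p r).h y i j) x‖ ≤ C k * ρ r ∧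
        ‖x‖ ^ (k + 2) * ‖iteratedFDeriv ℝ k (fun y => (p r).K y i j) x‖ ≤ C k * ρ r

/-- Half of the radius, and the weights. -/
def hf (ρ : P → ℝ) : P → ℝ := fun r => ρ r / 2
def wR (ρ : P → ℝ) (n : ℕ) : Fn P X := ww fun r t => hf ρ r / t ^ n

variable {ρ : P → ℝ} {p : P → Dat} {c : ℝ} {C : ℕ → ℝ} {u v : Fin 3 → Fin 3 → Fn P X}

/-- The classes of a pair. -/
def Cl (F : Fr P X) (ρ : P → ℝ) (k : ℕ) (u v : Fin 3 → Fin 3 → Fn P X) : Prop :=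
  ∀ i j, F.T k 1 (u i j) ∧ (∀ l, F.T k (wR ρ 2) (D ee l (u i j))) ∧ F.T k (wR ρ 2) (v i j)

theorem Bk.cl (b : Bk F.l ρ p c C) (q : Fq F (hf ρ) μ) (k : ℕ) : Cl F ρ k (hh p) (kk p) := by
  intro i j
  have s1 : F.Sm (hh p i j) := q.sm.2 (b.ev.mono fun r h => (h.1.1 i j).1)
  have s2 : F.Sm (kk p i j) := q.sm.2 (b.ev.mono fun r h => (h.1.1 i j).2)
  have key : ∀ {r : P} {x : X} {a e : ℝ} (k : ℕ), 1 ≤ hf ρ r → x ∈ Gam (hf ρ r) → 0 ≤ a →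
      ‖x‖ ^ (k + 2) * a ≤ e * ρ r → x 0 ^ k * a ≤ 2 * e * wR ρ 2 r x := by
    intro r x a e k o hx a0 h
    have h0 : 0 < x 0 := by linarith [hx.1]
    have h1 := (gam_nrm (by linarith) hx).1
    have h2 : x 0 ^ (k + 2) * a ≤ e * ρ r := le_trans (by gcongr) h
    simp only [wR, ww, hf]
    rw [← mul_div_assoc, le_div_iff₀ (by positivity)]
    refine le_trans (le_of_eq (by ring)) (h2.trans_eq (by ring))
  have hx4 : ∀ {r : P} {x : X}, 1 ≤ hf ρ r → x ∈ Gam (hf ρ r) → ρ r / 4 ≤ ‖x‖ := by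
    intro r x o hx
    have := (gam_nrm (by linarith) hx).1
    have := hx.1
    simp only [hf] at *
    linarith
  have w0 : ∀ {r : P} {x : X}, 1 ≤ hf ρ r → 0 ≤ wR ρ 2 r x := fun o => by
    simp only [wR, ww]; exact div_nonneg (by linarith) (sq_nonneg _)
  refine ⟨q.of_hb s1 C ?_ k, fun l => q.of_hb (q.he ▸ s1.d l) (fun j => 2 * C j) ?_ k,
    q.of_hb s2 (fun j => 2 * C j) ?_ k⟩
  · filter_upwards [b.ev, q.ev] with r h o x hx
    have h0 : 0 < x 0 := by linarith [hx.1]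
    have h1 := (gam_nrm (by linarith) hx).1
    refine ⟨zero_le_one, fun k => le_trans (by gcongr; exact le_rfl)
      (((h.2.2 x (hx4 o.1 hx)).2.2 k i j).1.trans_eq (mul_one _).symm)⟩
  · filter_upwards [b.ev, q.ev] with r h o x hx
    refine ⟨w0 o.1, fun k => key k o.1 hx (norm_nonneg _) (le_trans ?_
      ((h.2.2 x (hx4 o.1 hx)).2.2 k i j).2.1)⟩
    refine mul_le_mul_of_nonneg_left ((Fr.ifd_d (P354M2.at0 (h.1.1 i j).1
      ((dm0 (by linarith [o.1])).sub hx)) _ k).trans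
      (mul_le_of_le_one_left (norm_nonneg _) (nrm_ee l))) (by positivity)
  · filter_upwards [b.ev, q.ev] with r h o x hx
    exact ⟨w0 o.1, fun k => key k o.1 hx (norm_nonneg _) ((h.2.2 x (hx4 o.1 hx)).2.2 k i j).2.2⟩

theorem Cl.ad {k : ℕ} (q : Fq F (hf ρ) μ) (h : Cl F ρ k (hh p) (kk p)) (h' : Cl F ρ k u v) :
    Cl F ρ k (hh (ad p u v)) (kk (ad p u v)) := fun i j =>
  ⟨(h i j).1.add (h' i j).1, fun l => (((h i j).2.1 l).add ((h' i j).2.1 l)).congr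
    (q.he ▸ Fr.d_add (h i j).1.sm (h' i j).1.sm l),
    (h i j).2.2.add (h' i j).2.2⟩

end Vale.Agent.P354XC
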