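import Vale.Agent.P354XC.Tail1

/-!
TAIL, part 2: transfer between the frames.
-/

open scoped ContDiff
open Set Filter Topology Matrix

noncomputable section

namespace Vale.Agent.P354XC

open Vale.Agent.P354I (X Dat ee pd Con)
open Vale.Agent.P354J (PDy M3)
open Vale.Agent.P354XP (Fr Fn D cst pr hh kk ad lf Fit App)

variable {P : Type} {F F' : Fr P X} {R μ ρ lam A s a : P → ℝ} {p d : P → Dat} {c : ℝ}
  {C : ℕ → ℝ} {u v : Fin 3 → Fin 3 → Fn P X} {k : ℕ} {l : Filter P} {S : P → Set X}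

/-- The two halves of the hypotheses. -/
def HL (R : ℝ) (s : ℝ × ℝ) (k : ℕ) (L : ℝ) (d : Dat) : Prop :=
  (∀ i j, Bd R s (fun _ => 1) k (fun y => d.h y i j) L ∧
      (∀ l, Bd R s (fun t => R / t ^ 2) k (pd l fun y => d.h y i j) L) ∧
      Bd R s (fun t => R / t ^ 2) k (fun y => d.K y i j) L) ∧
    Bd R s (fun _ => 1) k (fun y => (d.h y).det⁻¹) L
def HD (R : ℝ) (s : ℝ × ℝ) (k : ℕ) (δ : ℝ) (d : Dat) : Prop :=
  Bd R s (fun t => R / t ^ 4) k (EH d) δ ∧ ∀ b, Bd R s (fun t => R / t ^ 4) k (EM d b) δ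

theorem Fq.bd1 (q : Fq F R μ) {W : P → ℝ → ℝ} {f : Fn P X} (h : F.T k (ww W) f) :
    ∀ᶠ n in atTop, ∀ᶠ r in F.l, Bd (R r) (μ r, μ r) (W r) k (f r) (F.G r ^ n) := by
  obtain ⟨n, hn⟩ := q.bd h
  filter_upwards [eventually_ge_atTop n] with m hm
  filter_upwards [hn, q.pw h.b0, F.ok] with r hn hW o using hn.le hW (pow_up o.2.2.1 hm)

theorem Fq.bda (q : Fq F R μ) {W : P → ℝ → ℝ} {f : Fn P X} (h : F.T k (pr a * ww W) f)
    (ha : ∀ᶠ r in F.l, 0 ≤ a r) :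
    ∀ᶠ n in atTop, ∀ᶠ r in F.l, Bd (R r) (μ r, μ r) (W r) k (f r) (F.G r ^ n * a r) := by
  filter_upwards [q.bd1 (W := fun r t => a r * W r t) h] with n hn
  filter_upwards [hn, ha] with r hn ha
  rw [mul_comm]; exact hn.wt ha fun _ _ => le_rfl

/-- The determinant is bounded below. -/
def Nz (F : Fr P X) (d : P → Dat) : Prop :=
  (F.Ev fun r x => ((d r).h x).det ≠ 0) ∧ F.B0 1 (fun r x => ((d r).h x).det)⁻¹

theorem t_det (h : ∀ i j, F.T k 1 (hh d i j)) : F.T k 1 fun r x => ((d r).h x).det :=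
  ((((((((h 0 0).mul1 (h 1 1)).mul1 (h 2 2)).sub (((h 0 0).mul1 (h 1 2)).mul1 (h 2 1))).sub
    (((h 0 1).mul1 (h 1 0)).mul1 (h 2 2))).add (((h 0 1).mul1 (h 1 2)).mul1 (h 2 0))).add
    (((h 0 2).mul1 (h 1 0)).mul1 (h 2 1))).sub (((h 0 2).mul1 (h 1 1)).mul1 (h 2 0))).cast
    (by funext r x; exact (det_fin_three _).symm)

theorem t_inv (h : ∀ i j, F.T k 1 (hh d i j)) (z : Nz F d) (i j : Fin 3) :
    F.T k 1 fun r x => ((d r).h x)⁻¹ i j :=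
  ((Fr.T.inv z.1 z.2 (t_det h)).mul1 (((h (j + 1) (i + 1)).mul1 (h (j + 2) (i + 2))).sub
    ((h (j + 1) (i + 2)).mul1 (h (j + 2) (i + 1))))).cast (by
      funext r x
      rw [inv_def, Ring.inverse_eq_inv', Matrix.smul_apply, P354XP.Tri.adj3, smul_eq_mul]; rfl)

theorem Cl.hl (q : Fq F (hf ρ) μ) (h : Cl F ρ k (hh d) (kk d)) (z : Nz F d) :
    ∀ᶠ n in atTop, ∀ᶠ r in F.l, HL (hf ρ r) (μ r, μ r) k (F.G r ^ n) (d r) := by
  filter_upwards [eventually_all.2 fun i => eventually_all.2 fun j =>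
      q.bd1 (W := fun _ _ => 1) (h i j).1,
    eventually_all.2 fun i => eventually_all.2 fun j => eventually_all.2 fun l =>
      q.bd1 ((h i j).2.1 l),
    eventually_all.2 fun i => eventually_all.2 fun j => q.bd1 (h i j).2.2,
    q.bd1 (W := fun _ _ => 1) (Fr.T.inv z.1 z.2 (t_det fun i j => (h i j).1))] with n h1 h2 h3 h4
  filter_upwards [eventually_all.2 fun i => eventually_all.2 (h1 i),
    eventually_all.2 fun i => eventually_all.2 fun j => eventually_all.2 (h2 i j),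
    eventually_all.2 fun i => eventually_all.2 (h3 i), h4] with r h1 h2 h3 h4
  exact ⟨fun i j => ⟨h1 i j, h2 i j, h3 i j⟩, h4⟩

theorem Cl.hd (q : Fq F (hf ρ) μ) (h : Cl F ρ k (hh d) (kk d)) (z : Nz F d)
    (ha : ∀ᶠ r in F.l, 0 ≤ a r) (h1 : F.T k (pr a * wR ρ 4) (lf Ham d))
    (h2 : ∀ b, F.T k (pr a * wR ρ 4) (lf (fun d => Mom d b) d)) :
    ∀ᶠ n in atTop, ∀ᶠ r in F.l, HD (hf ρ r) (μ r, μ r) k (F.G r ^ n * a r) (d r) := by
  filter_upwards [q.bda ((t_det fun i j => (h i j).1).mul1 h1) ha, eventually_all.2 fun b =>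
    q.bda (Fr.T.fsum fun j => (t_inv (fun i j => (h i j).1) z b j).mul1 (h2 j)) ha] with n h1 h2
  filter_upwards [h1, eventually_all.2 h2] with r h1 h2 using ⟨h1, h2⟩

/-- A lower bound for a weight on the support of the kick. -/
def Lw (ρ g : ℝ) (s : X → ℝ) : Prop :=
  ∀ x ∈ Gam (ρ / 2), 0 ≤ s x ∧ (‖x‖ ≤ 9 * ρ → 1 ≤ g ^ 8 * s x)

theorem lw_div {ρ g b : ℝ} {n : ℕ} (h1 : 9 ≤ ρ) (h2 : ρ ≤ g) (hb : 1 ≤ b) (hn : n ≤ 4) :
    Lw ρ g fun x => b / x 0 ^ n := fun x hx => by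
  have h0 : 1 ≤ x 0 := by linarith [hx.1]
  refine ⟨by positivity, fun h => ?_⟩
  have h3 : x 0 ≤ g ^ 2 := by nlinarith [(gam_nrm (by linarith) hx).1]
  rw [← mul_div_assoc, le_div_iff₀ (by positivity), one_mul]
  calc x 0 ^ n ≤ x 0 ^ 4 := pow_le_pow_right₀ h0 hn
    _ ≤ (g ^ 2) ^ 4 := by gcongr
    _ = g ^ 8 * 1 := by ring
    _ ≤ _ := by gcongr

theorem lw_one {ρ g : ℝ} (h1 : 9 ≤ ρ) (h2 : ρ ≤ g) : Lw ρ g fun _ => 1 := by
  simpa using lw_div (b := 1) (n := 0) h1 h2 le_rfl (by omega)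

theorem lw_inv {ρ g : ℝ} (h1 : 9 ≤ ρ) (h2 : ρ ≤ g) : Lw ρ g fun x => 1 / x 0 := by
  simpa using lw_div (b := 1) (n := 1) h1 h2 le_rfl (by omega)

/-- The frame with the base G and the scale μ. -/
def mkF (l : Filter P) (R μ G : P → ℝ) (h : ∀ᶠ r in l, 1 ≤ R r ∧ 0 < μ r ∧ μ r ≤ 1)
    (hG : ∀ᶠ r in l, 2 ≤ G r) : Fr P X where
  l := l
  e := ee
  U _ := {0}ᶜ
  V r := Gam (R r)
  G := G
  c _ r x := (μ r * x 0)⁻¹
  ok := by
    filter_upwards [h, hG] with r h g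
    refine ⟨isOpen_compl_singleton, (dm0 (by linarith [h.1])).sub, g, fun _ x hx => ?_⟩
    have : 0 < x 0 := by linarith [hx.1, h.1]
    have := h.2.1
    positivity

theorem fq_mk {G : P → ℝ} (h : ∀ᶠ r in l, 1 ≤ R r ∧ 0 < μ r ∧ μ r ≤ 1)
    (hG : ∀ᶠ r in l, 2 ≤ G r) : Fq (mkF l R μ G h hG) R μ := ⟨rfl, rfl, rfl, fun _ => rfl, h⟩

/-- The scale of a frame with the cost lam. -/
def mu (F : Fr P X) (lam : P → ℝ) (r : P) : ℝ := (lam r * F.G r ^ 2)⁻¹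

/-- The function vanishes far out. -/
def Fo (l : Filter P) (ρ : P → ℝ) (f : Fn P X) : Prop :=
  ∀ᶠ r in l, ∀ x : X, 9 * ρ r < ‖x‖ → f r =ᶠ[𝓝 x] fun _ => 0

theorem Fo.dd {f : Fn P X} (h : Fo l ρ f) (i : Fin 3) : Fo l ρ (D ee i f) := by
  filter_upwards [h] with r h x hx
  filter_upwards [(h x hx).fderiv (𝕜 := ℝ)] with y hy
  simp [D, hy]

theorem tr_in (f0 : Fit F l ρ lam A s) (q : Fq F' (hf ρ) (mu F lam)) (hl : F'.l = l)
    (hρ : ∀ᶠ r in l, 9 ≤ ρ r) {s1 s' f : Fn P X} (h : F.T k s1 f) (h0 : Fo l ρ f)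
    (cmp : Fr.Cmp F F' id (fun r => {x | ‖x‖ ≤ 9 * ρ r}) s1 s') : F'.T k s' f := by
  have e := f0.hl
  subst e
  refine ⟨q.sm.2 (by have := h.sm; rwa [Fr.Sm, f0.hU, ← hl] at this),
    h.b.tr (π := id) (by rw [hl]; exact tendsto_id) (q.he.trans f0.he.symm) (fun i => ⟨0, ?_⟩)
    cmp ?_⟩
  · rw [hl]
    filter_upwards [hρ, f0.ev] with r h1 h2 x hx hw
    rw [q.hV] at hx
    have h0 : 0 < x 0 := by have := hx.1; simp only [hf] at this; linarith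
    have h3 : x 0 ≤ F.G r ^ 2 := by
      nlinarith [(gam_nrm (by simp only [hf]; linarith) hx).1, show ‖x‖ ≤ 9 * ρ r from hw]
    have h4 : 0 < lam r := by linarith
    simp only [f0.hc, q.hc, pr, mu, pow_zero, one_mul, id, mul_inv, inv_inv]
    rw [← div_eq_mul_inv, le_div_iff₀ h0]; gcongr
  · rw [Fr.Loc, hl]
    filter_upwards [h0] with r h0 x hx
    rw [q.hV] at hx
    exact ⟨fun _ => ⟨by rw [f0.hV]; exact hx, EventuallyEq.rfl⟩, fun hw => h0 x (not_le.1 hw)⟩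

theorem Fit.tiny (f0 : Fit F l ρ lam A s) (n : ℕ) {ε : ℝ} (hε : 0 < ε) :
    ∀ᶠ r in l, (lam r * F.G r) ^ n * A r ≤ ε := by
  obtain ⟨m, hm⟩ := pow_unbounded_of_one_lt ε⁻¹ (one_lt_two (α := ℝ))
  filter_upwards [f0.small (m + n), f0.ev, f0.hl ▸ F.ok] with r h o o'
  have g : 2 ≤ lam r * F.G r := by nlinarith [o'.2.2.1, o.2.1]
  have h1 : ε⁻¹ ≤ (lam r * F.G r) ^ m := hm.le.trans (pow_le_pow_left₀ (by norm_num) g m)
  rw [pow_add, mul_assoc] at h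
  by_contra h2
  have h3 := mul_lt_mul_of_pos_left (not_le.1 h2) (inv_pos.2 hε)
  rw [inv_mul_cancel₀ hε.ne'] at h3
  have := mul_le_mul_of_nonneg_right h1 (hε.le.trans (not_le.1 h2).le)
  linarith

theorem Fit.tiny' (f0 : Fit F l ρ lam A s) (n : ℕ) {ε : ℝ} (hε : 0 < ε) {b : P → ℝ}
    (hb : ∀ᶠ r in l, b r ≤ A r * lam r) : ∀ᶠ r in l, F.G r ^ n * b r ≤ ε := by
  filter_upwards [Fit.tiny f0 (n + 1) hε, f0.ev, f0.hl ▸ F.ok, hb] with r h o o' hb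
  have g := o'.2.2.1
  have h1 := o.2.1
  refine (mul_le_mul_of_nonneg_left hb (by positivity)).trans ?_
  rcases le_total (A r) 0 with h0 | h0
  · exact (mul_nonpos_of_nonneg_of_nonpos (by positivity)
      (mul_nonpos_of_nonpos_of_nonneg h0 (by linarith))).trans hε.le
  · refine le_trans ?_ h
    calc _ = F.G r ^ n * (lam r * 1) * A r := by ring
      _ ≤ (lam r * F.G r) ^ n * (lam r * F.G r) * A r := by
          gcongr
          · exact le_mul_of_one_le_left (by linarith) h1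
          · linarith
      _ = _ := by ring

/-- Tiny functions are of the size of the weight in any base. -/
theorem tr_sm (f0 : Fit F l ρ lam A s) (q : Fq F' (hf ρ) (mu F lam)) (hl : F'.l = l)
    (hρ : ∀ᶠ r in l, 9 ≤ ρ r) {b : P → ℝ} {s' f : Fn P X} (h : F.T k (pr b) f) (h0 : Fo l ρ f)
    (hb : ∀ᶠ r in l, b r ≤ A r * lam r) (hw : ∀ᶠ r in l, Lw (ρ r) (F.G r) (s' r)) :
    F'.T k s' f := by
  refine tr_in f0 q hl hρ h h0 fun n => ⟨0, ?_⟩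
  rw [hl]
  filter_upwards [Fit.tiny' f0 (8 + n) one_pos hb, hw, f0.hl ▸ F.ok] with r h1 h2 o x hx
  rw [q.hV] at hx
  refine ⟨(h2 x hx).1, fun hx' => ?_⟩
  rw [pow_add, mul_assoc] at h1
  rw [pow_zero, one_mul]
  exact le_of_mul_le_mul_left (h1.trans ((h2 x hx).2 hx')) (pow_pos (by linarith [o.2.2.1]) 8)

/-- The size is kept in the same base. -/
theorem tr_eq (f0 : Fit F l ρ lam A s) (q : Fq F' (hf ρ) (mu F lam)) (hl : F'.l = l)
    (hG : F'.G = F.G) (hρ : ∀ᶠ r in l, 9 ≤ ρ r) {b : P → ℝ} {s' f : Fn P X} (h : F.T k (pr b) f)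
    (h0 : Fo l ρ f) (hw : ∀ᶠ r in l, Lw (ρ r) (F.G r) (s' r)) : F'.T k (pr b * s') f := by
  refine tr_in f0 q hl hρ h h0 fun n => ⟨n + 8, ?_⟩
  rw [hl, hG]
  filter_upwards [hw, f0.hl ▸ F.ok, f0.hl ▸ h.b0.nn] with r h2 o hn x hx
  rw [q.hV] at hx
  have b0 : 0 ≤ b r := hn x (by rw [f0.hV]; exact hx)
  have g := o.2.2.1
  refine ⟨mul_nonneg b0 (h2 x hx).1, fun hx' => ?_⟩
  calc _ = F.G r ^ n * b r * 1 := (mul_one _).symm
    _ ≤ F.G r ^ n * b r * (F.G r ^ 8 * s' r x) := by gcongr; exact (h2 x hx).2 hx'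
    _ = _ := by simp only [Pi.mul_apply, pr]; ring

/-- A single parameter. -/
theorem Fq.cpt (q : Fq F (hf ρ) μ) {r : P} (hl : F.l = pure r) {s f : Fn P X} (h : F.Sm f)
    (h0 : Fo (pure r) ρ f) {g : ℝ} (hw : Lw (ρ r) g (s r)) (k : ℕ) : F.T k s f := by
  have o := q.ev
  have h1 := q.sm.1 h
  rw [hl, eventually_pure] at o h1
  have D0 := dm0 (R := hf ρ r) (by linarith [o.1])
  choose C C0 hC using fun m => P354M2.hb_compact m h1
    ((isCompact_closedBall (0 : X) (9 * ρ r)).inter_left (gam_closed (hf ρ r)))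
    fun y hy => D0.sub hy.1
  refine q.of_hb h (fun j => C j * g ^ 8) ?_ k
  rw [hl, eventually_pure]
  refine fun x hx => ⟨(hw x hx).1, fun j => ?_⟩
  have := C0 j
  have := (hw x hx).1
  rcases le_or_gt ‖x‖ (9 * ρ r) with h2 | h2
  · have h3 := (gam_nrm D0.pos hx).1
    have h4 : 0 < x 0 := D0.pos.trans_le hx.1
    calc _ ≤ ‖x‖ ^ j * ‖iteratedFDeriv ℝ j (f r) x‖ := by gcongr
      _ ≤ C j * 1 := (hC j x ⟨hx, mem_closedBall_zero_iff.2 h2⟩ j le_rfl).trans_eq (mul_one _).symm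
      _ ≤ C j * (g ^ 8 * s r x) := by gcongr; exact (hw x hx).2 h2
      _ = _ := by ring
  · rw [((eventually_pure.1 h0 x h2).iteratedFDeriv ℝ j).eq_of_nhds]
    simp only [iteratedFDeriv_fun_zero, Pi.zero_apply, norm_zero, mul_zero]
    positivity

end Vale.Agent.P354XC
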