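import Vale.Agent.P354XC.Tail2

/-!
TAIL, part 3: the good parameters.
-/

open scoped ContDiff
open Set Filter Topology Matrix

noncomputable section

namespace Vale.Agent.P354XC

open Vale.Agent.P354I (X Dat ee pd Con)
open Vale.Agent.P354J (PDy M3)
open Vale.Agent.P354XP (Fr Fn D cst pr hh kk ad lf Fit App)
open Vale.Agent.P354XS (wq wi qm)

variable {P : Type} {F F' : Fr P X} {R μ ρ lam A s a : P → ℝ} {p d d1 : P → Dat} {c : ℝ}
  {C : ℕ → ℝ} {u v : Fin 3 → Fin 3 → Fn P X} {k : ℕ} {l : Filter P} {S : P → Set X} {r : P}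

theorem out_t (q : Fq F (hf ρ) μ) (n : ℕ) (h : ∀ᶠ r in F.l, 0 ≤ a r ∧ Reg {0}ᶜ (d r) ∧
    Reg {0}ᶜ (d1 r) ∧ Out (hf ρ r) (μ r, μ r) k (F.G r ^ n * a r) (d r) (d1 r)) (i j : Fin 3) :
    F.T k (pr a * ww fun _ t => 1 / t) (hh d1 i j - hh d i j) ∧
      F.T k (pr a * ww fun _ t => 1 / t ^ 2) (kk d1 i j - kk d i j) := by
  refine ⟨q.t n (q.sm.2 (h.mono fun r h => (h.2.2.1.sh i j).sub (h.2.1.sh i j))) ?_,
    q.t n (q.sm.2 (h.mono fun r h => (h.2.2.1.K i j).sub (h.2.1.K i j))) ?_⟩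
  · filter_upwards [h, q.ev] with r h o
    exact ⟨by simpa using pw_one (R := hf ρ r) (by linarith [o.1]) 1, h.1, (h.2.2.2 i j).1⟩
  · filter_upwards [h, q.ev] with r h o
    exact ⟨pw_one (by linarith [o.1]) 2, h.1, (h.2.2.2 i j).2.2⟩

theorem qm_of (q : Fq F R μ) (h : ∀ i j,
    F.T k (pr a * ww fun _ t => 1 / t) (hh d1 i j - hh p i j) ∧
      F.T k (pr a * ww fun _ t => 1 / t ^ 2) (kk d1 i j - kk p i j))
    (h0 : ∀ᶠ r in F.l, 0 ≤ a r ∧ ∀ y ∉ Gam (R r), (d1 r).h =ᶠ[𝓝 y] (p r).h ∧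
      (d1 r).K =ᶠ[𝓝 y] (p r).K) :
    ∃ n : ℕ, ∀ᶠ r in F.l, qm k (d1 r) (p r) ≤ ENNReal.ofReal (F.G r ^ n * a r / μ r ^ k) := by
  have up : ∀ {e : P → ENNReal}, (∃ n : ℕ, ∀ᶠ r in F.l,
      e r ≤ ENNReal.ofReal (F.G r ^ n * a r / μ r ^ k)) → ∀ᶠ n in atTop, ∀ᶠ r in F.l,
      e r ≤ ENNReal.ofReal (F.G r ^ n * a r / μ r ^ k) := by
    rintro e ⟨n, hn⟩
    filter_upwards [eventually_ge_atTop n] with m hm
    filter_upwards [hn, h0, q.ev, F.ok] with r hn h0 o o'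
    have := h0.1
    have := o.2.1
    refine hn.trans (ENNReal.ofReal_le_ofReal ?_)
    gcongr
    linarith [o'.2.2.1]
  obtain ⟨n, h1, h2⟩ := ((eventually_all.2 fun i => eventually_all.2 fun j =>
    up (q.wq hw1 (h i j).1 (h0.mono fun r h => ⟨h.1, fun y hy => (h.2 y hy).1.mono fun z hz => by
      simp [hh, hz]⟩))).and (eventually_all.2 fun i => eventually_all.2 fun j =>
    up (q.wq hw2 (h i j).2 (h0.mono fun r h => ⟨h.1, fun y hy => (h.2 y hy).2.mono fun z hz => by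
      simp [kk, hz]⟩)))).exists
  refine ⟨5 + n, ?_⟩
  filter_upwards [eventually_all.2 fun i => eventually_all.2 (h1 i),
    eventually_all.2 fun i => eventually_all.2 (h2 i), h0, q.ev, F.ok] with r h1 h2 h0 o o'
  have := h0.1
  have := o.2.1
  have g := o'.2.2.1
  refine (P354XQ.qm_le_of (by positivity) fun i j => ⟨h1 i j, h2 i j⟩).trans
    (ENNReal.ofReal_le_ofReal ?_)
  have : (18 : ℝ) ≤ F.G r ^ 5 := le_trans (by norm_num) (pow_le_pow_left₀ (by norm_num) g 5)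
  rw [pow_add, mul_assoc, mul_div_assoc (F.G r ^ 5)]
  gcongr

/-- Good parameters. -/
structure Gd (ρ : P → ℝ) (p : P → Dat) (c : ℝ) (C : ℕ → ℝ) (S : P → Set X)
    (u v : Fin 3 → Fin 3 → Fn P X) (r : P) : Prop where
  bk : Bk (pure r) ρ p c C
  r9 : 9 ≤ ρ r
  cone : Cone (ρ r / 2) (S r)
  z : ∀ i j x, x ∉ S r ∨ 9 * ρ r ≤ ‖x‖ → u i j r x = 0 ∧ v i j r x = 0
  su : ∀ i j, Sm {0}ᶜ (u i j r) ∧ Sm {0}ᶜ (v i j r)
  sm : ∀ x ∈ Gam (ρ r / 2), ∀ i j, |u i j r x| ≤ c / 12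
  sy : ∀ i j, u i j = u j i ∧ v i j = v j i

namespace Gd

variable (g : Gd ρ p c C S u v r)
include g

theorem pdy : PDy (p r) := (eventually_pure.1 g.bk.ev).1
theorem con : Con (p r) := (eventually_pure.1 g.bk.ev).2.1

theorem low {x : X} (hx : x ∈ Gam (ρ r / 2)) (w : Fin 3 → ℝ) :
    c * (w ⬝ᵥ w) ≤ w ⬝ᵥ (p r).h x *ᵥ w := by
  have := g.r9
  refine ((eventually_pure.1 g.bk.ev).2.2 x ?_).1 w
  linarith [(gam_nrm (by linarith) hx).1, hx.1]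

theorem off {x : X} (hx : x ∉ S r ∨ 9 * ρ r < ‖x‖) :
    (∀ i j, (u i j r =ᶠ[𝓝 x] fun _ => 0) ∧ v i j r =ᶠ[𝓝 x] fun _ => 0) ∧
      (ad p u v r).h =ᶠ[𝓝 x] (p r).h ∧ (ad p u v r).K =ᶠ[𝓝 x] (p r).K := by
  have e : ∀ᶠ y in 𝓝 x, y ∉ S r ∨ 9 * ρ r ≤ ‖y‖ := by
    rcases hx with hx | hx
    · exact Filter.mem_of_superset (g.cone.1.isOpen_compl.mem_nhds hx) fun y hy => Or.inl hy
    · exact Filter.mem_of_superset ((isOpen_lt continuous_const continuous_norm).mem_nhds hx)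
        fun y hy => Or.inr (le_of_lt hy)
  refine ⟨fun i j => ⟨e.mono fun y hy => (g.z i j y hy).1, e.mono fun y hy => (g.z i j y hy).2⟩,
    e.mono fun y hy => ?_, e.mono fun y hy => ?_⟩
  · ext i j; simp [ad, (g.z i j y hy).1]
  · ext i j; simp [ad, (g.z i j y hy).2]

theorem off0 {x : X} (hx : x ∉ S r ∨ 9 * ρ r < ‖x‖) (h0 : x ≠ 0) :
    Ham (ad p u v r) x = 0 ∧ ∀ j, Mom (ad p u v r) j x = 0 :=
  con_loc g.con h0 (g.off hx).2.1 (g.off hx).2.2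

theorem far {x : X} (hx : 9 * ρ r < ‖x‖) :
    ∀ᶠ y in 𝓝 x, Ham (ad p u v r) y = 0 ∧ ∀ j, Mom (ad p u v r) j y = 0 :=
  Filter.mem_of_superset ((isOpen_lt continuous_const continuous_norm).mem_nhds hx)
    fun y hy => g.off0 (Or.inr hy) (norm_pos_iff.1 (by
      have : 9 * ρ r < ‖y‖ := hy
      linarith [g.r9]))

theorem symm {x : X} (h0 : x ≠ 0) : ((ad p u v r).h x).IsSymm ∧ ((ad p u v r).K x).IsSymm :=
  ⟨(P354T.symm_of (g.pdy.2 x h0).1).add (IsSymm.ext fun i j => by simp [(g.sy i j).1]),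
    (g.pdy.2 x h0).2.add (IsSymm.ext fun i j => by simp [(g.sy i j).2])⟩

theorem det {x : X} (hx : x ∈ Gam (ρ r / 2)) :
    ((ad p u v r).h x).PosDef ∧ (c / 2) ^ 3 ≤ ((ad p u v r).h x).det :=
  pos_near g.bk.c0 (g.low hx) (g.symm ((dm0 (by linarith [g.r9])).sub hx)).1 fun i j => by
    have := g.sm x hx i j
    have := g.bk.c0
    simp only [ad, Matrix.add_apply, of_apply, add_sub_cancel_left]; linarith

theorem pos {x : X} (h0 : x ≠ 0) : ((ad p u v r).h x).PosDef := by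
  by_cases hx : x ∈ S r
  · exact (g.det (g.cone.2.1 hx)).1
  · rw [(g.off (Or.inl hx)).2.1.eq_of_nhds]; exact (g.pdy.2 x h0).1

theorem reg : Reg {0}ᶜ (ad p u v r) :=
  ⟨fun i j => ⟨(g.pdy.1 i j).1.add (g.su i j).1, (g.pdy.1 i j).2.add (g.su i j).2⟩,
    fun _ hy => ⟨(g.symm hy).1, (g.symm hy).2, (g.pos hy).det_pos.ne'⟩⟩

end Gd

theorem nz_of (q : Fq F (hf ρ) μ) (g : ∀ᶠ r in F.l, Gd ρ p c C S u v r) : Nz F (ad p u v) := by
  refine ⟨?_, (Fr.b0_cst ((c / 2) ^ 3)⁻¹).trans (Fr.B0.of_le ?_)⟩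
  · filter_upwards [g] with r g x hx
    rw [q.hU] at hx
    exact (g.pos hx).det_pos.ne'
  · filter_upwards [g] with r g x hx
    rw [q.hV] at hx
    have := g.bk.c0
    have h := g.det hx
    simp only [Pi.inv_apply, cst]
    rw [abs_of_pos (inv_pos.2 h.1.det_pos)]
    exact inv_anti₀ (by positivity) h.2

theorem fo_of (g : ∀ᶠ r in l, Gd ρ p c C S u v r) : (∀ i j, Fo l ρ (u i j) ∧ Fo l ρ (v i j)) ∧
    Fo l ρ (lf Ham (ad p u v)) ∧ ∀ b, Fo l ρ (lf (fun d => Mom d b) (ad p u v)) :=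
  ⟨fun i j => ⟨g.mono fun _ g _ hx => ((g.off (Or.inr hx)).1 i j).1,
    g.mono fun _ g _ hx => ((g.off (Or.inr hx)).1 i j).2⟩,
    g.mono fun _ g _ hx => (g.far hx).mono fun _ h => h.1,
    fun b => g.mono fun _ g _ hx => (g.far hx).mono fun _ h => h.2 b⟩

theorem lw_R {g : ℝ} {n : ℕ} (h1 : 9 ≤ ρ r) (h2 : ρ r ≤ g) (hn : n ≤ 4) :
    Lw (ρ r) g (wR ρ n r) := lw_div h1 h2 (by simp only [hf]; linarith) hn

/-- The frame for one parameter. -/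
theorem Gd.fr (g : Gd ρ p c C S u v r) {m : ℝ} (h0 : 0 < m) (h1 : m ≤ 1) :
    ∃ F : Fr P X, Fq F (hf ρ) (fun _ => m) ∧ F.l = pure r ∧ F.G = fun _ => 2 :=
  ⟨_, fq_mk (l := pure r) (G := fun _ => 2) (eventually_pure.2
    ⟨by simp only [hf]; linarith [g.r9], h0, h1⟩) (.of_forall fun _ => le_rfl), rfl, rfl⟩

theorem Gd.fin (g : Gd ρ p c C S u v r) (k : ℕ) : ∃ L, HL (hf ρ r) (1, 1) k L (ad p u v r) ∧
    HD (hf ρ r) (1, 1) k L (ad p u v r) := by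
  obtain ⟨F, q, hl, hG⟩ := g.fr one_pos le_rfl
  have fo := fo_of (l := pure r) (eventually_pure.2 g)
  have sm : ∀ {f : Fn P X}, Sm {0}ᶜ (f r) → F.Sm f := fun h =>
    q.sm.2 (by rw [hl]; exact eventually_pure.2 h)
  have w := fun n hn => lw_R (n := n) g.r9 le_rfl hn
  have cl : Cl F ρ k u v := fun i j =>
    ⟨q.cpt hl (sm (g.su i j).1) (fo.1 i j).1 (lw_one g.r9 le_rfl) k, fun b =>
      q.cpt hl (q.he ▸ (sm (g.su i j).1).d b) ((fo.1 i j).1.dd b) (w 2 (by omega)) k,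
      q.cpt hl (sm (g.su i j).2) (fo.1 i j).2 (w 2 (by omega)) k⟩
  have h1 := (((hl ▸ g.bk : Bk F.l ρ p c C).cl q k).ad q cl).hl q
    (nz_of q (by rw [hl]; exact eventually_pure.2 g))
  have h2 := q.bd1 (q.cpt hl (f := lf EH (ad p u v)) (sm (g.reg.eh isOpen_compl_singleton))
    (eventually_pure.2 fun x hx => (g.far hx).mono fun y h => by simp [lf, EH, h.1])
    (w 4 le_rfl) k)
  have h3 := eventually_all.2 fun b => q.bd1 (q.cpt hl (f := lf (fun d => EM d b) (ad p u v))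
    (sm (g.reg.em isOpen_compl_singleton b))
    (eventually_pure.2 fun x hx => (g.far hx).mono fun y h => by simp [lf, EM, h.2])
    (w 4 le_rfl) k)
  obtain ⟨n, h1, h2, h3⟩ := (h1.and (h2.and h3)).exists
  simp only [hl, eventually_pure] at h1 h2 h3
  exact ⟨_, h1, h2, h3⟩

theorem Gd.hyp (g : Gd ρ p c C S u v r) {N : ℕ} {L δ : ℝ} {t : ℝ × ℝ}
    (h1 : HL (hf ρ r) t 0 L (ad p u v r)) (h2 : HD (hf ρ r) t 0 δ (ad p u v r)) (hδ : δ ≤ 1)
    (hL : 1 ≤ L) (hR : 2 * Real.exp ((L + 1) ^ N) ≤ hf ρ r) (k : ℕ) {ε : ℝ} (hε : 0 < ε) :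
    ∃ m ∈ Ioc 0 (min ε 1), Hyp N (hf ρ r) (m, m) k (L + 1) 2 (ad p u v r) := by
  obtain ⟨K, a1, a2⟩ := g.fin k
  have K0 : 0 ≤ K := a1.2.nonneg
  have R0 : 0 < hf ρ r := by simp only [hf]; linarith [g.r9]
  set m := min (min ε 1) (1 / (K + 1)) with hm
  have m0 : 0 < m := lt_min (lt_min hε one_pos) (by positivity)
  have m1 : m ≤ 1 := (min_le_left _ _).trans (min_le_right _ _)
  have mK : m * K ≤ 1 := by
    have : m ≤ 1 / (K + 1) := min_le_right _ _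
    rw [le_div_iff₀ (by positivity)] at this
    nlinarith
  have key : ∀ {W : ℝ → ℝ} {f : X → ℝ} {a b : ℝ}, Pw (hf ρ r) W →
      Bd (hf ρ r) (1, 1) W k f K → Bd (hf ρ r) t W 0 f a → a + 1 ≤ b →
      Bd (hf ρ r) (m, m) W k f b := fun hW h h' hb =>
    (Bd.small (s := (m, m)) hW m1 ⟨m0.le, le_rfl⟩ ⟨m0.le, le_rfl⟩ h h').le hW (by linarith)
  exact ⟨m, ⟨m0, min_le_left _ _⟩, by linarith, hR, fun i j =>
    ⟨key pw1 (a1.1 i j).1 (h1.1 i j).1 le_rfl, fun b => key (pw_R R0 2) ((a1.1 i j).2.1 b)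
      ((h1.1 i j).2.1 b) le_rfl, key (pw_R R0 2) (a1.1 i j).2.2 (h1.1 i j).2.2 le_rfl⟩,
    key pw1 a1.2 h1.2 le_rfl, key (pw_R R0 4) a2.1 h2.1 (by linarith),
    fun b => key (pw_R R0 4) (a2.2 b) (h2.2 b) (by linarith)⟩

theorem hh_ad (i j : Fin 3) : hh d1 i j - hh (ad p u v) i j + u i j = hh d1 i j - hh p i j ∧
    kk d1 i j - kk (ad p u v) i j + v i j = kk d1 i j - kk p i j := by
  constructor <;> (funext r x; simp [hh, kk, ad]; ring)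

theorem Gd.near (g : Gd ρ p c C S u v r) {e : Dat}
    (h : ∀ y ∉ S r, e.h y = (ad p u v r).h y ∧ e.K y = (ad p u v r).K y) {y : X} (hy : y ∉ S r) :
    e.h =ᶠ[𝓝 y] (p r).h ∧ e.K =ᶠ[𝓝 y] (p r).K := by
  have o : ∀ᶠ z in 𝓝 y, z ∉ S r := g.cone.1.isOpen_compl.mem_nhds hy
  exact ⟨o.mono fun z hz => (h z hz).1.trans (g.off (Or.inl hz)).2.1.eq_of_nhds,
    o.mono fun z hz => (h z hz).2.trans (g.off (Or.inl hz)).2.2.eq_of_nhds⟩

/-- The seminorms of the correction are finite. -/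
theorem Gd.top (g : Gd ρ p c C S u v r) {m K : ℝ} (h0 : 0 < m) (h1 : m ≤ 1)
    (hr : Reg {0}ᶜ (d1 r))
    (h : ∀ y ∉ S r, (d1 r).h y = (ad p u v r).h y ∧ (d1 r).K y = (ad p u v r).K y)
    (o : Out (hf ρ r) (m, m) k K (ad p u v r) (d1 r)) : qm k (d1 r) (p r) < ⊤ := by
  obtain ⟨F, q, hl, hG⟩ := g.fr h0 h1
  have fo := fo_of (l := pure r) (eventually_pure.2 g)
  have K0 : 0 ≤ K := (o 0 0).1.nonneg
  have sm : ∀ {f : Fn P X}, Sm {0}ᶜ (f r) → F.Sm f := fun h =>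
    q.sm.2 (by rw [hl]; exact eventually_pure.2 h)
  have R0 : 0 < hf ρ r := by simp only [hf]; linarith [g.r9]
  have t := out_t (a := fun _ => K + 1) (d := ad p u v) (d1 := d1) (k := k) q 0 (by
    rw [hl, eventually_pure, pow_zero, one_mul]
    exact ⟨by linarith, g.reg, hr, fun i j => ⟨(o i j).1.le (by simpa using pw_one R0 1)
      (by linarith), fun b => ((o i j).2.1 b).le (pw_one R0 2) (by linarith),
      (o i j).2.2.le (pw_one R0 2) (by linarith)⟩⟩)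
  have lw : ∀ {s : X → ℝ}, Lw (ρ r) (ρ r) s → Lw (ρ r) (ρ r) fun x => (K + 1) * s x :=
    fun h x hx => ⟨mul_nonneg (by linarith) (h x hx).1, fun hx' => ((h x hx).2 hx').trans (by
      have := (h x hx).1
      have := g.r9
      gcongr; nlinarith)⟩
  obtain ⟨n, hn⟩ := qm_of (a := fun _ => K + 1) (d1 := d1) (p := p) (k := k) q (fun i j =>
    ⟨((t i j).1.add (q.cpt hl (sm (g.su i j).1) (fo.1 i j).1 (lw (lw_inv g.r9 le_rfl)) k)).cast
      (hh_ad i j).1, ((t i j).2.add (q.cpt hl (sm (g.su i j).2) (fo.1 i j).2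
      (lw (lw_div g.r9 le_rfl le_rfl (by omega))) k)).cast (hh_ad i j).2⟩) (by
    rw [hl, eventually_pure]
    exact ⟨by linarith, fun y hy => g.near h fun hs => hy (g.cone.2.1 hs)⟩)
  rw [hl, eventually_pure] at hn
  exact hn.trans_lt ENNReal.ofReal_lt_top

end Vale.Agent.P354XC
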