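import Vale.Agent.P354XC.Sol

/-! Block C: the theorems CORR and CORR2. -/

open scoped ContDiff
open Set Filter Topology Matrix

noncomputable section

namespace Vale.Agent.P354XC

open Vale.Agent.P354I (X Dat ee pd)

variable {R κ L c c' δ A : ℝ} {U S : Set X} {s : ℝ × ℝ} {k N N0 : ℕ} {d : Dat} {V W : V2}
  {m : ℕ → ℝ}

theorem pw_one (hR : 0 < R) (n : ℕ) : Pw R fun t => 1 / t ^ n := fun t ht => by
  have := hR.trans_le ht; positivity

theorem Bd.unom (hR : 0 < R) (hκ : 0 ≤ κ) {w w' : ℝ → ℝ} {f : X → ℝ} (hw : Pw R w')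
    (e : ∀ t, R ≤ t → w t = om κ R t * w' t) (h : Bd R s w k f c) {C : ℝ}
    (hC : Real.exp κ * c ≤ C) : Bd R s w' k f C :=
  (h.wt (Real.exp_pos κ).le fun t ht => (e t ht).trans_le
    (mul_le_mul_of_nonneg_right (om_le hκ hR ht) (hw t ht))).le hw hC

theorem mk_sub (d : Dat) (V : V2) (i j : Fin 3) :
    (fun y => (mk d V).1.h y i j - d.h y i j) = en V.1 i j := by
  funext y; simp [mk]

theorem out1 (u : Uc A m N N0) (B : Bg R U S d) (H : Sc m N0 R s k L δ d) (hV : Adm S V)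
    (nV : Nm R s k (L ^ N0) V (2 * δ)) {C : ℝ} (hC : Real.exp (L ^ N0) * (δ * L ^ N0) ≤ C) :
    Out R s k C d (mk d V).1 := by
  have hR := B.D.pos
  have hδ := H.eh.nonneg
  have E := u.es B H le_rfl hV (adm_zero S) nV (nm_zero hR (by positivity)) (c := 2 * δ)
    (by rw [sub_zero]; exact nV)
  have hκ : 0 ≤ L ^ N0 := zero_le_one.trans (H.one N0)
  have h1 := (u.le H).1
  have h2 := H.one N
  have h3 : Real.exp (L ^ N0) * (2 * δ * L ^ N) ≤ C :=
    (mul_le_mul_of_nonneg_left (by nlinarith) (Real.exp_pos _).le).trans hC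
  have h4 : Real.exp (L ^ N0) * (2 * δ) ≤ C :=
    (mul_le_mul_of_nonneg_left (by nlinarith) (Real.exp_pos _).le).trans h3
  intro i j
  rw [mk_sub]
  refine ⟨(nV i j).1.unom hR hκ (by simpa using pw_one hR 1) (fun t ht => ?_) h4, fun l =>
    ((nV i j).2.1 l).unom hR hκ (pw_one hR 2) (fun t _ => by simp [wT]) h4, ?_⟩
  · have := (hR.trans_le ht).ne'
    simp only [wT]; field_simp
  · have h5 := (wd10 hR ▸ (E.kk i j).d0).unom hR hκ (pw_one hR 2) (fun t _ => by simp [wT, ix]) h3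
    simpa [ix, mk_zero] using h5

theorem out2 (u : Uc A m N N0) {N8 : ℕ} (E2 : ∀ i : Ix, i.W = 0 →
      (∀ a b l, Bd i.C.R i.C.s (wl i.C.R 1 1) i.C.k
      (pd l (en i.d.K a b)) (i.C.L ^ 1 * i.C.M ^ 1) ∧
      Bd i.C.R i.C.s (wd i.C.κ i.C.R 1 1) i.C.k (pd l (en i.V.2 a b)) (i.C.c * i.C.M ^ 1)) →
    i.C.c * Real.exp i.C.κ ≤ i.C.R → ∀ a b l, Bd i.C.R i.C.s (wd i.C.κ i.C.R 1 1) i.C.k
      (pd l fun y => (mk i.d i.V).1.K y a b - i.d.K y a b) (i.C.c * (i.C.L ^ N8 * i.C.M ^ 1)))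
    (B : Bg R U S d) (H : Sc m N0 R s (k + 1) L δ d) (hV : Adm S V)
    (nV : Nm R s (k + 1) (L ^ N0) V (2 * δ)) (hF : FF S d V = V) {L2 : ℝ} (hs : 0 < s.2)
    (H2 : Hyp2 R s k L2 d) {C : ℝ}
    (hC : Real.exp (L ^ N0) * (δ * L ^ N0 * L ^ N8 * ((1 + L2) / s.2)) ≤ C) :
    Out2 R s k C d (mk d V).1 := by
  have D := B.D
  have hR := D.pos
  have hU := D.op
  have hS := B.cone.2.1
  have hδ := H.eh.nonneg
  have hA := u.K.one
  have hL2 := (H2 0 0 0).2.nonneg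
  have hs1 : s.2 ≤ 1 := H.h2.2.trans (u.K.le1 _)
  set M := (1 + L2) / s.2 with hM
  have m1 : 1 + L2 ≤ M := le_div_self (by linarith) hs hs1
  have m2 : 1 / s.2 ≤ M := div_le_div_of_nonneg_right (by linarith) hs.le
  have E := u.es B H le_rfl hV (adm_zero S) nV (nm_zero hR (by positivity)) (c := 2 * δ)
    (by rw [sub_zero]; exact nV)
  obtain ⟨a1, a2⟩ := B.src hV E.n1
  obtain ⟨b1, b2⟩ := u.src B H hV nV
  have hκ : 0 ≤ L ^ N0 := zero_le_one.trans (H.one N0)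
  have hN := H.one N
  have hb := u.big L H.hL
  have hq : A * (3 * δ * L ^ N) / s.2 ≤ 3 * (A * L ^ N * δ * M) := by
    have := mul_le_mul_of_nonneg_left m2 (show 0 ≤ A * (3 * δ * L ^ N) by positivity)
    rw [mul_one_div] at this; linarith
  have h8 := H.one N8
  have hp : 0 ≤ δ * M := by positivity
  have hAN : 1 ≤ A * L ^ N := one_le_mul_of_one_le_of_one_le hA hN
  intro i j l
  refine ⟨fun n => ?_, ?_⟩
  · rw [mk_sub]
    have hu : SmM U V.1 := fun a b => (hV.c1 a b).contDiffOn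
    have hw := (B.reg.sh.dm hU l).dm hU n
    have t : ∀ a b p q, Bd R s (wU (L ^ N0) R) k (fun y => V.1 y a b * dm n (dm l d.h) y p q)
        (2 * δ * L2) := fun a b p q =>
      (((nV.pred hR a b).1.mul D (hu a b) (hw p q) ((H2 p q l).1 n)).wt1 fun t ht => by
        have h0 := hR.trans_le ht
        simp only [wT, wU, mul_assoc]
        refine mul_le_mul_of_nonneg_left ?_ (om_pos _ _ _).le
        rw [div_mul_div_comm, div_le_div_iff₀ (by positivity) (by positivity)]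
        nlinarith [mul_le_mul_of_nonneg_right ht (pow_pos h0 4).le])
    have sm := fun a b p q => (hu a b).mul (hw p q)
    have hT := fun a b => Sm.pd hU (Sm.pd hU
      (T_cd (p := 1) (ker_kH a b) a1.cd (a1.vs.vn hS)).contDiffOn l) n
    have sc : ∀ a b, Sm U fun y => cf (d.h y + V.1 y) i j a b := fun a b =>
      (mk_reg B.reg hV E.n1).cf i j a b
    have sG := fun a b => ((hT a b).sub (hu.BB hw a b)).sub
      ((E.bb n l a b).s1.sub (E.bb n l a b).s2)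
    have g : ∀ a b, Bd R s (wU (L ^ N0) R) k _ _ := fun a b =>
      (wl00 ▸ (E.cf2 i j a b).pred (pw_wl hR _ _)).mul1 D (sc a b) (sG a b)
        (((show Bd R s (wU (L ^ N0) R) k (pd n (pd l (T 1 (kH a b) (S.indicator (gH d V))))) _ from
          T1_pd (ker_kH a b) a1.cd (a1.vs.vn hS) l ▸ u.K.dH2 a b l _ _ _ _ _ _ H.h1 H.h2 hs hR
            (H.one N0) a1.cd (a1.vs.vn hS) b1 n).sub D (hT a b) (hu.BB hw a b)
          ((((t (b + 1) (a + 1) (b + 2) (a + 2)).add D (sm _ _ _ _) (sm _ _ _ _)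
            (t (b + 2) (a + 2) (b + 1) (a + 1))).sub D ((sm _ _ _ _).add (sm _ _ _ _))
            ((sm _ _ _ _).add (sm _ _ _ _)) ((t (b + 1) (a + 2) (b + 2) (a + 1)).add D (sm _ _ _ _)
            (sm _ _ _ _) (t (b + 2) (a + 1) (b + 1) (a + 2)))).congr D fun y _ => by
              simp only [BB, of_apply, en]; ring)).sub D ((hT a b).sub (hu.BB hw a b))
          ((E.bb n l a b).s1.sub (E.bb n l a b).s2)
          (((wd20 hR ▸ (E.bb n l a b).d0).pred (pw_wS hR)).sU hR))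
    refine ((Bd.sum D Finset.univ (fun a => .sum fun b _ => (sc a b).mul (sG a b)) fun a =>
      Bd.sum D Finset.univ (fun b => (sc a b).mul (sG a b)) (g a)).congr D fun y hy => ?_).unom
      hR hκ (pw_one hR 3) (fun t _ => rfl) (le_trans
        (mul_le_mul_of_nonneg_left ?_ (Real.exp_pos _).le) hC)
    · rw [fix_dd B hV E.n1 hF hy]
      simp only [ix, mk_zero]
    · simp only [ix, Finset.sum_const, Finset.card_univ, Fintype.card_fin, nsmul_eq_mul]
      have h1 : δ * L2 ≤ A * L ^ N * δ * M := by nlinarith [mul_le_mul_of_nonneg_left m1 hδ]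
      have h2 : δ * L ^ N ≤ A * L ^ N * δ * M := by
        have := mul_le_mul_of_nonneg_left (one_le_mul_of_one_le_of_one_le hA
          (show 1 ≤ M by linarith)) (show 0 ≤ δ * L ^ N by positivity)
        linarith
      have h3 := mul_le_mul_of_nonneg_left hb hp
      have h4 := mul_le_mul_of_nonneg_left h8 (show 0 ≤ δ * M * L ^ N0 by positivity)
      have h5 := mul_le_mul_of_nonneg_left (show A * (3 * δ * L ^ N) / s.2 +
        (2 * δ * L2 + 2 * δ * L2 + (2 * δ * L2 + 2 * δ * L2)) + 2 * δ * L ^ N ≤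
          13 * (A * L ^ N * δ * M) by linarith) (show 0 ≤ L ^ N by positivity)
      have h6 : 0 ≤ L ^ N * (A * L ^ N * δ * M) := by positivity
      push_cast
      nlinarith
  · have h1 : 9 * (A * L ^ N) ≤ L ^ N0 := by
      nlinarith [mul_le_mul_of_nonneg_left hN (show 0 ≤ A * L ^ N by positivity)]
    have z := nm_zero (s := s) (k := k) (κ := L ^ N0) hR (show 0 ≤ 2 * δ by positivity)
    have e2 : V.2 = PP fun b => S.indicator (gM d V b) := (congrArg Prod.snd hF).symm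
    have h2 := E2 (ix B (H.pred hR) (show 1 ≤ M by linarith) hV (adm_zero S) (nV.pred hR) z
      (c := 9 * (A * L ^ N) * δ) (by
        rw [sub_zero]; exact (nV.pred hR).le hR (by nlinarith))) rfl (fun a b l => ⟨?_, ?_⟩) ?_ i j l
    · refine (wd11 hR ▸ h2).unom hR hκ (pw_one hR 3) (fun t _ => rfl) (le_trans
        (mul_le_mul_of_nonneg_left ?_ (Real.exp_pos _).le) hC)
      simp only [ix, pow_one]
      nlinarith [mul_le_mul_of_nonneg_left h1 (show 0 ≤ δ * M * L ^ N8 by positivity)]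
    · simp only [ix, wl11, pow_one]
      exact (H2 a b l).2.le (pw_R hR 3) (by nlinarith [H.hL])
    · simp only [ix, wd11 hR, pow_one]
      have h3 := fun k => T_cd (p := 0) (ker_kP a b k) (a2 k).cd ((a2 k).vs.vn hS)
      refine ((Bd.sum D Finset.univ (fun k => (cd_pd (h3 k) l).contDiffOn) fun k =>
        u.K.P2 a b k _ _ _ _ _ _ H.h1 H.h2 hs hR (H.one N0) (a2 k).cd ((a2 k).vs.vn hS) (b2 k)
          l).congr D fun y _ => ?_).le (pw_wU hR) ?_
      · rw [e2]; exact (pd_sum3 h3 l y).symm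
      · simp only [Fin.sum_univ_three]; linarith
    · refine le_trans ?_ H.sm
      simp only [ix]
      nlinarith [mul_le_mul_of_nonneg_left h1 (show 0 ≤ δ * Real.exp (L ^ N0) by positivity),
        mul_nonneg hκ (show 0 ≤ δ * Real.exp (L ^ N0) by positivity)]

theorem big_exp (hL : 2 ≤ L) (a b : ℕ) :
    L ^ a * Real.exp (L ^ b) ≤ Real.exp (L ^ (a + b + 1)) := by
  have h1 : 1 ≤ L := by linarith
  have h2 : L ^ a ≤ L ^ (a + b) := pow_le_pow_right₀ h1 (by omega)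
  have h3 : L ^ b ≤ L ^ (a + b) := pow_le_pow_right₀ h1 (by omega)
  have h4 : L ^ a + L ^ b ≤ L ^ (a + b + 1) := by
    rw [pow_succ]; nlinarith [pow_pos (show 0 < L by linarith) (a + b)]
  refine le_trans ?_ (Real.exp_le_exp.2 h4)
  rw [Real.exp_add]
  exact mul_le_mul_of_nonneg_right (by linarith [Real.add_one_le_exp (L ^ a)]) (Real.exp_pos _).le

theorem Hyp.scale {s' : ℝ × ℝ} (hR : 0 < R) (h : Hyp N R s k L δ d) (h1 : s'.1 ∈ Icc 0 s.1)
    (h2 : s'.2 ∈ Icc 0 s.2) : Hyp N R s' k L δ d :=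
  ⟨h.1, h.2.1, fun i j => ⟨(h.2.2.1 i j).1.scale pw1 h1 h2, fun l =>
    ((h.2.2.1 i j).2.1 l).scale (pw_R hR 2) h1 h2, (h.2.2.1 i j).2.2.scale (pw_R hR 2) h1 h2⟩,
    h.2.2.2.1.scale pw1 h1 h2, h.2.2.2.2.1.scale (pw_R hR 4) h1 h2,
    fun b => (h.2.2.2.2.2 b).scale (pw_R hR 4) h1 h2⟩

theorem corr2 : CORR2 := by
  obtain ⟨A, m, N, N0, u⟩ := ex_Uc
  obtain ⟨N8, E2⟩ := est2
  refine ⟨N0 + N8 + 1 + N0 + 1, m, u.K.pos, fun R U S d hR hU hG hS hd h0 hex => ?_⟩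
  have B : Bg R U S d := ⟨⟨hR, hU, hG⟩, hS, hd, h0⟩
  have key : ∀ {L δ : ℝ}, 2 ≤ L → 0 ≤ δ → Real.exp (L ^ N0) * (δ * L ^ N0 * L ^ N8) * 2 ≤
      δ * Real.exp (L ^ (N0 + N8 + 1 + N0 + 1)) := fun {L δ} hL hδ => by
    refine le_trans ?_ (mul_le_mul_of_nonneg_left (big_exp hL _ _) hδ)
    rw [pow_succ, pow_add]
    nlinarith [mul_le_mul_of_nonneg_left hL
      (show 0 ≤ Real.exp (L ^ N0) * (δ * L ^ N0 * L ^ N8) by positivity)]
  have key2 : ∀ {L δ : ℝ}, 2 ≤ L → 0 ≤ δ → Real.exp (L ^ N0) * (δ * L ^ N0) ≤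
      Real.exp (L ^ N0) * (δ * L ^ N0 * L ^ N8) := fun {L δ} hL hδ =>
    mul_le_mul_of_nonneg_left (le_mul_of_one_le_right (by positivity)
      (one_le_pow₀ (by linarith))) (Real.exp_pos _).le
  have sc : ∀ {k s L δ}, s.1 ∈ Icc 0 (m k) → s.2 ∈ Icc 0 (m k) →
      Hyp (N0 + N8 + 1 + N0 + 1) R s k L δ d → Sc m N0 R s k L δ d := fun h1 h2 h =>
    ⟨h.1, h1, h2, ⟨h.2.2.1, h.2.2.2.1⟩, h.2.2.2.2.1, h.2.2.2.2.2, by
      have := key h.1 h.2.2.2.2.1.nonneg
      have := key2 h.1 h.2.2.2.2.1.nonneg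
      linarith [h.2.1]⟩
  have e : Ex m N0 R d := fun k => by
    obtain ⟨μ, hμ, L, δ, h⟩ := hex k
    have h1 : 0 < min μ (m k) := lt_min hμ (u.K.pos k)
    exact ⟨_, h1, L, δ, sc ⟨h1.le, min_le_right _ _⟩ ⟨h1.le, min_le_right _ _⟩
      (h.scale hR ⟨h1.le, min_le_left _ _⟩ ⟨h1.le, min_le_left _ _⟩)⟩
  obtain ⟨μ, -, L0, δ0, H0⟩ := e 0
  obtain ⟨a, b⟩ := u.lim B e H0
  have n := u.ne B H0 a b
  have hF := u.fix B e
  refine ⟨(mk d (Lim S d)).1, mk_reg hd a n, fun y hy => ⟨(mk_off a hy).1, (mk_off a hy).2.1⟩,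
    fun y hy => fix_sol B a n hF hy, fun k s L δ h1 h2 h => ?_⟩
  have H := sc h1 h2 h
  have hδ := H.eh.nonneg
  have h3 := key h.1 hδ
  have h4 := key2 h.1 hδ
  have h5 : 0 ≤ Real.exp (L ^ N0) * (δ * L ^ N0 * L ^ N8) := by have := h.1; positivity
  refine ⟨out1 u B H a (u.lim B e H).2 (h4.trans (by linarith)), fun k' L2 hk hs H2 => ?_⟩
  subst hk
  refine out2 u E2 B H a (u.lim B e H).2 hF hs H2 ?_
  have h6 : 0 ≤ (1 + L2) / s.2 := by have := (H2 0 0 0).2.nonneg; positivity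
  rw [mul_div_assoc, ← mul_assoc]
  exact mul_le_mul_of_nonneg_right (by linarith) h6

theorem cone_gam (R : ℝ) : Cone R (Gam R) := by
  refine ⟨gam_closed R, Subset.rfl, fun y hy t ht w h0 h1 h2 => ?_⟩
  obtain ⟨a, b, c⟩ := hy
  simp only [Gam, mem_ofPred_eq, PiLp.add_apply, PiLp.smul_apply, smul_eq_mul, h0, abs_le] at *
  refine ⟨by linarith, ⟨?_, ?_⟩, ?_, ?_⟩ <;> nlinarith

theorem corr : CORR := by
  obtain ⟨N, m, hm, H⟩ := corr2
  exact ⟨N, m, hm, fun R U d hR hU hG => H R U _ d hR hU hG (cone_gam R)⟩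

end Vale.Agent.P354XC
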